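import Vale.Agent.P146.Lower.Defs
import Vale.Agent.P157.Par.QConc

/-! P146 lower bound: the replica convolution multiplies the susceptibilities `D(l)`, so the iterates have
diagonal at least `β^j D(0)^(j+1)`. -/

open Finset Real
open Vale.Agent.P168.MP (lin att sp)
open Vale.Agent.P157.Par (Prof)

noncomputable section

namespace Vale.Agent.P146.Lower

/-- susceptibility of a level function -/
def dlev (R : ℕ) (w : ℕ → ℝ) (l : ℕ) : ℝ := w R - ((l:ℝ) * w l + ∑ i ∈ Ico l R, w i) / R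

lemma dlev_top {R : ℕ} (hR : 1 ≤ R) (w : ℕ → ℝ) : dlev R w R = 0 := by
  have : (R:ℝ) ≠ 0 := Nat.cast_ne_zero.2 (by omega)
  simp [dlev]; field_simp; ring

lemma dlev_step {R : ℕ} (w : ℕ → ℝ) {l : ℕ} (hl : l < R) :
    dlev R w l - dlev R w (l + 1) = ((l:ℝ) + 1) / R * (w (l + 1) - w l) := by
  simp only [dlev, sum_eq_sum_Ico_succ_bot hl w]
  push_cast; ring

lemma dlev_top_eq {R : ℕ} {q : ℕ → ℝ} (hR : 1 ≤ R) (h1 : q R = 1) : dlev R q 0 = top R q := by
  have : (R:ℝ) ≠ 0 := Nat.cast_ne_zero.2 (by omega)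
  simp only [dlev, top, h1, sum_sub_distrib, sum_const, card_range, nsmul_eq_mul, mul_one,
    Nat.Ico_zero_eq_range, Nat.cast_zero, zero_mul, zero_add]
  field_simp

lemma range'_sum (f : ℕ → ℝ) : ∀ (k a : ℕ), ((List.range' a k).map f).sum = ∑ i ∈ Ico a (a + k), f i
  | 0, a => by simp
  | k + 1, a => by
    rw [List.range'_succ, List.map_cons, List.sum_cons, range'_sum f k (a + 1),
      sum_eq_sum_Ico_succ_bot (show a < a + (k + 1) by omega) f, show a + 1 + k = a + (k + 1) by omega]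

/-- the coefficient of a new branch, summed against a level function -/
lemma branch_sum {R : ℕ} (f : ℕ → ℝ) {a : ℕ} (ha : a ≤ R + 1) :
    ∑ i ∈ Ico a (R + 1), (lin R i - lin R (i + 1)) * f i =
      if a ≤ R then f R * (lin R R - lin R (R + 1)) + ∑ i ∈ Ico a R, (lin R i - lin R (i + 1)) * f i else 0 := by
  split_ifs with h
  · rw [sum_Ico_succ_top h]; ring
  · rw [show a = R + 1 by omega, Ico_self, sum_empty]

lemma branch_val {R : ℕ} (hR : 1 ≤ R) (f : ℕ → ℝ) {a : ℕ} (ha : a ≤ R) :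
    ((List.range' a (R + 1 - a)).map fun i => (lin R i - lin R (i + 1)) * f i).sum =
      f R - (∑ i ∈ Ico a R, f i) / R := by
  rw [range'_sum, show a + (R + 1 - a) = R + 1 by omega, branch_sum f (by omega), if_pos ha,
    Vale.Agent.P157.Par.lin_sub_top hR, mul_one, sum_div, sub_eq_add_neg, ← sum_neg_distrib]
  refine congrArg _ (sum_congr rfl fun i hi => ?_)
  rw [Vale.Agent.P157.Par.lin_sub (mem_Ico.1 hi).2]
  ring

/-- closed form of the convolution -/
lemma conv_eq {R : ℕ} (hR : 1 ≤ R) (q v : ℕ → ℝ) {l : ℕ} (hl : l ≤ R) :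
    conv R q v l = q l * dlev R v l + v l * dlev R q l +
      ((l:ℝ) * (q l * v l) - ∑ i ∈ range l, q i * v i) / R := by
  have hR0 : (R:ℝ) ≠ 0 := Nat.cast_ne_zero.2 (by omega)
  have s01 : sp R [(0, l), (0, 0)] 0 1 = l := by simp [sp, hl]
  have s00 : sp R [(0, l), (0, 0)] 0 0 = R := Vale.Agent.P168.MP.sp_self _ _ _
  have s11 : sp R [(0, l), (0, 0)] 1 1 = R := Vale.Agent.P168.MP.sp_self _ _ _
  have a02 : ∀ p i, sp R ((p, i) :: [(0, l), (0, 0)]) 0 2 = min i (sp R [(0, l), (0, 0)] 0 p) := fun p i => by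
    simp [sp]
  have a21 : ∀ p i, sp R ((p, i) :: [(0, l), (0, 0)]) 2 1 = min i (sp R [(0, l), (0, 0)] p 1) := fun p i => by
    simp [sp]
  simp only [conv, att, List.map_append, List.map_cons, List.map_map, Function.comp_def, List.sum_append,
    List.sum_cons, List.sum_nil, List.map_nil, a02, a21, List.length_cons, List.length_nil, zero_add,
    s00, s01, s11, Nat.sub_zero, add_zero]
  have e1 : ((List.range' (l + 1) (R - l)).map fun i =>
      (lin R i - lin R (i + 1)) * (q (min i l) * v (min i R))).sum =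
      q l * ((List.range' (l + 1) (R - l)).map fun i => (lin R i - lin R (i + 1)) * v i).sum := by
    rw [← List.sum_map_mul_left]
    refine congrArg List.sum (List.map_congr_left fun i hi => ?_)
    rw [List.mem_range'_1] at hi
    rw [min_eq_right (by omega), min_eq_left (by omega)]
    ring
  have e2 : ((List.range' 1 R).map fun i =>
      (lin R i - lin R (i + 1)) * (q (min i R) * v (min i l))).sum =
      ((List.range' 1 R).map fun i => (lin R i - lin R (i + 1)) * (q i * v (min i l))).sum := by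
    refine congrArg List.sum (List.map_congr_left fun i hi => ?_)
    rw [List.mem_range'_1] at hi
    rw [min_eq_left (by omega : i ≤ R)]
  rw [e1, e2]
  simp only [min_self, Nat.zero_min, min_eq_left hl]
  have b2 := branch_val hR (fun i => q i * v (min i l)) (a := 1) hR
  rw [show R + 1 - 1 = R by omega] at b2
  rw [b2]
  have hm1 : lin R 1 = 1 / (R:ℝ) := by simp [lin, hR]
  have hs : ∑ i ∈ Ico 1 R, q i * v (min i l) = (∑ i ∈ range R, q i * v (min i l)) - q 0 * v 0 := by
    rw [range_eq_Ico, sum_eq_sum_Ico_succ_bot (show 0 < R by omega) fun i => q i * v (min i l)]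
    simp
  rw [hs, hm1, min_eq_right hl]
  rcases hl.eq_or_lt with rfl | hlt
  · have hm : lin l (l + 1) = 0 := by simp [lin]
    have hc : ∑ i ∈ range l, q i * v (min i l) = ∑ i ∈ range l, q i * v i :=
      sum_congr rfl fun i hi => by rw [min_eq_left (mem_range.1 hi).le]
    rw [hm, hc, dlev_top hR, dlev_top hR]
    simp only [Nat.sub_self, List.range'_zero, List.map_nil, List.sum_nil]
    field_simp
    ring
  · have b1 := branch_val hR v (a := l + 1) (by omega)
    rw [show R + 1 - (l + 1) = R - l by omega] at b1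
    have hm : lin R (l + 1) = ((l:ℝ) + 1) / R := by
      rw [lin, if_pos (by omega)]; push_cast; ring
    have hc : ∑ i ∈ range R, q i * v (min i l) = (∑ i ∈ range l, q i * v i) + v l * ∑ i ∈ Ico l R, q i := by
      rw [← sum_range_add_sum_Ico _ hl]
      congr 1
      · exact sum_congr rfl fun i hi => by rw [min_eq_left (mem_range.1 hi).le]
      · rw [mul_sum]
        exact sum_congr rfl fun i hi => by rw [min_eq_right (mem_Ico.1 hi).1]; ring
    rw [b1, hm, hc, dlev, dlev, sum_eq_sum_Ico_succ_bot hlt v]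
    field_simp
    ring

/-- **Multiplicativity**: one step of the convolution -/
lemma conv_step {R : ℕ} (q v : ℕ → ℝ) {l : ℕ} (hl : l < R) :
    ((l:ℝ) + 1) / R * (conv R q v (l + 1) - conv R q v l) =
      dlev R q l * dlev R v l - dlev R q (l + 1) * dlev R v (l + 1) := by
  have hR : 1 ≤ R := by omega
  have hR0 : (R:ℝ) ≠ 0 := Nat.cast_ne_zero.2 (by omega)
  have a := dlev_step q hl
  have b := dlev_step v hl
  rw [conv_eq hR q v hl, conv_eq hR q v hl.le, sum_range_succ,
    show dlev R q l = dlev R q (l + 1) + ((l:ℝ) + 1) / R * (q (l + 1) - q l) by linarith,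
    show dlev R v l = dlev R v (l + 1) + ((l:ℝ) + 1) / R * (v (l + 1) - v l) by linarith]
  field_simp
  push_cast
  ring

lemma dlev_conv {R : ℕ} (hR : 1 ≤ R) (q v : ℕ → ℝ) : ∀ k l, l + k = R →
    dlev R (conv R q v) l = dlev R q l * dlev R v l
  | 0, l, h => by
    obtain rfl : l = R := by omega
    simp [dlev_top hR]
  | k + 1, l, h => by
    have hl : l < R := by omega
    have := dlev_step (conv R q v) hl
    rw [conv_step q v hl, dlev_conv hR q v k (l + 1) (by omega)] at this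
    linarith

lemma dlev_mul (R : ℕ) (w : ℕ → ℝ) (c : ℝ) (l : ℕ) : dlev R (fun i => c * w i) l = c * dlev R w l := by
  simp only [dlev, ← mul_sum]; ring

lemma dlev_lev {R : ℕ} (hR : 1 ≤ R) (β : ℝ) (q : ℕ → ℝ) : ∀ j l, l ≤ R →
    dlev R (lev β R q j) l = β ^ j * dlev R q l ^ (j + 1)
  | 0, l, _ => by simp [lev]
  | j + 1, l, hl => by
    rw [lev, dlev_mul, dlev_conv hR _ _ (R - l) l (by omega), dlev_lev hR β q j l hl]
    ring

lemma dlev_bounds {R : ℕ} {q : ℕ → ℝ} (hR : 1 ≤ R) (hq : Prof R q 1) : ∀ k l, l + k = R →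
    0 ≤ dlev R q l ∧ dlev R q l ≤ q R - q l
  | 0, l, h => by
    obtain rfl : l = R := by omega
    simp [dlev_top hR]
  | k + 1, l, h => by
    have hl : l < R := by omega
    obtain ⟨a, b⟩ := dlev_bounds hR hq k (l + 1) (by omega)
    have e := dlev_step q hl
    have m := hq.mono l hl
    have hk1 : ((l:ℝ) + 1) / R ≤ 1 := by
      rw [div_le_one (by positivity)]; exact_mod_cast hl
    have hk0 : 0 ≤ ((l:ℝ) + 1) / R := by positivity
    constructor
    · nlinarith
    · nlinarith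

lemma dlev_mem {R : ℕ} {q : ℕ → ℝ} (hR : 1 ≤ R) (hq : Prof R q 1) {l : ℕ} (hl : l ≤ R) :
    0 ≤ dlev R q l ∧ dlev R q l ≤ 1 := by
  obtain ⟨a, b⟩ := dlev_bounds hR hq (R - l) l (by omega)
  exact ⟨a, b.trans (by linarith [hq.top, (Vale.Agent.P157.Par.Prof.mem hq hl).1])⟩

lemma lev_zero_nonneg {R : ℕ} {q : ℕ → ℝ} {β : ℝ} (hβ : 0 ≤ β) (hR : 1 ≤ R) (hq : Prof R q 1) :
    ∀ j, 0 ≤ lev β R q j 0
  | 0 => hq.zero
  | j + 1 => by
    show 0 ≤ β * conv R q (lev β R q j) 0
    rw [conv_eq hR _ _ (Nat.zero_le R), dlev_lev hR β q j 0 (Nat.zero_le R)]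
    have h := (dlev_mem hR hq (Nat.zero_le R)).1
    have := lev_zero_nonneg hβ hR hq j
    have := hq.zero
    simp only [Nat.cast_zero, zero_mul, range_zero, sum_empty, sub_zero, zero_div, add_zero]
    positivity

lemma lev_step {R : ℕ} {q : ℕ → ℝ} (β : ℝ) (hR : 1 ≤ R) (j : ℕ) {l : ℕ} (hl : l < R) :
    ((l:ℝ) + 1) / R * (lev β R q j (l + 1) - lev β R q j l) =
      β ^ j * (dlev R q l ^ (j + 1) - dlev R q (l + 1) ^ (j + 1)) := by
  rw [← dlev_step _ hl, dlev_lev hR β q j l hl.le, dlev_lev hR β q j (l + 1) hl, mul_sub]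

theorem lev_top_ge {β : ℝ} (hβ : 0 ≤ β) {R : ℕ} {q : ℕ → ℝ} (hR : 1 ≤ R) (hq : Prof R q 1)
    (h1 : q R = 1) (j : ℕ) : β ^ j * top R q ^ (j + 1) ≤ lev β R q j R := by
  have key : ∀ k, k ≤ R → lev β R q j 0 + β ^ j * (dlev R q 0 ^ (j + 1) - dlev R q k ^ (j + 1)) ≤
      lev β R q j k := by
    intro k
    induction k with
    | zero => intro _; simp
    | succ k ih =>
      intro hk
      have hl : k < R := hk
      have e := lev_step (q := q) β hR j hl
      have m := hq.mono k hl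
      have h1' := (dlev_mem hR hq hk).1
      have hd : dlev R q (k + 1) ≤ dlev R q k := by
        have := dlev_step q hl
        have : 0 ≤ ((k:ℝ) + 1) / R * (q (k + 1) - q k) := mul_nonneg (by positivity) (by linarith)
        linarith
      have hp : 0 ≤ β ^ j * (dlev R q k ^ (j + 1) - dlev R q (k + 1) ^ (j + 1)) :=
        mul_nonneg (pow_nonneg hβ j) (sub_nonneg.2 (pow_le_pow_left₀ h1' hd _))
      have hk1 : ((k:ℝ) + 1) / R ≤ 1 := by rw [div_le_one (by positivity)]; exact_mod_cast hl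
      have hk0 : 0 < ((k:ℝ) + 1) / R := by positivity
      have hd0 : 0 ≤ lev β R q j (k + 1) - lev β R q j k := by
        by_contra hc
        have := mul_neg_of_pos_of_neg hk0 (not_le.1 hc)
        linarith
      have := mul_le_mul_of_nonneg_right hk1 hd0
      have := ih (by omega)
      linarith
  have := key R le_rfl
  have h0 := lev_zero_nonneg hβ hR hq j
  rw [dlev_top hR, zero_pow (by omega : j + 1 ≠ 0), sub_zero, dlev_top_eq hR h1] at this
  linarith

lemma pow_sub_le {x y : ℝ} (hy : 0 ≤ y) (hxy : y ≤ x) (hx : x ≤ 1) : ∀ j : ℕ,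
    x ^ (j + 1) - y ^ (j + 1) ≤ ((j:ℝ) + 1) * (x - y)
  | 0 => by simp
  | j + 1 => by
    have ih := pow_sub_le hy hxy hx j
    have h1 : y ^ (j + 1) ≤ 1 := pow_le_one₀ hy (hxy.trans hx)
    have h0 : 0 ≤ x ^ (j + 1) - y ^ (j + 1) := sub_nonneg.2 (pow_le_pow_left₀ hy hxy _)
    have e : x ^ (j + 1 + 1) - y ^ (j + 1 + 1) =
        x * (x ^ (j + 1) - y ^ (j + 1)) + y ^ (j + 1) * (x - y) := by ring
    have := mul_le_of_le_one_left h0 hx
    have := mul_le_of_le_one_left (sub_nonneg.2 hxy) h1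
    rw [e]; push_cast; linarith

theorem abs_lev_le (β : ℝ) (j : ℕ) : ∃ C : ℝ, ∀ (R : ℕ) (q : ℕ → ℝ), 1 ≤ R → Prof R q 1 →
    ∀ l ≤ R, |lev β R q j l| ≤ C := by
  have h0 : ∀ j : ℕ, ∃ C : ℝ, ∀ (R : ℕ) (q : ℕ → ℝ), 1 ≤ R → Prof R q 1 → |lev β R q j 0| ≤ C := by
    intro j
    induction j with
    | zero => exact ⟨1, fun R q _ hq => by
        have := Vale.Agent.P157.Par.Prof.mem hq (Nat.zero_le R)
        rw [lev, abs_of_nonneg this.1]; exact this.2⟩
    | succ j ih =>
      obtain ⟨C, hC⟩ := ih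
      refine ⟨|β| * (|β| ^ j + C), fun R q hR hq => ?_⟩
      show |β * conv R q (lev β R q j) 0| ≤ _
      rw [conv_eq hR _ _ (Nat.zero_le R), dlev_lev hR β q j 0 (Nat.zero_le R)]
      obtain ⟨d0, d1⟩ := dlev_mem hR hq (Nat.zero_le R)
      obtain ⟨a0, a1⟩ := Vale.Agent.P157.Par.Prof.mem hq (Nat.zero_le R)
      simp only [Nat.cast_zero, zero_mul, range_zero, sum_empty, sub_zero, zero_div, add_zero]
      rw [abs_mul]
      refine mul_le_mul_of_nonneg_left ((abs_add_le _ _).trans (add_le_add ?_ ?_)) (abs_nonneg _)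
      · rw [abs_mul, abs_mul, abs_pow, abs_pow, abs_of_nonneg a0, abs_of_nonneg d0]
        calc q 0 * (|β| ^ j * dlev R q 0 ^ (j + 1)) ≤ 1 * (|β| ^ j * 1) := by
              gcongr; exact pow_le_one₀ d0 d1
          _ = |β| ^ j := by ring
      · rw [abs_mul, abs_of_nonneg d0]
        exact (mul_le_of_le_one_right (abs_nonneg _) d1).trans (hC R q hR hq)
  obtain ⟨C, hC⟩ := h0 j
  refine ⟨C + |β| ^ j * ((j:ℝ) + 1), fun R q hR hq l hl => ?_⟩
  have key : ∀ k, k ≤ R → |lev β R q j k| ≤ C + |β| ^ j * ((j:ℝ) + 1) * (q k - q 0) := by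
    intro k
    induction k with
    | zero => intro _; simpa using hC R q hR hq
    | succ k ih =>
      intro hk
      have hl' : k < R := hk
      have e := lev_step (q := q) β hR j hl'
      have d := dlev_step q hl'
      have hk0 : 0 < ((k:ℝ) + 1) / R := by positivity
      obtain ⟨y0, -⟩ := dlev_mem hR hq hk
      obtain ⟨-, x1⟩ := dlev_mem hR hq hl'.le
      have hm : 0 ≤ ((k:ℝ) + 1) / R * (q (k + 1) - q k) := mul_nonneg hk0.le (sub_nonneg.2 (hq.mono k hl'))
      have hp := pow_sub_le y0 (by linarith) x1 j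
      have hp0 : 0 ≤ dlev R q k ^ (j + 1) - dlev R q (k + 1) ^ (j + 1) :=
        sub_nonneg.2 (pow_le_pow_left₀ y0 (by linarith) _)
      have hb : |lev β R q j (k + 1) - lev β R q j k| ≤ |β| ^ j * ((j:ℝ) + 1) * (q (k + 1) - q k) := by
        refine le_of_mul_le_mul_left ?_ hk0
        rw [← abs_of_pos hk0, ← abs_mul, e, abs_mul, abs_pow, abs_of_nonneg hp0, abs_of_pos hk0]
        calc |β| ^ j * (dlev R q k ^ (j + 1) - dlev R q (k + 1) ^ (j + 1))
            ≤ |β| ^ j * (((j:ℝ) + 1) * (dlev R q k - dlev R q (k + 1))) :=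
              mul_le_mul_of_nonneg_left hp (by positivity)
          _ = _ := by rw [d]; ring
      have := abs_sub_abs_le_abs_sub (lev β R q j (k + 1)) (lev β R q j k)
      have := ih (by omega)
      linarith
  refine (key l hl).trans (add_le_add_right (mul_le_of_le_one_right (by positivity) ?_) _)
  linarith [(Vale.Agent.P157.Par.Prof.mem hq hl).2, hq.zero]

end Vale.Agent.P146.Lower
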