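import Vale.Agent.P146.Lower.TestTrace

/-! P146 lower bound: the free energy against the divergence of the Chebyshev vector field. -/

open MeasureTheory Finset Real Filter ProbabilityTheory
open Vale.Agent.P150 (gauss)

noncomputable section

namespace Vale.Agent.P146.Lower.Test

variable {n : ℕ}

lemma sum_pairs (f : Fin n → Fin n → ℝ) (hf : ∀ a b, f a b = f b a) :
    ∑ a, ∑ b, f a b = ∑ a, f a a + 2 * ∑ e : Edge n, f e.1.1 e.1.2 := by
  have hsp : ∀ a b, f a b =
      (if a = b then f a b else 0) + ((if a < b then f a b else 0) + if b < a then f b a else 0) := fun a b => by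
    rcases lt_trichotomy a b with h | rfl | h
    · simp [h.ne, h, h.not_gt]
    · simp
    · simp [h.ne', h, h.not_gt, hf a b]
  have hE : ∑ a, ∑ b, (if a < b then f a b else 0) = ∑ e : Edge n, f e.1.1 e.1.2 := by
    rw [← Fintype.sum_prod_type' (fun a b : Fin n => if a < b then f a b else 0), ← sum_filter]
    exact sum_subtype _ (by simp) _
  conv_lhs => enter [2, a, 2, b]; rw [hsp a b]
  simp only [sum_add_distrib, sum_ite_eq, mem_univ, if_true]
  rw [sum_comm (f := fun a b => if b < a then f b a else 0), hE]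
  ring

lemma two_sum_edge_le (f : Fin n → Fin n → ℝ) (hf : ∀ a b, f a b = f b a) (h0 : ∀ a, 0 ≤ f a a) :
    2 * ∑ e : Edge n, f e.1.1 e.1.2 ≤ ∑ a, ∑ b, f a b := by
  rw [sum_pairs f hf]
  linarith [sum_nonneg (fun a (_ : a ∈ (univ : Finset (Fin n))) => h0 a)]

lemma bil_self_eq (A : Matrix (Fin n) (Fin n) ℝ) (hA : ∀ a b, A a b = A b a) (x : Cfg n) :
    bil A x x = A.trace + 2 * ∑ e : Edge n, A e.1.1 e.1.2 * bond x e := by
  rw [bil, sum_pairs (fun a b => spin (x a) * A a b * spin (x b)) fun a b => by rw [hA a b]; ring]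
  congr 1
  · refine sum_congr rfl fun a _ => ?_
    cases x a <;> simp [spin]
  · exact congrArg _ (sum_congr rfl fun e _ => by simp only [bond]; ring)

/-- index set of the terms of the derivative of `φ` -/
def idx (K : ℕ) : Finset (Σ _ : ℕ, ℕ) := (range K).sigma fun j => range (j + 1)

/-- `n ∂_{cd} V_{ab}` -/
def dV (a : ℕ → ℝ) (K : ℕ) (A : Matrix (Fin n) (Fin n) ℝ) (x y u v : Fin n) : ℝ :=
  ∑ i ∈ idx K, a i.1 * (cheb A i.2 x u * cheb A (i.1 - i.2) y v + cheb A i.2 x v * cheb A (i.1 - i.2) y u)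

lemma dV_swap (a : ℕ → ℝ) (K : ℕ) (A : Matrix (Fin n) (Fin n) ℝ) (x y u v : Fin n) :
    dV a K A x y u v = dV a K A x y v u :=
  sum_congr rfl fun i _ => by ring

lemma dV_swap' (a : ℕ → ℝ) (K : ℕ) (A : Matrix (Fin n) (Fin n) ℝ) (x y u v : Fin n) :
    dV a K A x y u v = dV a K A y x u v := by
  simp only [dV, idx, sum_sigma]
  refine sum_congr rfl fun j _ => ?_
  rw [← sum_range_reflect]
  refine sum_congr rfl fun m hm => ?_
  have h : m ≤ j := Nat.lt_succ_iff.1 (mem_range.1 hm)
  simp only [Nat.add_sub_cancel, Nat.sub_sub_self h]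
  ring

lemma sum4 (f : Fin n → Fin n → Fin n → Fin n → ℝ) :
    ∑ x, ∑ y, ∑ u, ∑ v, f x y u v =
      ∑ z : Fin n × Fin n × Fin n × Fin n, f z.1 z.2.1 z.2.2.1 z.2.2.2 := by
  simp only [Fintype.sum_prod_type]

lemma trace_mul_symm {A B : Matrix (Fin n) (Fin n) ℝ} (hB : B.IsSymm) :
    (A * B).trace = ∑ x, ∑ u, A x u * B x u := by
  simp only [Matrix.trace, Matrix.diag_apply, Matrix.mul_apply]
  exact sum_congr rfl fun x _ => sum_congr rfl fun u _ => by rw [hB.apply x u]

variable {A B A' B' : Matrix (Fin n) (Fin n) ℝ}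

lemma four_straight (hA : A'.IsSymm) (hB : B'.IsSymm) :
    ∑ x, ∑ y, ∑ u, ∑ v, (A x u * B y v) * (A' x u * B' y v) = (A * A').trace * (B * B').trace := by
  rw [trace_mul_symm hA, trace_mul_symm hB, sum_mul_sum]
  refine sum_congr rfl fun x _ => sum_congr rfl fun y _ => ?_
  rw [sum_mul_sum]
  exact sum_congr rfl fun u _ => sum_congr rfl fun v _ => by ring

lemma four_cross (hA : A'.IsSymm) (hB : B'.IsSymm) :
    ∑ x, ∑ y, ∑ u, ∑ v, (A x u * B y v) * (A' x v * B' y u) = ((A * B') * (B * A')).trace := by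
  conv_rhs => simp only [Matrix.trace, Matrix.diag_apply]
  refine sum_congr rfl fun x _ => ?_
  rw [Matrix.mul_apply]
  refine sum_congr rfl fun y _ => ?_
  rw [Matrix.mul_apply, Matrix.mul_apply, sum_mul_sum]
  refine sum_congr rfl fun u _ => sum_congr rfl fun v _ => ?_
  rw [hA.apply x v, hB.apply y u]
  ring

lemma four_pair (hA : A'.IsSymm) (hB : B'.IsSymm) :
    ∑ x, ∑ y, ∑ u, ∑ v, (A x u * B y v + A x v * B y u) * (A' x u * B' y v + A' x v * B' y u) =
      2 * ((A * A').trace * (B * B').trace + ((A * B') * (B * A')).trace) := by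
  have h1 : ∀ (P Q : Fin n → Fin n → Fin n → Fin n → ℝ),
      (∀ x y u v, Q x y u v = P x y v u) → ∑ x, ∑ y, ∑ u, ∑ v, Q x y u v = ∑ x, ∑ y, ∑ u, ∑ v, P x y u v :=
    fun P Q h => sum_congr rfl fun x _ => sum_congr rfl fun y _ => by
      rw [sum_comm]; simp only [h]
  have s' := (h1 (fun x y u v => (A x u * B y v) * (A' x u * B' y v))
    (fun x y u v => (A x v * B y u) * (A' x v * B' y u)) fun _ _ _ _ => rfl).trans (four_straight hA hB)
  have c' := (h1 (fun x y u v => (A x u * B y v) * (A' x v * B' y u))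
    (fun x y u v => (A x v * B y u) * (A' x u * B' y v)) fun _ _ _ _ => rfl).trans (four_cross hA hB)
  simp only [add_mul, mul_add, sum_add_distrib]
  rw [four_straight hA hB, four_cross hA hB, s', c']
  ring

/-- all four indices free -/
lemma sum_dV_sq (a : ℕ → ℝ) (K : ℕ) (g : Edge n → ℝ) :
    ∑ x, ∑ y, ∑ u, ∑ v, dV a K (Wm g) x y u v ^ 2 = ∑ i ∈ idx K, ∑ k ∈ idx K, a i.1 * a k.1 *
      (2 * ((cheb (Wm g) i.2 * cheb (Wm g) k.2).trace *
          (cheb (Wm g) (i.1 - i.2) * cheb (Wm g) (k.1 - k.2)).trace +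
        ((cheb (Wm g) i.2 * cheb (Wm g) (k.1 - k.2)) *
          (cheb (Wm g) (i.1 - i.2) * cheb (Wm g) k.2)).trace)) := by
  rw [sum4]
  simp only [dV, sq, sum_mul_sum]
  rw [sum_comm]
  refine sum_congr rfl fun i _ => ?_
  rw [sum_comm]
  refine sum_congr rfl fun k _ => ?_
  rw [← four_pair (A := cheb (Wm g) i.2) (B := cheb (Wm g) (i.1 - i.2)) (cheb_symm g k.2)
    (cheb_symm g (k.1 - k.2)), sum4, mul_sum]
  exact sum_congr rfl fun z _ => by ring

/-- the test field -/
def field (a : ℕ → ℝ) (K : ℕ) (e : Edge n) (g : Edge n → ℝ) : ℝ :=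
  chebSum a K (Wm g) e.1.1 e.1.2 / √(n : ℝ)

lemma poly_cheb : ∀ (j : ℕ) (x y : Fin n), Poly fun g : Edge n → ℝ => cheb (Wm g) j x y
  | 0, x, y => Poly.const ((1 : Matrix (Fin n) (Fin n) ℝ) x y)
  | 1, x, y => by
    simp only [cheb, Wm, cpl, div_eq_mul_inv]
    split_ifs
    · exact (Poly.coord _).mul (Poly.const _)
    · exact (Poly.coord _).mul (Poly.const _)
    · exact (Poly.const 0).mul (Poly.const _)
  | j + 2, x, y => by
    simp only [cheb, Matrix.sub_apply, Matrix.mul_apply]
    exact (Poly.sum _ fun c _ => (poly_cheb 1 x c).mul (poly_cheb (j + 1) c y)).sub (poly_cheb j x y)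

lemma poly_field (a : ℕ → ℝ) (K : ℕ) (e : Edge n) : Poly (field a K e) := by
  unfold field
  simp only [chebSum, Matrix.sum_apply, Matrix.smul_apply, smul_eq_mul, div_eq_mul_inv]
  exact (Poly.sum _ fun j _ => (Poly.const _).mul (poly_cheb _ _ _)).mul (Poly.const _)

lemma mul_single_mul (A B : Matrix (Fin n) (Fin n) ℝ) (u v x y : Fin n) :
    (A * Matrix.single u v (1 : ℝ) * B) x y = A x u * B v y := by
  simp [Matrix.mul_apply, Matrix.single_apply, ite_and, mul_ite, ite_mul]

lemma pd_field (a : ℕ → ℝ) (K : ℕ) (e f : Edge n) (g : Edge n → ℝ) :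
    pd f (field a K e) g = dV a K (Wm g) e.1.1 e.1.2 f.1.1 f.1.2 / n := by
  have h := (HasDerivAt.fun_sum (u := range K) fun j _ =>
    (hasDerivAt_cheb g f (j + 1) e.1.1 e.1.2).const_mul (a j)).div_const √(n : ℝ)
  simp only [pd, field, chebSum, Matrix.sum_apply, Matrix.smul_apply, smul_eq_mul]
  rw [h.deriv]
  simp only [← mul_div_assoc, ← sum_div]
  rw [div_div, Real.mul_self_sqrt (Nat.cast_nonneg n)]
  congr 1
  simp only [dV, idx, sum_sigma, Matrix.sum_apply, mul_sum]
  refine sum_congr rfl fun j _ => sum_congr rfl fun m _ => ?_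
  simp only [Nat.add_sub_cancel, Matrix.mul_add, Matrix.add_mul, Matrix.add_apply, mul_single_mul]
  rw [(cheb_symm g (j - m)).apply e.1.2 f.1.2, (cheb_symm g (j - m)).apply e.1.2 f.1.1]

lemma trace_chebSum (a : ℕ → ℝ) (K : ℕ) (g : Edge n → ℝ) :
    (chebSum a K (Wm g)).trace / n = ∑ j ∈ range K, a j * tau (j + 1) n g := by
  simp only [chebSum, Matrix.trace_sum, Matrix.trace_smul, smul_eq_mul, sum_div, tau, mul_div_assoc]

/-- pointwise bound for the second moment of the divergence -/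
def major (a : ℕ → ℝ) (K n : ℕ) (g : Edge n → ℝ) : ℝ :=
  1 / 2 * ∑ j ∈ range K, ∑ p ∈ range K, a j * a p * pt (j + 1) (p + 1) n g +
    1 / 2 * ∑ i ∈ idx K, ∑ k ∈ idx K, a i.1 * a k.1 *
      (pt i.2 k.2 n g * pt (i.1 - i.2) (k.1 - k.2) n g +
        (n : ℝ)⁻¹ * qt i.2 (k.1 - k.2) (i.1 - i.2) k.2 n g)

lemma le_major (a : ℕ → ℝ) (K : ℕ) (g : Edge n → ℝ) :
    ∑ e, field a K e g ^ 2 + ∑ e, ∑ f, pd f (field a K e) g ^ 2 ≤ major a K n g := by
  refine add_le_add ?_ ?_
  · set φ := chebSum a K (Wm g) with hφ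
    have h1 : ∑ e : Edge n, field a K e g ^ 2 = (∑ e : Edge n, φ e.1.1 e.1.2 ^ 2) / n := by
      simp only [field, div_pow, Real.sq_sqrt (Nat.cast_nonneg n), ← sum_div, ← hφ]
    have h2 := two_sum_edge_le (fun x y => φ x y ^ 2) (fun x y => by rw [hφ, chebSum_symm]) fun x => sq_nonneg _
    have h3 : ∑ x, ∑ y, φ x y ^ 2 =
        ∑ j ∈ range K, ∑ p ∈ range K, a j * a p * (cheb (Wm g) (j + 1) * cheb (Wm g) (p + 1)).trace := by
      have hs : φ.IsSymm := Matrix.IsSymm.ext fun x y => by rw [hφ, chebSum_symm]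
      simp only [sq, ← trace_mul_symm hs]
      simp only [hφ, chebSum, sum_mul_sum, Matrix.trace_sum, Matrix.smul_mul, Matrix.mul_smul, smul_smul,
        Matrix.trace_smul, smul_eq_mul]
      exact sum_congr rfl fun j _ => sum_congr rfl fun p _ => by ring
    rw [h1]
    calc (∑ e : Edge n, φ e.1.1 e.1.2 ^ 2) / (n : ℝ) ≤ (1 / 2 * ∑ x, ∑ y, φ x y ^ 2) / n :=
          div_le_div_of_nonneg_right (by linarith) (Nat.cast_nonneg n)
      _ = _ := by
          rw [h3, mul_div_assoc, sum_div]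
          simp only [sum_div, pt, mul_div_assoc]
  · simp only [pd_field, div_pow, ← sum_div]
    set D := fun x y u v => dV a K (Wm g) x y u v ^ 2 with hD
    have h1 : ∀ x y, 2 * ∑ f : Edge n, D x y f.1.1 f.1.2 ≤ ∑ u, ∑ v, D x y u v := fun x y =>
      two_sum_edge_le (D x y) (fun u v => by simp only [hD, dV_swap a K _ x y u v]) fun u => sq_nonneg _
    have h2 := two_sum_edge_le (fun x y => ∑ u, ∑ v, D x y u v)
      (fun x y => by simp only [hD, dV_swap' a K _ x y]) fun x => sum_nonneg fun u _ => sum_nonneg fun v _ =>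
        sq_nonneg _
    have h3 := sum_le_sum fun (e : Edge n) (_ : e ∈ univ) => h1 e.1.1 e.1.2
    rw [← mul_sum] at h3
    calc (∑ e : Edge n, ∑ f : Edge n, D e.1.1 e.1.2 f.1.1 f.1.2) / (n : ℝ) ^ 2
        ≤ (1 / 4 * ∑ x, ∑ y, ∑ u, ∑ v, D x y u v) / (n : ℝ) ^ 2 :=
          div_le_div_of_nonneg_right (by linarith) (sq_nonneg _)
      _ = _ := by
          simp only [hD, sum_dV_sq, mul_sum, sum_div]
          refine sum_congr rfl fun i _ => sum_congr rfl fun k _ => ?_
          simp only [pt, qt]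
          ring

lemma lim_major (a : ℕ → ℝ) (K : ℕ) : L1To (major a K) (∑ j ∈ range K, ((j : ℝ) + 2) / 2 * a j ^ 2) := by
  have h1 := (L1To.sum (range K) fun j _ => L1To.sum (range K) fun p _ =>
    (lim_pt (j + 1) (p + 1)).smul (a j * a p)).smul (1 / 2)
  have hq : ∀ i k : Σ _ : ℕ, ℕ,
      L1To (fun n g => (n : ℝ)⁻¹ * qt i.2 (k.1 - k.2) (i.1 - i.2) k.2 n g) 0 := fun i k => by
    obtain ⟨c, hc⟩ := lim_qt i.2 (k.1 - k.2) (i.1 - i.2) k.2
    exact hc.smul_seq (tendsto_inv_atTop_zero.comp tendsto_natCast_atTop_atTop)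
  have h2 := (L1To.sum (idx K) fun i _ => L1To.sum (idx K) fun k _ =>
    ((lim_pt_mul i.2 k.2 (i.1 - i.2) (k.1 - k.2)).add (hq i k)).smul (a i.1 * a k.1)).smul (1 / 2)
  convert h1.add h2 using 1
  · funext n g; rfl
  · have e1 : ∀ j ∈ range K, ∑ p ∈ range K, a j * a p * (if j + 1 = p + 1 then 1 else 0) = a j ^ 2 :=
      fun j hj => by
        rw [sum_eq_single j (fun p _ hp => by rw [if_neg (by omega), mul_zero]) fun h => absurd hj h]
        simp [sq]
    have e2 : ∀ i ∈ idx K, ∑ k ∈ idx K,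
        a i.1 * a k.1 * ((if i.2 = k.2 ∧ i.1 - i.2 = k.1 - k.2 then 1 else 0) + 0) = a i.1 ^ 2 :=
      fun i hi => by
        rw [sum_eq_single i (fun k hk hne => ?_) fun h => absurd hi h]
        · simp [sq]
        · rw [if_neg]
          · simp
          rintro ⟨h1, h2⟩
          refine hne (Sigma.ext ?_ (heq_of_eq h1.symm))
          simp only [idx, mem_sigma, mem_range] at hi hk
          omega
    rw [sum_congr rfl e1, sum_congr rfl e2, idx, sum_sigma, ← mul_add, ← sum_add_distrib, mul_sum]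
    refine sum_congr rfl fun j _ => ?_
    simp only [sum_const, card_range, nsmul_eq_mul]
    push_cast; ring

end Test

open Test in
/-- Cauchy–Schwarz against the divergence of the Chebyshev field -/
theorem test_bound (β : ℝ) (a : ℕ → ℝ) (K : ℕ) {ε : ℝ} (hε : 0 < ε) : ∀ᶠ n : ℕ in atTop,
    (max 0 (β / (2 * n) * gibbsBil n β a K - ε)) ^ 2 ≤
      Var[free β; gauss (Edge n)] * ((∑ j ∈ range K, ((j : ℝ) + 2) / 2 * a j ^ 2) + ε) := by
  have hG : L1To (fun n g => β / 2 * ∑ j ∈ range K, a j * tau (j + 1) n g) 0 := by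
    simpa [e0] using (L1To.sum (range K) fun j _ => (lim_tau (j + 1)).smul (a j)).smul (β / 2)
  filter_upwards [(tendsto_order.1 (lim_major a K).tendsto_integral).2 _ (lt_add_of_pos_right _ hε),
    (tendsto_order.1 hG.tendsto_integral).2 ε hε] with n hM hT
  have hV := poly_field (n := n) a K
  have hD := (poly_dvg hV).eb
  have hF : EB (free (n := n) β) := eb_dFree β []
  have hm : ∀ e : Edge n, EB fun g => β / √(n : ℝ) * mean β g e := fun e => by
    have h : dFree β [e] = fun g : Edge n → ℝ => β / √(n : ℝ) * mean β g e := funext fun g => by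
      show deriv (fun t => free β (Function.update g e t)) (g e) = _
      rw [(hasDerivAt_free β g e (g e)).deriv, Function.update_eq_self]
    exact h ▸ eb_dFree β [e]
  have key : ∫ g, free β g * dvg (field a K) g ∂gauss (Edge n) =
      β / (2 * n) * gibbsBil n β a K -
        ∫ g, β / 2 * ∑ j ∈ range K, a j * tau (j + 1) n g ∂gauss (Edge n) := by
    have iS : Integrable (fun g => β / (2 * n) * ∑ x : Cfg n, gibbs β g x * bil (chebSum a K (Wm g)) x x)
        (gauss (Edge n)) := by
      refine ((EB.const _).mul ?_).integrable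
      have h : (fun g => ∑ x : Cfg n, gibbs β g x * bil (chebSum a K (Wm g)) x x) = fun g : Edge n → ℝ =>
          (chebSum a K (Wm g)).trace + 2 * ∑ e : Edge n, chebSum a K (Wm g) e.1.1 e.1.2 * mean β g e := by
        funext g
        simp only [bil_self_eq _ (chebSum_symm a K g), mul_add, sum_add_distrib, ← sum_mul, sum_gibbs, one_mul,
          mul_sum, mean]
        rw [sum_comm]
        exact congrArg _ (sum_congr rfl fun e _ => sum_congr rfl fun x _ => by ring)
      rw [h]
      simp only [Matrix.trace, Matrix.diag_apply]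
      refine (EB.sum _ fun x _ => eb_chebSum a K x x).add ((EB.const 2).mul (EB.sum _ fun e _ =>
        (eb_chebSum a K _ _).mul (EB.of_le (EB.const 1) ?_ fun g => abs_mean_le β g e)))
      exact continuous_finsetSum _ fun x _ => (Continuous.div
        (continuous_exp.comp (continuous_const.mul (eb_energy x).1))
        (continuous_finsetSum _ fun y _ => continuous_exp.comp (continuous_const.mul (eb_energy y).1))
        fun g => (partition_pos β g).ne').mul continuous_const
    have iT := (hG.eb n).integrable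
    simp only [mul_comm (free β _)]
    rw [integral_dvg_mul hV hF hm fun e z t => hasDerivAt_free β z e t,
      ← integral_finsetSum _ fun e _ => ((hV e).eb.mul (hm e)).integrable, gibbsBil, ← integral_const_mul,
      ← integral_sub iS iT]
    refine integral_congr_ae (Eventually.of_forall fun g => ?_)
    simp only [field, bil_self_eq _ (chebSum_symm a K g), mul_add, sum_add_distrib, ← sum_mul, sum_gibbs, one_mul,
      ← trace_chebSum]
    rw [show ∑ x : Cfg n, gibbs β g x * (2 * ∑ e : Edge n, chebSum a K (Wm g) e.1.1 e.1.2 * bond x e) =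
      2 * ∑ e : Edge n, chebSum a K (Wm g) e.1.1 e.1.2 * mean β g e by
        simp only [mul_sum, mean]
        rw [sum_comm]
        exact sum_congr rfl fun e _ => sum_congr rfl fun x _ => by ring]
    simp only [mul_sum]
    have hs := Real.mul_self_sqrt (Nat.cast_nonneg (α := ℝ) n)
    rw [show β / (2 * (n : ℝ)) * (chebSum a K (Wm g)).trace = β / 2 * ((chebSum a K (Wm g)).trace / n) by ring,
      add_sub_cancel_left]
    exact sum_congr rfl fun e _ => by
      calc chebSum a K (Wm g) e.1.1 e.1.2 / √(n : ℝ) * (β / √(n : ℝ) * mean β g e)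
          = chebSum a K (Wm g) e.1.1 e.1.2 * β * mean β g e / (√(n : ℝ) * √(n : ℝ)) := by ring
        _ = _ := by rw [hs]; ring
  have h2 : ∫ g, dvg (field a K) g ^ 2 ∂gauss (Edge n) ≤ (∑ j ∈ range K, ((j : ℝ) + 2) / 2 * a j ^ 2) + ε := by
    refine (integral_dvg_sq_le hV).trans ((integral_mono ?_ ((lim_major a K).eb n).integrable
      (le_major a K)).trans hM.le)
    refine ((EB.sum _ fun e _ => ?_).add (EB.sum _ fun e _ => EB.sum _ fun f _ => ?_)).integrable
    · simpa only [sq] using (hV e).eb.mul (hV e).eb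
    · simpa only [sq] using ((hV e).pd f).eb.mul ((hV e).pd f).eb
  have hsq : (max 0 (β / (2 * n) * gibbsBil n β a K - ε)) ^ 2 ≤
      (∫ g, free β g * dvg (field a K) g ∂gauss (Edge n)) ^ 2 := by
    rcases le_total (β / (2 * n) * gibbsBil n β a K - ε) 0 with h | h
    · rw [max_eq_left h]; simpa using sq_nonneg _
    · rw [max_eq_right h]
      exact pow_le_pow_left₀ h (by linarith) 2
  exact hsq.trans ((sq_integral_le hF hD (integral_dvg hV)).trans
    (mul_le_mul_of_nonneg_left h2 (variance_nonneg _ _)))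

end Vale.Agent.P146.Lower
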