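import Vale.Agent.P146.Lower.Drop
import Vale.Agent.P146.Lower.Test

/-! P146 lower bound, anticoncentration: the test field against `M arctan ((F - c) / M)`. A free-energy drop of
order `n` makes the probability of every interval of length `2 M` small, uniformly in its centre. -/

open MeasureTheory Finset Real Filter ProbabilityTheory
open Vale.Agent.P150 (gauss)

noncomputable section

namespace Vale.Agent.P146.Lower

variable {n : ℕ}

/-- `∫ |X| ≤ √(∫ X²)` -/
lemma integral_abs_le_sqrt {X : (Edge n → ℝ) → ℝ} (hX : EB X) :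
    ∫ g, |X g| ∂gauss (Edge n) ≤ √(∫ g, X g ^ 2 ∂gauss (Edge n)) := by
  set m := ∫ g, |X g| ∂gauss (Edge n) with hm
  have h : 0 ≤ ∫ g, (|X g| - m) ^ 2 ∂gauss (Edge n) := integral_nonneg fun g => sq_nonneg _
  have e : ∀ g, (|X g| - m) ^ 2 = X g * X g + ((-2 * m) * |X g| + m ^ 2) := fun g => by
    rw [sub_sq, sq_abs]; ring
  simp only [e] at h
  rw [integral_add (hX.mul hX).integrable (((EB.const _).mul (EB.abs' hX)).add (EB.const _)).integrable,
    integral_add ((EB.const _).mul (EB.abs' hX)).integrable (EB.const _).integrable, integral_const_mul, ← hm] at h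
  simp only [integral_const, probReal_univ, one_smul, ← sq] at h
  exact Real.le_sqrt_of_sq_le (by linarith)

lemma lz_drop_le (β : ℝ) (a : ℕ → ℝ) (K : ℕ) (w : ℝ) (g : Edge n → ℝ) :
    lz β a K 0 g - lz β a K (-w) g ≤ w * ∑ x, gibbs β g x * bil (chebSum a K (Wm g)) x x := by
  have h := gibbs_tangent β g (fun x => bil (chebSum a K (Wm g)) x x) w
  have e0 : wgt β a K 0 0 g = fun x : Cfg n => exp (β * energy g x) := funext fun x => by simp [wgt]
  have e1 : wgt β a K (-w) 0 g = fun x : Cfg n => exp (β * energy g x - w * bil (chebSum a K (Wm g)) x x) :=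
    funext fun x => by simp [wgt, sub_eq_add_neg]
  simpa only [lz, e0, e1] using h

/-- the mean drop of the deformed log partition function -/
def drop (n : ℕ) (β : ℝ) (a : ℕ → ℝ) (K : ℕ) (w : ℝ) : ℝ :=
  ∫ g : Edge n → ℝ, (lz β a K 0 g - lz β a K (-w) g) ∂gauss (Edge n)

open Test in
/-- **A drop of order `n` spreads the free energy** -/
theorem anti_bound {β : ℝ} (hβ : 0 ≤ β) (a : ℕ → ℝ) (K : ℕ) {w : ℝ} (hw : 0 < w) {ε : ℝ} (hε : 0 < ε) :
    ∀ᶠ n : ℕ in atTop, ∀ c M : ℝ, 0 < M →
      β / (2 * n * w) * drop n β a K w * (gauss (Edge n)).real {g | |free β g - c| ≤ M} ≤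
        π * M * √((∑ j ∈ range K, ((j : ℝ) + 2) / 2 * a j ^ 2) + ε) + ε := by
  obtain ⟨C, hC, hvar⟩ := var_drop β a K w
  have hG : L1To (fun n g => β / 2 * ∑ j ∈ range K, a j * tau (j + 1) n g) 0 := by
    simpa [e0] using (L1To.sum (range K) fun j _ => (lim_tau (j + 1)).smul (a j)).smul (β / 2)
  have hlim : Tendsto (fun n : ℕ => β / w * √(C / n)) atTop (nhds 0) := by
    have h := ((tendsto_const_nhds (x := C)).div_atTop tendsto_natCast_atTop_atTop).sqrt.const_mul (β / w)
    simpa using h
  filter_upwards [(tendsto_order.1 (lim_major a K).tendsto_integral).2 _ (lt_add_of_pos_right _ hε),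
    (tendsto_order.1 hG.lim).2 (ε / 4) (by linarith), (tendsto_order.1 hlim).2 (ε / 2) (by linarith),
    eventually_ge_atTop 1] with n hM hT hD hn
  intro c M hM0
  set Q := (∑ j ∈ range K, ((j : ℝ) + 2) / 2 * a j ^ 2) + ε
  have hn0 : (0:ℝ) < n := by exact_mod_cast hn
  have hV := poly_field (n := n) a K
  have hDv := (poly_dvg hV).eb
  have hF : EB (free (n := n) β) := eb_dFree β []
  have hm : ∀ e : Edge n, EB fun g => β / √(n : ℝ) * mean β g e := fun e => by
    have h : dFree β [e] = fun g : Edge n → ℝ => β / √(n : ℝ) * mean β g e := funext fun g => by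
      show deriv (fun t => free β (Function.update g e t)) (g e) = _
      rw [(hasDerivAt_free β g e (g e)).deriv, Function.update_eq_self]
    exact h ▸ eb_dFree β [e]
  set u : (Edge n → ℝ) → ℝ := fun g => (free β g - c) / M
  set ψ : (Edge n → ℝ) → ℝ := fun g => M * arctan (u g)
  set ψ' : (Edge n → ℝ) → ℝ := fun g => 1 / (1 + u g ^ 2)
  have huc : Continuous u := (hF.1.sub continuous_const).div_const M
  have hψ1 : ∀ g, 0 ≤ ψ' g ∧ ψ' g ≤ 1 := fun g =>
    ⟨by positivity, by rw [div_le_one (by positivity)]; nlinarith [sq_nonneg (u g)]⟩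
  have hψb : ∀ g, |ψ g| ≤ π * M / 2 := fun g => by
    rw [abs_mul, abs_of_pos hM0]
    have : |arctan (u g)| ≤ π / 2 := abs_le.2 ⟨(neg_pi_div_two_lt_arctan _).le, (arctan_lt_pi_div_two _).le⟩
    calc M * |arctan (u g)| ≤ M * (π / 2) := mul_le_mul_of_nonneg_left this hM0.le
      _ = _ := by ring
  have ebψ : EB ψ := EB.of_le (EB.const _) (continuous_const.mul (continuous_arctan.comp huc)) hψb
  have ebψ' : EB ψ' := EB.of_le (EB.const 1)
    (continuous_const.div (continuous_const.add (huc.pow 2)) fun g => by positivity)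
    fun g => by rw [abs_of_nonneg (hψ1 g).1]; exact (hψ1 g).2
  -- the test identity
  set G : (Edge n → ℝ) → ℝ := fun g => ∑ x : Cfg n, gibbs β g x * bil (chebSum a K (Wm g)) x x
  set T : (Edge n → ℝ) → ℝ := fun g => β / 2 * ∑ j ∈ range K, a j * tau (j + 1) n g
  have hEBT : EB T := hG.eb n
  have hSG : ∀ g, ∑ e, field a K e g * (β / √(n : ℝ) * mean β g e) = β / (2 * n) * G g - T g := fun g => by
    simp only [G, T, field, bil_self_eq _ (chebSum_symm a K g), mul_add, sum_add_distrib, ← sum_mul, sum_gibbs,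
      one_mul, ← trace_chebSum]
    rw [show ∑ x : Cfg n, gibbs β g x * (2 * ∑ e : Edge n, chebSum a K (Wm g) e.1.1 e.1.2 * bond x e) =
      2 * ∑ e : Edge n, chebSum a K (Wm g) e.1.1 e.1.2 * mean β g e by
        simp only [mul_sum, mean]
        rw [sum_comm]
        exact sum_congr rfl fun e _ => sum_congr rfl fun x _ => by ring]
    simp only [mul_sum]
    have hs := Real.mul_self_sqrt (Nat.cast_nonneg (α := ℝ) n)
    rw [show β / (2 * (n : ℝ)) * (chebSum a K (Wm g)).trace = β / 2 * ((chebSum a K (Wm g)).trace / n) by ring,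
      add_sub_cancel_left]
    exact sum_congr rfl fun e _ => by
      calc chebSum a K (Wm g) e.1.1 e.1.2 / √(n : ℝ) * (β / √(n : ℝ) * mean β g e)
          = chebSum a K (Wm g) e.1.1 e.1.2 * β * mean β g e / (√(n : ℝ) * √(n : ℝ)) := by ring
        _ = _ := by rw [hs]; ring
  have hEBG : EB fun g => β / (2 * n) * G g - T g := by
    rw [← funext hSG]; exact EB.sum _ fun e _ => (hV e).eb.mul (hm e)
  have key : ∫ g, dvg (field a K) g * ψ g ∂gauss (Edge n) =
      ∫ g, ψ' g * (β / (2 * n) * G g - T g) ∂gauss (Edge n) := by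
    rw [integral_dvg_mul hV ebψ (G' := fun e g => ψ' g * (β / √(n : ℝ) * mean β g e))
      (fun e => ebψ'.mul (hm e)) fun e z t => ?_]
    · rw [← integral_finsetSum _ fun e _ => ((hV e).eb.mul (ebψ'.mul (hm e))).integrable]
      refine integral_congr_ae (Eventually.of_forall fun g => ?_)
      simp only
      rw [← hSG, mul_sum]
      exact sum_congr rfl fun e _ => by ring
    · have h := ((((hasDerivAt_free β z e t).sub_const c).div_const M).arctan).const_mul M
      refine h.congr_deriv ?_
      simp only [ψ', u]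
      have := hM0.ne'
      field_simp
  -- the right-hand side
  have hdiv : ∫ g, dvg (field a K) g ^ 2 ∂gauss (Edge n) ≤ Q := by
    refine (integral_dvg_sq_le hV).trans ((integral_mono ?_ ((lim_major a K).eb n).integrable
      (le_major a K)).trans hM.le)
    refine ((EB.sum _ fun e _ => ?_).add (EB.sum _ fun e _ => EB.sum _ fun f _ => ?_)).integrable
    · simpa only [sq] using (hV e).eb.mul (hV e).eb
    · simpa only [sq] using ((hV e).pd f).eb.mul ((hV e).pd f).eb
  have hR : ∫ g, dvg (field a K) g * ψ g ∂gauss (Edge n) ≤ π * M / 2 * √Q := by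
    refine (integral_mono (hDv.mul ebψ).integrable ((EB.const (π * M / 2)).mul (EB.abs' hDv)).integrable
      fun g => ?_).trans ?_
    · refine (le_abs_self _).trans ?_
      rw [abs_mul, mul_comm]
      exact mul_le_mul_of_nonneg_right (hψb g) (abs_nonneg _)
    · rw [integral_const_mul]
      exact mul_le_mul_of_nonneg_left ((integral_abs_le_sqrt hDv).trans (Real.sqrt_le_sqrt hdiv)) (by positivity)
  -- the left-hand side
  set D : (Edge n → ℝ) → ℝ := fun g => lz β a K 0 g - lz β a K (-w) g
  have ebD : EB D := (eb_lz β a K 0).sub (eb_lz β a K (-w))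
  set D₀ := drop n β a K w
  have ebDc : EB fun g => D g - D₀ := ebD.sub (EB.const _)
  have hdev : ∫ g, |D g - D₀| ∂gauss (Edge n) ≤ √(C * n) :=
    (integral_abs_le_sqrt ebDc).trans (Real.sqrt_le_sqrt (hvar n hn))
  set k := β / (2 * n * w)
  have hk : 0 ≤ k := by positivity
  have hpt : ∀ g, ψ' g * (k * D₀) ≤
      ψ' g * (β / (2 * n) * G g - T g) + (|T g| + k * |D g - D₀|) := fun g => by
    obtain ⟨p0, p1⟩ := hψ1 g
    have h1 : k * D g ≤ β / (2 * n) * G g := by
      refine (mul_le_mul_of_nonneg_left (lz_drop_le β a K w g) hk).trans (le_of_eq ?_)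
      simp only [k, G]; field_simp
    have h2 := mul_le_mul_of_nonneg_left h1 p0
    have h3 : ψ' g * T g ≤ |T g| :=
      (le_abs_self _).trans (by rw [abs_mul, abs_of_nonneg p0]; exact mul_le_of_le_one_left (abs_nonneg _) p1)
    have h4 : ψ' g * (k * (D₀ - D g)) ≤ k * |D g - D₀| := by
      refine (le_abs_self _).trans ?_
      rw [abs_mul, abs_of_nonneg p0, abs_mul, abs_of_nonneg hk, abs_sub_comm]
      exact mul_le_of_le_one_left (by positivity) p1
    linarith
  have i1 := ebψ'.mul hEBG
  have i2 := (EB.abs' hEBT).add ((EB.const k).mul (EB.abs' ebDc))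
  have hlow : (k * D₀) * ∫ g, ψ' g ∂gauss (Edge n) ≤
      π * M / 2 * √Q + (∫ g, |T g| ∂gauss (Edge n) + k * √(C * n)) := by
    have h := integral_mono (ebψ'.mul (EB.const (k * D₀))).integrable (i1.add i2).integrable hpt
    rw [integral_mul_const, integral_add i1.integrable i2.integrable,
      integral_add (EB.abs' hEBT).integrable ((EB.const k).mul (EB.abs' ebDc)).integrable, integral_const_mul,
      ← key] at h
    have := mul_le_mul_of_nonneg_left hdev hk
    linarith
  have hset : MeasurableSet {g : Edge n → ℝ | |free β g - c| ≤ M} :=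
    (isClosed_le ((hF.1.sub continuous_const).abs) continuous_const).measurableSet
  have hP : (gauss (Edge n)).real {g | |free β g - c| ≤ M} ≤ 2 * ∫ g, ψ' g ∂gauss (Edge n) := by
    rw [← integral_indicator_one hset, ← integral_const_mul]
    refine integral_mono ((integrable_const 1).indicator hset) (ebψ'.integrable.const_mul 2) fun g => ?_
    by_cases hg : g ∈ {g : Edge n → ℝ | |free β g - c| ≤ M}
    · rw [Set.indicator_of_mem hg]
      simp only [Pi.one_apply, ψ']
      rw [mul_one_div, one_le_div (by positivity)]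
      have : |u g| ≤ 1 := by
        simp only [u]; rw [abs_div, abs_of_pos hM0, div_le_one hM0]; exact hg
      nlinarith [sq_abs (u g), abs_nonneg (u g)]
    · rw [Set.indicator_of_notMem hg]; exact mul_nonneg two_pos.le (hψ1 g).1
  have hT' : ∫ g, |T g| ∂gauss (Edge n) ≤ ε / 4 := by simpa only [T, sub_zero] using hT.le
  have hk2 : k * √(C * n) = β / w * √(C / n) / 2 := by
    rw [show C * (n:ℝ) = C / n * (n:ℝ) ^ 2 by field_simp, Real.sqrt_mul (by positivity), Real.sqrt_sq hn0.le]
    simp only [k]; field_simp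
  show k * D₀ * _ ≤ _
  rcases le_total (k * D₀) 0 with h | h
  · have : k * D₀ * (gauss (Edge n)).real {g | |free β g - c| ≤ M} ≤ 0 :=
      mul_nonpos_of_nonpos_of_nonneg h measureReal_nonneg
    have : 0 ≤ π * M * √Q := by positivity
    linarith
  · have := mul_le_mul_of_nonneg_left hP h
    linarith

/-- the perturbed drop is a lower bound for the drop, up to the cost of the perturbation -/
theorem drop_ge_pert (P : Par) (n : ℕ) [NeZero n] (β : ℝ) (a : ℕ → ℝ) (K : ℕ) (w : ℝ) :
    P.free n β a K 0 - P.free n β a K (-w) - 2 * P.cap ≤ drop n β a K w := by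
  have hi : ∀ u t, Integrable (fun g : Edge n → ℝ =>
      Vale.Agent.P168.MP.logZ0 P.R (Vale.Agent.P168.MP.lin P.R) (P.wp (wgt β a K t 0 g) u)) (gauss (Edge n)) :=
    fun u t => (eb_logZ0 P β a K t 0 u).integrable
  have hu : ∀ u : P.Grid,
      (∫ g, Vale.Agent.P168.MP.logZ0 P.R (Vale.Agent.P168.MP.lin P.R) (P.wp (wgt β a K 0 0 g) u) ∂gauss (Edge n)) -
        ∫ g, Vale.Agent.P168.MP.logZ0 P.R (Vale.Agent.P168.MP.lin P.R) (P.wp (wgt β a K (-w) 0 g) u) ∂gauss (Edge n) ≤
      drop n β a K w + 2 * P.cap := fun u => by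
    have h := integral_mono ((hi u 0).sub (hi u (-w)))
      (((eb_lz β a K 0).sub (eb_lz β a K (-w))).integrable.add (integrable_const (2 * P.cap))) fun g => by
        have h2 := abs_le.1 (abs_logZ0_wp_sub_le P (fun x => wgt_pos β a K 0 0 g x) u)
        have h3 := abs_le.1 (abs_logZ0_wp_sub_le P (fun x => wgt_pos β a K (-w) 0 g x) u)
        simp only [Pi.sub_apply, Pi.add_apply, lz]
        linarith
    simp only [Pi.sub_apply, Pi.add_apply] at h
    rw [integral_sub (hi u 0) (hi u (-w)),
      integral_add ((eb_lz β a K 0).sub (eb_lz β a K (-w))).integrable (integrable_const _),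
      integral_const, probReal_univ, one_smul] at h
    exact h
  have : Nonempty P.Grid := ⟨fun _ => ⟨0, P.M_pos⟩⟩
  rw [sub_le_iff_le_add]
  refine le_trans (le_of_eq ?_) ((Vale.Agent.P168.MP.avg_le_avg hu).trans_eq (Vale.Agent.P168.MP.avg_const _))
  exact (Vale.Agent.P168.MP.avg_sub _ _).symm

end Vale.Agent.P146.Lower
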