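import Vale.Agent.P146.Lower.Main
import Vale.Agent.P146.Lower.Anti

/-! P146 lower bound, conclusion: no interval of bounded length keeps a positive mass of the law of the free
energy, at every `β` above `1`. -/

open MeasureTheory Finset Real Filter ProbabilityTheory
open Vale.Agent.P150 (gauss)

noncomputable section

namespace Vale.Agent.P146.Lower

/-- **Anticoncentration**: the Lévy concentration function of the free energy tends to `0` -/
theorem anticoncentration {β : ℝ} (hβ1 : 1 < β) (M : ℝ) {ε : ℝ} (hε : 0 < ε) :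
    ∀ᶠ n : ℕ in atTop, ∀ c : ℝ, (gauss (Edge n)).real {g | |free β g - c| ≤ M} ≤ ε := by
  set M' := max M 1
  have hM1 : 1 ≤ M' := le_max_right _ _
  obtain ⟨L, hL⟩ : ∃ L, L = 256 * (π * M' + 1) / ε := ⟨_, rfl⟩
  have hL0 : 0 < L := by rw [hL]; positivity
  obtain ⟨K, hK⟩ := harmonic_large (L ^ 2 + 2)
  set H := ∑ j ∈ range K, coeffs j
  have hH2 : 2 ≤ H := by linarith [sq_nonneg L]
  have hH0 : 0 < H := by linarith
  obtain ⟨w, hw, hrate⟩ := secant_ge hβ1 K hH0
  obtain ⟨N₀, hN₀⟩ := eventually_atTop.1 hrate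
  obtain ⟨n₁, hn₁⟩ := eventually_atTop.1
    (anti_bound (show (0:ℝ) ≤ β by linarith) coeffs K hw (ε := 1) one_pos)
  refine eventually_atTop.2 ⟨max N₀ n₁ + 1, fun m hm c => ?_⟩
  obtain ⟨N, rfl⟩ : ∃ N, m = N + 1 := ⟨m - 1, by omega⟩
  have hS := hN₀ N (le_of_max_le_left (show max N₀ n₁ ≤ N by omega)) (drop (N + 1) β coeffs K w / w) fun P => by
    have := drop_ge_pert P (N + 1) β coeffs K w
    rw [mul_div_cancel₀ _ hw.ne']
    linarith
  have ht := hn₁ (N + 1) (by omega) c M' (by linarith)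
  rw [weight_eq] at ht
  push_cast at ht
  change _ ≤ π * M' * √(H / 2 + 1) + 1 at ht
  set P := (gauss (Edge (N + 1))).real {g | |free β g - c| ≤ M'}
  have hsub : {g : Edge (N + 1) → ℝ | |free β g - c| ≤ M} ⊆ {g | |free β g - c| ≤ M'} :=
    fun g (hg : |free β g - c| ≤ M) => hg.trans (le_max_left M 1)
  refine (measureReal_mono hsub).trans ?_
  change P ≤ ε
  have hP : 0 ≤ P := measureReal_nonneg
  set s := √H
  have hs0 : 0 < s := Real.sqrt_pos.2 hH0
  have hs1 : 1 ≤ s := Real.one_le_sqrt.2 (by linarith)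
  have hsH : s * s = H := Real.mul_self_sqrt hH0.le
  have hLs : L ≤ s := Real.le_sqrt_of_sq_le (by linarith)
  have h1 : H / 256 * P ≤ β / (2 * ((N : ℝ) + 1) * w) * drop (N + 1) β coeffs K w * P := by
    refine mul_le_mul_of_nonneg_right (hS.trans (le_of_eq ?_)) hP
    field_simp
  have h2 : √(H / 2 + 1) ≤ s := Real.sqrt_le_sqrt (by linarith)
  have h3 : π * M' * √(H / 2 + 1) + 1 ≤ (π * M' + 1) * s := by
    have := mul_le_mul_of_nonneg_left h2 (show 0 ≤ π * M' by positivity)
    linarith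
  have h4 : s * P * s ≤ 256 * (π * M' + 1) * s := by
    have := (h1.trans ht).trans h3
    calc s * P * s = s * s * P := by ring
      _ = H * P := by rw [hsH]
      _ ≤ _ := by linarith
  have h5 : L * P ≤ 256 * (π * M' + 1) :=
    (mul_le_mul_of_nonneg_right hLs hP).trans (le_of_mul_le_mul_right h4 hs0)
  rw [hL, div_mul_eq_mul_div, div_le_iff₀ hε] at h5
  exact le_of_mul_le_mul_left h5 (by positivity)

end Vale.Agent.P146.Lower
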