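import Vale.Agent.P146.Lower.Defs
import Vale.Agent.P157.Par.Basics

/-! P146 lower bound: growth and continuity of the deformed weight, perturbed log partition function. -/

open MeasureTheory Finset Real
open Vale.Agent.P150 (gauss)
open Vale.Agent.P168.MP (lin logZ0 ET pw spinAt allBatch BIdx gu Mark gainCap)

noncomputable section

namespace Vale.Agent.P146.Lower

variable {n : ℕ}

lemma eb_cpl (a b : Fin n) : EB (fun g : Edge n → ℝ => cpl g a b) := by
  unfold cpl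
  split_ifs with h h'
  · exact EB.proj _
  · exact EB.proj _
  · exact EB.const 0

lemma eb_cheb : ∀ (j : ℕ) (a b : Fin n), EB (fun g : Edge n → ℝ => cheb (Wm g) j a b)
  | 0, a, b => by simpa [cheb] using EB.const (S := Edge n) ((1 : Matrix (Fin n) (Fin n) ℝ) a b)
  | 1, a, b => by
    simp only [cheb, Wm, div_eq_mul_inv]
    exact (eb_cpl a b).mul (EB.const _)
  | j + 2, a, b => by
    have hW : ∀ x y : Fin n, EB (fun g : Edge n → ℝ => Wm g x y) := fun x y => by
      simp only [Wm, div_eq_mul_inv]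
      exact (eb_cpl x y).mul (EB.const _)
    simp only [cheb, Matrix.sub_apply, Matrix.mul_apply]
    exact (EB.sum _ fun c _ => (hW a c).mul (eb_cheb (j + 1) c b)).sub (eb_cheb j a b)

lemma eb_chebSum (a : ℕ → ℝ) (K : ℕ) (x y : Fin n) :
    EB (fun g : Edge n → ℝ => chebSum a K (Wm g) x y) := by
  simp only [chebSum, Matrix.sum_apply, Matrix.smul_apply, smul_eq_mul]
  exact EB.sum _ fun j _ => (EB.const _).mul (eb_cheb _ _ _)

lemma eb_bil {A : (Edge n → ℝ) → Matrix (Fin n) (Fin n) ℝ} (h : ∀ i j, EB fun g => A g i j)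
    (x y : Cfg n) : EB fun g => bil (A g) x y :=
  EB.sum _ fun i _ => EB.sum _ fun j _ => ((EB.const _).mul (h i j)).mul (EB.const _)

lemma eb_energy (x : Cfg n) : EB fun g : Edge n → ℝ => energy g x :=
  (EB.const _).mul (EB.sum _ fun e _ => (EB.proj e).mul (EB.const _))

lemma EB.abs' {F : (Edge n → ℝ) → ℝ} (h : EB F) : EB fun g => |F g| := by
  obtain ⟨hc, C, M, hM, hC⟩ := h
  exact ⟨hc.abs, C, M, hM, fun z => by rw [abs_abs]; exact hC z⟩

lemma EB.of_le {F G : (Edge n → ℝ) → ℝ} (hG : EB G) (hc : Continuous F) (h : ∀ g, |F g| ≤ G g) : EB F := by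
  obtain ⟨-, C, M, hM, hC⟩ := hG
  exact ⟨hc, C, M, hM, fun z => ((h z).trans (le_abs_self _)).trans (hC z)⟩

lemma wgt_pos (β : ℝ) (a : ℕ → ℝ) (K : ℕ) (lam : ℝ) (v : Cfg n → ℝ) (g : Edge n → ℝ) (x : Cfg n) :
    0 < wgt β a K lam v g x := exp_pos _

lemma continuous_wgt (β : ℝ) (a : ℕ → ℝ) (K : ℕ) (lam : ℝ) (v : Cfg n → ℝ) (x : Cfg n) :
    Continuous fun g : Edge n → ℝ => wgt β a K lam v g x :=
  continuous_exp.comp (((continuous_const.mul (eb_energy x).1).add
    (continuous_const.mul (eb_bil (eb_chebSum a K) x x).1)).add continuous_const)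

lemma wp_pos (P : Par) [NeZero n] {W : Cfg n → ℝ} (hW : ∀ x, 0 < W x) (u : P.Grid)
    (p : List (Mark n P.S (allBatch P.R 2))) : 0 < P.wp W u p :=
  mul_pos (hW _) (exp_pos _)

lemma continuous_wp (P : Par) [NeZero n] (β : ℝ) (a : ℕ → ℝ) (K : ℕ) (lam : ℝ) (v : Cfg n → ℝ)
    (u : P.Grid) (p : List (Mark n P.S (allBatch P.R 2))) :
    Continuous fun g : Edge n → ℝ => P.wp (wgt β a K lam v g) u p :=
  (continuous_wgt β a K lam v _).mul continuous_const

lemma Par.one_le (P : Par) : 1 ≤ P.R := (Nat.le_succ 1).trans P.two_le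

lemma ok_wp (P : Par) [NeZero n] {W : Cfg n → ℝ} (hW : ∀ x, 0 < W x) (u : P.Grid) :
    Vale.Agent.P168.MP.Ok P.R (lin P.R) (P.wp W u) :=
  Vale.Agent.P168.MP.ok_lin P.one_le (wp_pos P hW u)

lemma Par.gu_abs (P : Par) (u : P.Grid) (i : BIdx P.R 2) : |gu P.ub P.M u i| ≤ 1 := by
  obtain ⟨h1, h2⟩ := Vale.Agent.P168.MP.gu_mem P.ub_pos u i
  rw [abs_of_pos h1]
  exact h2.trans P.ub_le

/-- the perturbation costs at most `cap` -/
lemma abs_logZ0_wp_sub_le (P : Par) [NeZero n] {W : Cfg n → ℝ} (hW : ∀ x, 0 < W x) (u : P.Grid) :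
    |logZ0 P.R (lin P.R) (P.wp W u) - log (Vale.Agent.P168.MP.avg W)| ≤ P.cap :=
  Vale.Agent.P168.MP.abs_logZ0_pw_sub_le P.one_le hW
    (fun _ => by rw [abs_of_pos P.h_pos]; exact P.h_le) (P.gu_abs u)

lemma cap_nonneg (P : Par) : 0 ≤ P.cap := by unfold Par.cap; positivity

lemma abs_log_avg_le {ι : Type*} [Fintype ι] [Nonempty ι] (X : ι → ℝ) :
    |log (Vale.Agent.P168.MP.avg fun x => exp (X x))| ≤ ∑ x, |X x| := by
  set C := ∑ x, |X x|
  have h : ∀ x, |X x| ≤ C := fun x => single_le_sum (f := fun x => |X x|) (fun _ _ => abs_nonneg _) (mem_univ x)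
  have hc : (0:ℝ) < Fintype.card ι := Nat.cast_pos.2 Fintype.card_pos
  have lo : exp (-C) ≤ Vale.Agent.P168.MP.avg fun x => exp (X x) := by
    rw [← Vale.Agent.P168.MP.avg_const (Ω := ι) (exp (-C))]
    exact Vale.Agent.P168.MP.avg_le_avg fun x => exp_le_exp.2 (abs_le.1 (h x)).1
  have hi : (Vale.Agent.P168.MP.avg fun x => exp (X x)) ≤ exp C := by
    rw [← Vale.Agent.P168.MP.avg_const (Ω := ι) (exp C)]
    exact Vale.Agent.P168.MP.avg_le_avg fun x => exp_le_exp.2 (abs_le.1 (h x)).2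
  rw [abs_le]
  exact ⟨by rw [← log_exp (-C)]; exact log_le_log (exp_pos _) lo,
    by rw [← log_exp C]; exact log_le_log ((exp_pos _).trans_le lo) hi⟩

lemma eb_logAvg (β : ℝ) (a : ℕ → ℝ) (K : ℕ) (lam : ℝ) (v : Cfg n → ℝ) :
    EB fun g : Edge n → ℝ => log (Vale.Agent.P168.MP.avg (wgt β a K lam v g)) := by
  have hX : ∀ x : Cfg n, EB fun g : Edge n → ℝ => β * energy g x + lam * bil (chebSum a K (Wm g)) x x + v x :=
    fun x => (((EB.const β).mul (eb_energy x)).add ((EB.const lam).mul (eb_bil (eb_chebSum a K) x x))).add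
      (EB.const (v x))
  refine EB.of_le (EB.sum univ fun x _ => EB.abs' (hX x)) ?_ fun g => abs_log_avg_le _
  refine Continuous.log ?_ fun g => (Vale.Agent.P168.MP.avg_pos fun x => wgt_pos β a K lam v g x).ne'
  exact (continuous_finsetSum _ fun x _ => continuous_wgt β a K lam v x).div_const _

lemma eb_logZ0 (P : Par) [NeZero n] (β : ℝ) (a : ℕ → ℝ) (K : ℕ) (lam : ℝ) (v : Cfg n → ℝ) (u : P.Grid) :
    EB fun g : Edge n → ℝ => logZ0 P.R (lin P.R) (P.wp (wgt β a K lam v g) u) := by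
  refine EB.of_le ((EB.abs' (eb_logAvg β a K lam v)).add (EB.const P.cap)) ?_ fun g => ?_
  · exact Vale.Agent.P157.Par.continuous_logZ0 (continuous_wp P β a K lam v u)
      (fun g p => wp_pos P (fun x => wgt_pos β a K lam v g x) u p) P.R
  · have h := (abs_sub_abs_le_abs_sub _ _).trans
      (abs_logZ0_wp_sub_le P (fun x => wgt_pos β a K lam v g x) u)
    linarith

/-- a replica expectation of a bounded-by-polynomial observable -/
lemma eb_ET (P : Par) [NeZero n] (β : ℝ) (a : ℕ → ℝ) (K : ℕ) (lam : ℝ) (v : Cfg n → ℝ) (u : P.Grid)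
    {T : List (ℕ × ℕ)}
    {F : (Edge n → ℝ) → List (List (Mark n P.S (allBatch P.R 2))) → ℝ} {G : (Edge n → ℝ) → ℝ}
    (hF : ∀ ps, Continuous fun g => F g ps) (hG : EB G) (h : ∀ g ps, |F g ps| ≤ G g) :
    EB fun g : Edge n → ℝ => ET P.R (lin P.R) (P.wp (wgt β a K lam v g) u) T (F g) :=
  EB.of_le hG (Vale.Agent.P157.Par.continuous_ET (continuous_wp P β a K lam v u)
      (fun g p => wp_pos P (fun x => wgt_pos β a K lam v g x) u p) P.R T hF) fun g =>
    Vale.Agent.P168.MP.ET_bound (wp_pos P (fun x => wgt_pos β a K lam v g x) u) fun ps => h g ps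

lemma abs_bil_le (A : Matrix (Fin n) (Fin n) ℝ) (x y : Cfg n) : |bil A x y| ≤ ∑ i, ∑ j, |A i j| :=
  (abs_sum_le_sum_abs _ _).trans (sum_le_sum fun i _ => (abs_sum_le_sum_abs _ _).trans
    (sum_le_sum fun j _ => by
      rw [abs_mul, abs_mul, abs_spin, abs_spin, one_mul, mul_one]))

lemma eb_abs_entries {A : (Edge n → ℝ) → Matrix (Fin n) (Fin n) ℝ} (h : ∀ i j, EB fun g => A g i j) :
    EB fun g => ∑ i, ∑ j, |A g i j| :=
  EB.sum _ fun i _ => EB.sum _ fun j _ => EB.abs' (h i j)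

end Vale.Agent.P146.Lower
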