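import Vale.Agent.P146.Lower.Defs
import Vale.Agent.P150.SKNorm
import Vale.Agent.P150.Fast.OpNormBridge
import Vale.Agent.P150.Fast.PoincareC1

/-! P146, diverging lower bound: Chebyshev polynomials of the coupling matrix. Product rule, derivative,
moments of the operator norm, and the normalised trace. -/

open MeasureTheory Finset Real Matrix
open scoped Matrix.Norms.L2Operator
open Vale.Agent.P150 (gauss l1 l1_nonneg abs_le_l1)

noncomputable section

namespace Vale.Agent.P146.Lower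

variable {n : ℕ}

/-! ## Product rule -/

lemma cheb_comm (A : Matrix (Fin n) (Fin n) ℝ) (j : ℕ) : A * cheb A j = cheb A j * A := by
  induction j using Nat.twoStepInduction with
  | zero => simp [cheb]
  | one => simp [cheb]
  | more m h1 h2 => simp only [cheb, mul_sub, sub_mul, Matrix.mul_assoc, ← h2, ← h1]

lemma cheb_commute (A : Matrix (Fin n) (Fin n) ℝ) (i j : ℕ) :
    cheb A i * cheb A j = cheb A j * cheb A i := by
  induction i using Nat.twoStepInduction with
  | zero => simp [cheb]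
  | one => simpa [cheb] using cheb_comm A j
  | more m h1 h2 =>
    simp only [cheb, mul_sub, sub_mul, h1]
    rw [Matrix.mul_assoc, h2, ← Matrix.mul_assoc, cheb_comm A j, Matrix.mul_assoc]

lemma cheb_mul_add (A : Matrix (Fin n) (Fin n) ℝ) (i d : ℕ) :
    cheb A i * cheb A (i + d) = ∑ m ∈ range (i + 1), cheb A (d + 2 * m) := by
  induction i using Nat.twoStepInduction generalizing d with
  | zero => simp [cheb]
  | one =>
    have e : cheb A (d + 2) = A * cheb A (d + 1) - cheb A d := rfl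
    rw [sum_range_succ, sum_range_one, mul_zero, mul_one, add_zero, e, show (1 : ℕ) + d = d + 1 by omega]
    simp [cheb]
  | more i h1 h2 =>
    have e : cheb A (i + 2) = A * cheb A (i + 1) - cheb A i := rfl
    have hA : ∀ k, A * cheb A (k + 1) = cheb A (k + 2) + cheb A k := fun k => by simp [cheb]
    have h2' := h2 (d + 1)
    rw [show i + 1 + (d + 1) = i + 2 + d by omega] at h2'
    have h1' := h1 (d + 2)
    rw [show i + (d + 2) = i + 2 + d by omega] at h1'
    rw [e, sub_mul, Matrix.mul_assoc, h2', h1', Finset.mul_sum]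
    have : ∀ m ∈ range (i + 1 + 1),
        A * cheb A (d + 1 + 2 * m) = cheb A (d + 2 + 2 * m) + cheb A (d + 2 * m) := fun m _ => by
      rw [show d + 1 + 2 * m = d + 2 * m + 1 by omega, hA, show d + 2 * m + 2 = d + 2 + 2 * m by omega]
    rw [sum_congr rfl this, sum_add_distrib, sum_range_succ (fun m => cheb A (d + 2 + 2 * m)) (i + 1),
      show i + 2 + 1 = (i + 1 + 1) + 1 from rfl, sum_range_succ (fun m => cheb A (d + 2 * m)) (i + 1 + 1),
      show d + 2 + 2 * (i + 1) = d + 2 * (i + 1 + 1) by omega]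
    abel

theorem cheb_mul (A : Matrix (Fin n) (Fin n) ℝ) (i p : ℕ) :
    cheb A i * cheb A p = ∑ m ∈ range (min i p + 1), cheb A (i + p - 2 * m) := by
  wlog h : i ≤ p generalizing i p
  · rw [cheb_commute, this p i (by omega), min_comm, add_comm i p]
  obtain ⟨d, rfl⟩ := Nat.exists_eq_add_of_le h
  rw [cheb_mul_add, min_eq_left (by omega), ← sum_range_reflect]
  refine sum_congr rfl fun m hm => ?_
  rw [mem_range] at hm
  congr 1
  omega

/-! ## Derivative -/

/-- the direction of the edge `e` -/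
def dir (e : Edge n) : Matrix (Fin n) (Fin n) ℝ :=
  Matrix.single e.1.1 e.1.2 (1 : ℝ) + Matrix.single e.1.2 e.1.1 1

lemma dir_apply (e : Edge n) (a b : Fin n) :
    dir e a b = (if e.1.1 = a ∧ e.1.2 = b then (1 : ℝ) else 0) + if e.1.2 = a ∧ e.1.1 = b then 1 else 0 := by
  simp [dir, Matrix.single_apply]

lemma cpl_eq_sum (g : Edge n → ℝ) (a b : Fin n) : cpl g a b = ∑ e, g e * dir e a b := by
  unfold cpl
  by_cases h : a < b
  · rw [dif_pos h, sum_eq_single ⟨(a, b), h⟩]
    · simp [dir_apply, h.ne']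
    · rintro ⟨⟨c, d⟩, hcd⟩ _ hne
      have h1 : ¬(c = a ∧ d = b) := by rintro ⟨rfl, rfl⟩; exact hne rfl
      have h2 : ¬(d = a ∧ c = b) := by rintro ⟨rfl, rfl⟩; exact lt_asymm h hcd
      simp [dir_apply, h1, h2]
    · simp
  · rw [dif_neg h]
    by_cases h' : b < a
    · rw [dif_pos h', sum_eq_single ⟨(b, a), h'⟩]
      · simp [dir_apply, h'.ne']
      · rintro ⟨⟨c, d⟩, hcd⟩ _ hne
        have h1 : ¬(c = a ∧ d = b) := by rintro ⟨rfl, rfl⟩; exact h hcd
        have h2 : ¬(d = a ∧ c = b) := by rintro ⟨rfl, rfl⟩; exact hne rfl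
        simp [dir_apply, h1, h2]
      · simp
    · rw [dif_neg h']
      refine (sum_eq_zero ?_).symm
      rintro ⟨⟨c, d⟩, hcd⟩ _
      have h1 : ¬(c = a ∧ d = b) := by rintro ⟨rfl, rfl⟩; exact h hcd
      have h2 : ¬(d = a ∧ c = b) := by rintro ⟨rfl, rfl⟩; exact h' hcd
      simp [dir_apply, h1, h2]

lemma hasDerivAt_Wm (g : Edge n → ℝ) (e : Edge n) (t : ℝ) (a b : Fin n) :
    HasDerivAt (fun s => Wm (Function.update g e s) a b) (dir e a b / √(n : ℝ)) t := by
  simp only [Wm, cpl_eq_sum]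
  refine (HasDerivAt.fun_sum fun e' _ =>
    ((hasDerivAt_pi.1 (hasDerivAt_update g e t)) e').mul_const (dir e' a b)).div_const _ |>.congr_deriv ?_
  simp [Pi.single_apply]

/-- the derivative of `cheb (Wm g) j` in the direction of `e` -/
def dcheb (g : Edge n → ℝ) (e : Edge n) (j : ℕ) : Matrix (Fin n) (Fin n) ℝ :=
  ∑ m ∈ range j, cheb (Wm g) m * dir e * cheb (Wm g) (j - 1 - m)

lemma mul_cheb_succ (A : Matrix (Fin n) (Fin n) ℝ) (k : ℕ) :
    A * cheb A (k + 1) = cheb A (k + 2) + cheb A k := by simp [cheb]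

lemma dcheb_rec (g : Edge n → ℝ) (e : Edge n) (j : ℕ) :
    dcheb g e (j + 2) + dcheb g e j = dir e * cheb (Wm g) (j + 1) + Wm g * dcheb g e (j + 1) := by
  set A := Wm g
  have h0 : ∀ X, A * (cheb A 0 * dir e * X) = cheb A 1 * dir e * X := fun X => by
    simp [cheb, Matrix.mul_assoc]
  have hk : ∀ k X, A * (cheb A (k + 1) * dir e * X) =
      cheb A (k + 2) * dir e * X + cheb A k * dir e * X := fun k X => by
    rw [← add_mul, ← add_mul, ← mul_cheb_succ]; simp [Matrix.mul_assoc]
  simp only [dcheb, show j + 2 - 1 = j + 1 by omega, Nat.add_sub_cancel]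
  rw [sum_range_succ' (fun m => cheb A m * dir e * cheb A (j + 1 - m)) (j + 1),
    Finset.mul_sum, sum_range_succ' (fun m => A * (cheb A m * dir e * cheb A (j - m))) j,
    sum_range_succ' (fun m => cheb A (m + 1) * dir e * cheb A (j + 1 - (m + 1))) j]
  simp only [h0, hk, sum_add_distrib, Nat.add_sub_add_right, Nat.sub_zero]
  have e1 : ∀ m ∈ range j, cheb A m * dir e * cheb A (j - 1 - m) =
      cheb A m * dir e * cheb A (j - (m + 1)) := fun m _ => by
    rw [show j - 1 - m = j - (m + 1) by omega]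
  rw [sum_congr rfl e1]
  simp only [cheb, Matrix.one_mul]
  abel

lemma hasDerivAt_cheb' (g : Edge n → ℝ) (e : Edge n) (j : ℕ) (a b : Fin n) :
    HasDerivAt (fun t => cheb (Wm (Function.update g e t)) j a b) (dcheb g e j a b / √(n : ℝ)) (g e) := by
  induction j using Nat.twoStepInduction generalizing a b with
  | zero => simpa [cheb, dcheb] using hasDerivAt_const (g e) ((1 : Matrix (Fin n) (Fin n) ℝ) a b)
  | one => simpa [cheb, dcheb] using hasDerivAt_Wm g e (g e) a b
  | more m h1 h2 =>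
    have hr : dcheb g e (m + 2) a b =
        (dir e * cheb (Wm g) (m + 1)) a b + (Wm g * dcheb g e (m + 1)) a b - dcheb g e m a b := by
      rw [eq_sub_iff_add_eq, ← Matrix.add_apply, ← Matrix.add_apply, dcheb_rec]
    simp only [cheb, Matrix.sub_apply, Matrix.mul_apply]
    refine ((HasDerivAt.fun_sum fun c _ =>
      (hasDerivAt_Wm g e (g e) a c).mul (h2 c b)).sub (h1 a b)).congr_deriv ?_
    rw [hr, Function.update_eq_self, Matrix.mul_apply, Matrix.mul_apply, sub_div, add_div, sum_div,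
      sum_div, ← sum_add_distrib]
    congr 1
    exact sum_congr rfl fun c _ => by ring

theorem hasDerivAt_cheb (g : Edge n → ℝ) (e : Edge n) (j : ℕ) (a b : Fin n) :
    HasDerivAt (fun t => cheb (Wm (Function.update g e t)) j a b)
      ((∑ m ∈ range j, cheb (Wm g) m *
        (Matrix.single e.1.1 e.1.2 (1 : ℝ) + Matrix.single e.1.2 e.1.1 1) *
          cheb (Wm g) (j - 1 - m) : Matrix (Fin n) (Fin n) ℝ) a b / √(n : ℝ)) (g e) :=
  hasDerivAt_cheb' g e j a b

lemma eb_Wm (a b : Fin n) : EB (fun g : Edge n → ℝ => Wm g a b) := by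
  simp only [Wm, cpl_eq_sum, div_eq_mul_inv]
  exact (EB.sum _ fun e _ => (EB.proj e).mul (EB.const _)).mul (EB.const _)

lemma eb_cheb (j : ℕ) (a b : Fin n) : EB (fun g : Edge n → ℝ => cheb (Wm g) j a b) := by
  induction j using Nat.twoStepInduction generalizing a b with
  | zero => exact EB.const _
  | one => exact eb_Wm a b
  | more m h1 h2 =>
    simp only [cheb, Matrix.sub_apply, Matrix.mul_apply]
    exact (EB.sum _ fun c _ => (eb_Wm a c).mul (h2 c b)).sub (h1 a b)

lemma eb_dcheb (e : Edge n) (j : ℕ) (a b : Fin n) : EB (fun g : Edge n → ℝ => dcheb g e j a b) := by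
  simp only [dcheb, Matrix.sum_apply, Matrix.mul_apply]
  exact EB.sum _ fun m _ => EB.sum _ fun c _ => (EB.sum _ fun d _ =>
    (eb_cheb m a d).mul (EB.const _)).mul (eb_cheb _ c b)

lemma differentiable_cheb (j : ℕ) (a b : Fin n) :
    Differentiable ℝ (fun g : Edge n → ℝ => cheb (Wm g) j a b) := by
  have hW : ∀ a b : Fin n, Differentiable ℝ (fun g : Edge n → ℝ => Wm g a b) := fun a b => by
    simp only [Wm, cpl_eq_sum]; fun_prop
  induction j using Nat.twoStepInduction generalizing a b with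
  | zero => exact differentiable_const _
  | one => exact hW a b
  | more m h1 h2 =>
    simp only [cheb, Matrix.sub_apply, Matrix.mul_apply]
    exact (Differentiable.fun_sum fun c _ => (hW a c).mul (h2 c b)).sub (h1 a b)

/-! ## Norm -/

lemma opn_eq_norm (g : Edge n → ℝ) : opn g = ‖Wm g‖ := by rw [opn, Matrix.l2_opNorm_toEuclideanCLM]

lemma opn_nonneg (g : Edge n → ℝ) : 0 ≤ opn g := by rw [opn_eq_norm]; exact norm_nonneg _

lemma norm_one_le : ‖(1 : Matrix (Fin n) (Fin n) ℝ)‖ ≤ 1 := by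
  rw [← Matrix.diagonal_one, Matrix.l2_opNorm_diagonal]
  exact (pi_norm_le_iff_of_nonneg zero_le_one).2 fun _ => by simp

lemma norm_cheb_le (A : Matrix (Fin n) (Fin n) ℝ) (j : ℕ) : ‖cheb A j‖ ≤ (‖A‖ + 2) ^ j := by
  induction j using Nat.twoStepInduction with
  | zero => simpa [cheb] using norm_one_le
  | one => simp [cheb]
  | more m h1 h2 =>
    have ha := norm_nonneg A
    calc ‖cheb A (m + 2)‖ ≤ ‖A‖ * ‖cheb A (m + 1)‖ + ‖cheb A m‖ :=
          (norm_sub_le _ _).trans (add_le_add (norm_mul_le _ _) le_rfl)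
      _ ≤ ‖A‖ * (‖A‖ + 2) ^ (m + 1) + (‖A‖ + 2) ^ m :=
          add_le_add (mul_le_mul_of_nonneg_left h2 ha) h1
      _ ≤ (‖A‖ + 2) ^ (m + 2) := by
          have hp : 0 ≤ (‖A‖ + 2) ^ m := by positivity
          rw [pow_succ, pow_succ, pow_succ]
          nlinarith

lemma norm_cheb_Wm (g : Edge n → ℝ) (j : ℕ) : ‖cheb (Wm g) j‖ ≤ (opn g + 2) ^ j := by
  rw [opn_eq_norm]; exact norm_cheb_le _ j

lemma col_sq_le (M : Matrix (Fin n) (Fin n) ℝ) (b : Fin n) : ∑ a, M a b ^ 2 ≤ ‖M‖ ^ 2 := by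
  have h := (P150.Fast.OpNorm.opLe_iff_norm_le.2 (le_refl ‖M‖)).2 (Pi.single b 1)
  simpa [P150.Fast.OpNorm.nsq, Pi.single_apply, Matrix.mulVec, dotProduct] using h

lemma abs_apply_le (M : Matrix (Fin n) (Fin n) ℝ) (a b : Fin n) : |M a b| ≤ ‖M‖ :=
  abs_le_of_sq_le_sq ((single_le_sum (f := fun i => M i b ^ 2) (fun i _ => sq_nonneg _)
    (mem_univ a)).trans (col_sq_le M b)) (norm_nonneg _)

lemma abs_trace_le (M : Matrix (Fin n) (Fin n) ℝ) : |M.trace| ≤ n * ‖M‖ := by
  refine (abs_sum_le_sum_abs _ _).trans ((sum_le_sum fun a _ => abs_apply_le M a a).trans ?_)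
  simp

lemma sum_sq_le (M : Matrix (Fin n) (Fin n) ℝ) : ∑ a, ∑ b, M a b ^ 2 ≤ n * ‖M‖ ^ 2 := by
  rw [sum_comm]
  refine (sum_le_sum fun b _ => col_sq_le M b).trans ?_
  simp

theorem abs_bil_cheb_le (g : Edge n → ℝ) (j : ℕ) (x y : Cfg n) :
    |bil (cheb (Wm g) j) x y| ≤ n * (opn g + 2) ^ j := by
  have h := (P150.Fast.OpNorm.opLe_iff_norm_le.2 (norm_cheb_Wm g j)).bilin
    (fun i => spin (x i)) (fun i => spin (y i))
  have hs : ∀ z : Cfg n, P150.Fast.OpNorm.nsq (fun i => spin (z i)) = n := fun z => by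
    have : ∀ c : Bool, spin c ^ 2 = 1 := fun c => by cases c <;> simp [spin]
    simp [P150.Fast.OpNorm.nsq, this]
  rw [hs, hs, mul_assoc, Real.mul_self_sqrt (Nat.cast_nonneg n), mul_comm] at h
  refine le_trans (le_of_eq ?_) h
  simp [bil, dotProduct, Matrix.mulVec, mul_sum, mul_assoc]

/-! ## Moments of the operator norm -/

lemma cpl_sq (g : Edge n → ℝ) (a b : Fin n) : cpl g a b ^ 2 = cpl (fun e => g e ^ 2) a b := by
  unfold cpl; split_ifs <;> simp

lemma sum_sq_Wm (g : Edge n → ℝ) : ∑ a, ∑ b, Wm g a b ^ 2 = 2 * (∑ e, g e ^ 2) / n := by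
  have hd : ∀ e : Edge n, ∑ a, ∑ b, dir e a b = 2 := fun e => by
    simp only [dir_apply, sum_add_distrib]
    simp [ite_and]
    norm_num
  simp only [Wm, div_pow, Real.sq_sqrt (Nat.cast_nonneg n), cpl_sq]
  simp only [cpl_eq_sum, ← sum_div]
  congr 1
  rw [mul_sum]
  conv_lhs => arg 2; ext a; rw [sum_comm]
  rw [sum_comm]
  exact sum_congr rfl fun e _ => by simp only [← mul_sum, hd]; ring

lemma opn_sq_le (g : Edge n → ℝ) : opn g ^ 2 ≤ 2 * (∑ e, g e ^ 2) / n := by
  rw [opn_eq_norm, ← sum_sq_Wm]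
  have h0 : 0 ≤ ∑ a, ∑ b, Wm g a b ^ 2 := sum_nonneg fun a _ => sum_nonneg fun b _ => sq_nonneg _
  have h : P150.Fast.OpNorm.OpLe (Wm g) √(∑ a, ∑ b, Wm g a b ^ 2) := ⟨Real.sqrt_nonneg _, fun w => by
    rw [Real.sq_sqrt h0, sum_mul]
    exact sum_le_sum fun a _ => sum_mul_sq_le_sq_mul_sq univ (fun b => Wm g a b) w⟩
  exact (pow_le_pow_left₀ (norm_nonneg _) (P150.Fast.OpNorm.opLe_iff_norm_le.1 h) 2).trans
    (le_of_eq (Real.sq_sqrt h0))

lemma opn_le_l1 (g : Edge n → ℝ) : opn g ≤ 2 * l1 g := by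
  refine le_of_pow_le_pow_left₀ two_ne_zero (by have := l1_nonneg g; positivity)
    ((opn_sq_le g).trans ?_)
  have h0 : 0 ≤ ∑ e, g e ^ 2 := sum_nonneg fun e _ => sq_nonneg _
  have h1 : ∑ e, g e ^ 2 ≤ l1 g ^ 2 := by
    have h := sum_sq_le_sq_sum_of_nonneg (s := univ) (f := fun e => |g e|) fun e _ => abs_nonneg _
    simpa [sq_abs, l1] using h
  rcases Nat.eq_zero_or_pos n with rfl | hn
  · simp; positivity
  · refine (div_le_self (by positivity) (by exact_mod_cast hn)).trans ?_
    nlinarith [sq_nonneg (l1 g)]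

lemma continuous_opn : Continuous (opn (n := n)) := by
  have h : Continuous fun g : Edge n → ℝ => Wm g := continuous_matrix fun a b => (eb_Wm a b).1
  have e : opn (n := n) = fun g => ‖Wm g‖ := funext opn_eq_norm
  rw [e]
  exact continuous_norm.comp h

lemma eb_opn : EB (fun g : Edge n → ℝ => opn g + 2) :=
  ⟨continuous_opn.add continuous_const, 2, 1, zero_le_one, fun g => by
    have h := opn_le_l1 g
    have h' := Real.add_one_le_exp (l1 g)
    rw [abs_of_nonneg (by have := opn_nonneg g; linarith), one_mul]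
    linarith⟩

lemma eb_opn_pow (k : ℕ) : EB (fun g : Edge n → ℝ => (opn g + 2) ^ k) := by
  induction k with
  | zero => simpa using EB.const (S := Edge n) 1
  | succ k ih => simpa [pow_succ] using ih.mul eb_opn

lemma card_edge_le : (Fintype.card (Edge n) : ℝ) ≤ (n : ℝ) ^ 2 := by
  have h := Fintype.card_subtype_le fun p : Fin n × Fin n => p.1 < p.2
  rw [Fintype.card_prod, Fintype.card_fin] at h
  rw [sq]; exact_mod_cast h

lemma crude_moment (k : ℕ) : ∃ C : ℝ, 0 ≤ C ∧ ∀ n : ℕ, 1 ≤ n →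
    ∫ g : Edge n → ℝ, (opn g + 2) ^ (2 * k) ∂gauss (Edge n) ≤ C * (n : ℝ) ^ (2 * k) := by
  rcases Nat.eq_zero_or_pos k with rfl | hk
  · exact ⟨1, zero_le_one, fun n _ => by simp⟩
  set μk := ∫ x : ℝ, x ^ (2 * k) ∂ProbabilityTheory.gaussianReal 0 1
  have hμ : 0 ≤ μk := integral_nonneg fun x => (even_two_mul k).pow_nonneg x
  refine ⟨2 ^ (2 * k) * 2 ^ k * μk + 2 ^ (4 * k), by positivity, fun n hn => ?_⟩
  have hn1 : (1 : ℝ) ≤ n := by exact_mod_cast hn
  have hp : ∀ e : Edge n, EB (fun g : Edge n → ℝ => g e ^ (2 * k)) := fun e => by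
    have h : ∀ m, EB (fun g : Edge n → ℝ => g e ^ m) := fun m => by
      induction m with
      | zero => simpa using EB.const (S := Edge n) 1
      | succ m ih => simpa [pow_succ] using ih.mul (EB.proj e)
    exact h _
  have hE : ∀ e : Edge n, ∫ g : Edge n → ℝ, g e ^ (2 * k) ∂gauss (Edge n) = μk := fun e => by
    have h := measurePreserving_eval (fun _ : Edge n => ProbabilityTheory.gaussianReal 0 1) e
    simp only [μk, gauss]
    conv_rhs => rw [← h.map_eq]
    exact (integral_map h.measurable.aemeasurable (continuous_pow (2 * k)).aestronglyMeasurable).symm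
  set c : ℝ := (Fintype.card (Edge n) : ℝ)
  have hpt : ∀ g : Edge n → ℝ, (opn g + 2) ^ (2 * k) ≤
      2 ^ (2 * k) * 2 ^ k * c ^ (k - 1) * ∑ e, g e ^ (2 * k) + 2 ^ (4 * k) := fun g => by
    refine (add_pow_le (opn_nonneg g) zero_le_two _).trans ?_
    have h2 : opn g ^ (2 * k) ≤ 2 ^ k * c ^ (k - 1) * ∑ e, g e ^ (2 * k) := by
      have h3 : opn g ^ 2 ≤ 2 * ∑ e, g e ^ 2 :=
        (opn_sq_le g).trans (div_le_self (by positivity) hn1)
      have h4 := pow_sum_le_card_mul_sum_pow (s := (univ : Finset (Edge n))) (f := fun e => g e ^ 2)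
        (fun e _ => sq_nonneg _) (k - 1)
      rw [show k - 1 + 1 = k by omega] at h4
      calc opn g ^ (2 * k) = (opn g ^ 2) ^ k := pow_mul _ _ _
        _ ≤ (2 * ∑ e, g e ^ 2) ^ k := pow_le_pow_left₀ (sq_nonneg _) h3 _
        _ = 2 ^ k * (∑ e, g e ^ 2) ^ k := mul_pow _ _ _
        _ ≤ 2 ^ k * (c ^ (k - 1) * ∑ e, (g e ^ 2) ^ k) := by
            refine mul_le_mul_of_nonneg_left ?_ (by positivity)
            simpa [c] using h4
        _ = _ := by simp only [← pow_mul]; ring
    calc (2 : ℝ) ^ (2 * k - 1) * (opn g ^ (2 * k) + 2 ^ (2 * k))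
        ≤ 2 ^ (2 * k) * (2 ^ k * c ^ (k - 1) * ∑ e, g e ^ (2 * k) + 2 ^ (2 * k)) :=
          mul_le_mul (pow_le_pow_right₀ one_le_two (Nat.sub_le _ _)) (add_le_add h2 le_rfl)
            (add_nonneg (pow_nonneg (opn_nonneg g) _) (by positivity)) (by positivity)
      _ = _ := by ring
  refine (integral_mono (eb_opn_pow _).integrable
    (((integrable_finsetSum _ fun e _ => (hp e).integrable).const_mul _).add (integrable_const _)) hpt).trans ?_
  simp only [Pi.add_apply]
  rw [integral_add ((integrable_finsetSum _ fun e _ => (hp e).integrable).const_mul _) (integrable_const _),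
    integral_const_mul, integral_finsetSum _ fun e _ => (hp e).integrable]
  simp only [hE, sum_const, card_univ, nsmul_eq_mul, integral_const, probReal_univ, smul_eq_mul, one_mul]
  have hc : c ^ (k - 1) * c ≤ (n : ℝ) ^ (2 * k) := by
    rw [← pow_succ, show k - 1 + 1 = k by omega, pow_mul]
    exact pow_le_pow_left₀ (Nat.cast_nonneg _) card_edge_le k
  calc (2 : ℝ) ^ (2 * k) * 2 ^ k * c ^ (k - 1) * (c * μk) + 2 ^ (4 * k)
      = 2 ^ (2 * k) * 2 ^ k * μk * (c ^ (k - 1) * c) + 2 ^ (4 * k) * 1 := by ring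
    _ ≤ 2 ^ (2 * k) * 2 ^ k * μk * (n : ℝ) ^ (2 * k) + 2 ^ (4 * k) * (n : ℝ) ^ (2 * k) := by
        refine add_le_add (mul_le_mul_of_nonneg_left hc (by positivity))
          (mul_le_mul_of_nonneg_left (one_le_pow₀ hn1) (by positivity))
    _ = _ := by ring

lemma opn_le_of_quad (g : Edge n → ℝ) {K : ℝ} (hK : 0 < K)
    (h : ∀ v : Fin n → ℝ, |∑ i, ∑ j, Wm g i j * (v i * v j)| ≤ K * ∑ i, v i ^ 2) : opn g ≤ K := by
  rw [opn_eq_norm]
  refine P150.Fast.OpNorm.opLe_iff_norm_le.1 ⟨hK.le, fun w => ?_⟩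
  have hsym : ∀ i j, Wm g i j = Wm g j i := fun i j => by
    simp only [Wm, cpl_eq_sum]
    congr 1
    exact sum_congr rfl fun e _ => by simp [dir_apply, add_comm, and_comm]
  set u := Wm g *ᵥ w
  set v : Fin n → ℝ := fun i => u i / K
  have e : (∑ i, ∑ j, Wm g i j * ((v i + w i) * (v j + w j))) -
      ∑ i, ∑ j, Wm g i j * ((v i - w i) * (v j - w j)) = 4 * ∑ i, v i * u i := by
    have h1 : ∑ i, ∑ j, Wm g i j * (w i * v j) = ∑ i, ∑ j, Wm g i j * (v i * w j) := by
      rw [sum_comm]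
      exact sum_congr rfl fun i _ => sum_congr rfl fun j _ => by rw [hsym i j]; ring
    have h2 : ∑ i, ∑ j, Wm g i j * (v i * w j) = ∑ i, v i * u i := by
      simp only [u, Matrix.mulVec, dotProduct, mul_sum]
      exact sum_congr rfl fun i _ => sum_congr rfl fun j _ => by ring
    simp only [← sum_sub_distrib]
    calc _ = ∑ i, ∑ j, (2 * (Wm g i j * (v i * w j)) + 2 * (Wm g i j * (w i * v j))) :=
          sum_congr rfl fun i _ => sum_congr rfl fun j _ => by ring
      _ = _ := by simp only [sum_add_distrib, ← mul_sum, h1, h2]; ring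
  have hp := (abs_le.1 (h fun i => v i + w i)).2
  have hm := (abs_le.1 (h fun i => v i - w i)).1
  have e2 : ∑ i, (v i + w i) ^ 2 + ∑ i, (v i - w i) ^ 2 =
      2 * (P150.Fast.OpNorm.nsq u / K ^ 2) + 2 * P150.Fast.OpNorm.nsq w := by
    simp only [P150.Fast.OpNorm.nsq, v, mul_sum, sum_div, ← sum_add_distrib]
    exact sum_congr rfl fun i _ => by ring
  have e3 : ∑ i, v i * u i = P150.Fast.OpNorm.nsq u / K := by
    simp only [P150.Fast.OpNorm.nsq, v, sum_div]
    exact sum_congr rfl fun i _ => by ring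
  have key : 4 * (P150.Fast.OpNorm.nsq u / K) ≤
      K * (2 * (P150.Fast.OpNorm.nsq u / K ^ 2) + 2 * P150.Fast.OpNorm.nsq w) := by
    rw [← e2, ← e3, ← e]; linarith
  have e4 : K * (2 * (P150.Fast.OpNorm.nsq u / K ^ 2)) = 2 * (P150.Fast.OpNorm.nsq u / K) := by
    field_simp
  rw [mul_add, e4] at key
  have key2 : P150.Fast.OpNorm.nsq u / K ≤ K * P150.Fast.OpNorm.nsq w := by linarith
  rw [div_le_iff₀ hK] at key2
  linarith

theorem opn_mom (k : ℕ) : ∃ C : ℝ, 0 ≤ C ∧ ∀ n : ℕ, 1 ≤ n →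
    Integrable (fun g : Edge n → ℝ => (opn g + 2) ^ k) (gauss (Edge n)) ∧
      ∫ g : Edge n → ℝ, (opn g + 2) ^ k ∂gauss (Edge n) ≤ C := by
  obtain ⟨c, hc, hP⟩ := P150.opnorm_bound (ε := 1 / 4) (δ := 1 / 4) (by norm_num) le_rfl (by norm_num) le_rfl
  obtain ⟨C₀, hC₀, hM⟩ := crude_moment k
  refine ⟨9 ^ k + C₀ + 2 * (2 * k).factorial / c ^ (2 * k), by positivity, fun n hn =>
    ⟨(eb_opn_pow k).integrable, ?_⟩⟩
  set B := {g : Edge n → ℝ | (13 : ℝ) / 2 < opn g}
  have hBm : MeasurableSet B := measurableSet_lt measurable_const continuous_opn.measurable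
  have hsn : 0 < √(n : ℝ) := Real.sqrt_pos.2 (by exact_mod_cast hn)
  have hB : (gauss (Edge n)).real B ≤ 2 * Real.exp (-(c * n)) := by
    have := hP n hn
    rw [P150.disorder_eq_gauss] at this
    refine (measureReal_mono fun g hg => ?_).trans this
    simp only [B, Set.mem_ofPred_eq] at hg ⊢
    by_contra hcon
    simp only [not_exists, not_lt] at hcon
    refine absurd (opn_le_of_quad g (by norm_num : (0 : ℝ) < 13 / 2) fun v => ?_) (not_le.2 hg)
    have h := hcon v
    norm_num at h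
    have e : ∑ i, ∑ j, Wm g i j * (v i * v j) = (∑ i, ∑ j, P150.coupling g i j * (v i * v j)) / √(n : ℝ) := by
      simp only [sum_div]
      refine sum_congr rfl fun i _ => sum_congr rfl fun j _ => ?_
      show cpl g i j / √(n : ℝ) * _ = _
      rw [show cpl g i j = P150.coupling g i j from rfl]; ring
    rw [e, abs_div, abs_of_pos hsn, div_le_iff₀ hsn]
    linarith
  set N : ℝ := (n : ℝ) ^ (2 * k)
  have hN : 0 < N := pow_pos (by exact_mod_cast hn) _
  have hpt : ∀ g : Edge n → ℝ, (opn g + 2) ^ k ≤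
      9 ^ k + ((opn g + 2) ^ (2 * k) / N + B.indicator (fun _ => N) g) := fun g => by
    have hL : 0 ≤ opn g + 2 := by have := opn_nonneg g; linarith
    by_cases hg : g ∈ B
    · rw [Set.indicator_of_mem hg]
      set X := (opn g + 2) ^ k
      rw [show (opn g + 2) ^ (2 * k) = X ^ 2 by rw [← pow_mul, mul_comm]]
      have h1 : 2 * X ≤ X ^ 2 / N + N := by
        rw [div_add' _ _ _ hN.ne', le_div_iff₀ hN]
        nlinarith [sq_nonneg (X - N)]
      have hX : 0 ≤ X := pow_nonneg hL _
      have : (0 : ℝ) ≤ 9 ^ k := by positivity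
      linarith
    · rw [Set.indicator_of_notMem hg, add_zero]
      refine le_add_of_le_of_nonneg (pow_le_pow_left₀ hL ?_ k) (div_nonneg (pow_nonneg hL _) hN.le)
      simp only [B, Set.mem_ofPred_eq, not_lt] at hg
      linarith
  have i1 := (eb_opn_pow (n := n) (2 * k)).integrable.div_const N
  have i2 : Integrable (B.indicator fun _ : Edge n → ℝ => N) (gauss (Edge n)) :=
    (integrable_const N).indicator hBm
  have i12 : Integrable (fun g : Edge n → ℝ => (opn g + 2) ^ (2 * k) / N + B.indicator (fun _ => N) g)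
      (gauss (Edge n)) := i1.add i2
  refine (integral_mono (eb_opn_pow k).integrable ((integrable_const _).add i12) hpt).trans ?_
  simp only [Pi.add_apply]
  rw [integral_add (integrable_const _) i12, integral_add i1 i2, integral_div,
    integral_indicator_const N hBm]
  simp only [integral_const, probReal_univ, smul_eq_mul, one_mul]
  have h1 : (∫ g : Edge n → ℝ, (opn g + 2) ^ (2 * k) ∂gauss (Edge n)) / N ≤ C₀ := by
    rw [div_le_iff₀ hN]; exact hM n hn
  have h2 : (gauss (Edge n)).real B * N ≤ 2 * (2 * k).factorial / c ^ (2 * k) := by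
    refine (mul_le_mul_of_nonneg_right hB hN.le).trans ?_
    have h := Real.pow_div_factorial_le_exp (x := c * n) (by positivity) (2 * k)
    rw [div_le_iff₀ (by positivity)] at h
    rw [le_div_iff₀ (pow_pos hc _), Real.exp_neg, mul_assoc, mul_assoc, ← mul_pow, mul_comm (n : ℝ) c]
    refine mul_le_mul_of_nonneg_left ?_ zero_le_two
    rw [← div_eq_inv_mul, div_le_iff₀ (Real.exp_pos _)]
    linarith
  linarith

/-! ## Trace -/

/-- normalised trace of `U_i` -/
def mtr (i : ℕ) (g : Edge n → ℝ) : ℝ := (cheb (Wm g) i).trace / n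

/-- its partial derivatives -/
def dmtr (i : ℕ) (g : Edge n → ℝ) (e : Edge n) : ℝ := (dcheb g e i).trace / √(n : ℝ) / n

lemma trace_dir_mul (e : Edge n) (X : Matrix (Fin n) (Fin n) ℝ) :
    (dir e * X).trace = X e.1.2 e.1.1 + X e.1.1 e.1.2 := by
  simp [dir, add_mul, Matrix.trace_single_mul]

lemma trace_mul_dir_mul (e : Edge n) (P Q : Matrix (Fin n) (Fin n) ℝ) :
    (P * dir e * Q).trace = (Q * P) e.1.2 e.1.1 + (Q * P) e.1.1 e.1.2 := by
  rw [Matrix.trace_mul_comm, ← Matrix.mul_assoc, Matrix.trace_mul_comm, trace_dir_mul]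

lemma eb_mtr (i : ℕ) : EB (mtr (n := n) i) := by
  show EB fun g => (cheb (Wm g) i).trace / (n : ℝ)
  simp only [Matrix.trace, Matrix.diag, div_eq_mul_inv]
  exact (EB.sum _ fun a _ => eb_cheb i a a).mul (EB.const _)

lemma eb_dmtr (i : ℕ) (e : Edge n) : EB (fun g => dmtr i g e) := by
  simp only [dmtr, Matrix.trace, Matrix.diag, div_eq_mul_inv]
  exact ((EB.sum _ fun a _ => eb_dcheb e i a a).mul (EB.const _)).mul (EB.const _)

lemma hasFDerivAt_mtr (i : ℕ) (g : Edge n → ℝ) :
    HasFDerivAt (mtr i) (P150.PoincareC1.lin (dmtr i g)) g := by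
  have hd : DifferentiableAt ℝ (mtr i) g := by
    show DifferentiableAt ℝ (fun g => (cheb (Wm g) i).trace / (n : ℝ)) g
    simp only [Matrix.trace, Matrix.diag, div_eq_mul_inv]
    exact (Differentiable.fun_sum (u := univ) fun a _ => differentiable_cheb i a a).mul_const _ g
  refine hd.hasFDerivAt.congr_fderiv (ContinuousLinearMap.coe_injective (LinearMap.pi_ext' fun e =>
    LinearMap.ext_ring ?_))
  have h1 := hd.hasFDerivAt.comp_hasDerivAt_of_eq (g e) (hasDerivAt_update g e (g e))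
    (Function.update_eq_self e g).symm
  have h2 : HasDerivAt (fun t => mtr i (Function.update g e t)) (dmtr i g e) (g e) := by
    simp only [mtr, Matrix.trace, Matrix.diag]
    refine ((HasDerivAt.fun_sum fun a _ => hasDerivAt_cheb' g e i a a).div_const _).congr_deriv ?_
    simp [dmtr, Matrix.trace, Matrix.diag, sum_div]
  simp only [LinearMap.coe_comp, Function.comp_apply, LinearMap.coe_single, ContinuousLinearMap.coe_coe,
    P150.PoincareC1.lin_apply]
  rw [h1.unique h2]
  simp [Pi.single_apply]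

lemma sum_dmtr_sq_le (i : ℕ) (g : Edge n → ℝ) :
    ∑ e, dmtr i g e ^ 2 ≤ 4 * (i : ℝ) ^ 2 * (opn g + 2) ^ (2 * i) / (n : ℝ) ^ 2 := by
  set G : Matrix (Fin n) (Fin n) ℝ := ∑ m ∈ range i, cheb (Wm g) (i - 1 - m) * cheb (Wm g) m
  set L := opn g + 2
  have hL : 1 ≤ L := by have := opn_nonneg g; simp only [L]; linarith
  have hG : ‖G‖ ≤ i * L ^ i := by
    refine (norm_sum_le _ _).trans ((sum_le_sum (g := fun _ => L ^ i) fun m hm => ?_).trans (le_of_eq ?_))
    · rw [mem_range] at hm
      refine (norm_mul_le _ _).trans ((mul_le_mul (norm_cheb_Wm g _) (norm_cheb_Wm g _) (norm_nonneg _)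
        (pow_nonneg (zero_le_one.trans hL) _)).trans ?_)
      rw [← pow_add]
      exact pow_le_pow_right₀ hL (by omega)
    · simp
  have e1 : ∀ e : Edge n, (dcheb g e i).trace = G e.1.2 e.1.1 + G e.1.1 e.1.2 := fun e => by
    simp only [dcheb, Matrix.trace_sum, trace_mul_dir_mul, sum_add_distrib, G, Matrix.sum_apply]
  have e2 : ∀ e : Edge n, dmtr i g e ^ 2 ≤
      2 * (G e.1.2 e.1.1 ^ 2 + G e.1.1 e.1.2 ^ 2) / ((n : ℝ) * (n : ℝ) ^ 2) := fun e => by
    rw [dmtr, e1, div_pow, div_pow, Real.sq_sqrt (Nat.cast_nonneg n), div_div]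
    refine div_le_div_of_nonneg_right ?_ (by positivity)
    nlinarith [sq_nonneg (G e.1.2 e.1.1 - G e.1.1 e.1.2)]
  refine (sum_le_sum fun e _ => e2 e).trans ?_
  rw [← sum_div, ← mul_sum, sum_add_distrib]
  have hs : ∀ F : Fin n × Fin n → ℝ, (∀ p, 0 ≤ F p) → ∑ e : Edge n, F e.1 ≤ ∑ p, F p := fun F hF => by
    refine le_trans (le_of_eq (sum_subtype (univ.filter fun p : Fin n × Fin n => p.1 < p.2)
      (fun p => by simp) F).symm) ?_
    exact sum_le_univ_sum_of_nonneg hF
  have h1 : ∑ e : Edge n, G e.1.2 e.1.1 ^ 2 ≤ n * ‖G‖ ^ 2 := by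
    refine (hs (fun p => G p.2 p.1 ^ 2) fun p => sq_nonneg _).trans ?_
    rw [Fintype.sum_prod_type, sum_comm]; exact sum_sq_le G
  have h2 : ∑ e : Edge n, G e.1.1 e.1.2 ^ 2 ≤ n * ‖G‖ ^ 2 := by
    refine (hs (fun p => G p.1 p.2 ^ 2) fun p => sq_nonneg _).trans ?_
    rw [Fintype.sum_prod_type]; exact sum_sq_le G
  rcases Nat.eq_zero_or_pos n with rfl | hn
  · simp
  have hn' : (0 : ℝ) < n := by exact_mod_cast hn
  rw [div_le_div_iff₀ (by positivity) (by positivity)]
  have h3 : ‖G‖ ^ 2 ≤ (i : ℝ) ^ 2 * L ^ (2 * i) := by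
    refine (pow_le_pow_left₀ (norm_nonneg _) hG 2).trans (le_of_eq ?_)
    rw [mul_pow, ← pow_mul, mul_comm i 2]
  nlinarith [mul_le_mul_of_nonneg_left h3 hn'.le, sq_nonneg (n : ℝ)]

lemma var_mtr (i : ℕ) : ∃ C : ℝ, 0 ≤ C ∧ ∀ n : ℕ, 1 ≤ n →
    ∫ g : Edge n → ℝ, (mtr i g - ∫ h, mtr i h ∂gauss (Edge n)) ^ 2 ∂gauss (Edge n) ≤ C / (n : ℝ) ^ 2 := by
  obtain ⟨C, hC, hM⟩ := opn_mom (2 * i)
  refine ⟨4 * (i : ℝ) ^ 2 * C, by positivity, fun n hn => ?_⟩
  obtain ⟨hi, hb⟩ := hM n hn
  obtain ⟨-, A, M, hM0, hA⟩ := eb_mtr (n := n) i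
  have hD : ∀ z k, |dmtr i z k| ≤ ∑ e : Edge n, |dmtr i z e| := fun z k =>
    single_le_sum (f := fun e => |dmtr i z e|) (fun e _ => abs_nonneg _) (mem_univ k)
  have hS : ∀ (S : Finset (Edge n)), ∃ A M, 0 ≤ M ∧ ∀ z, ∑ e ∈ S, |dmtr i z e| ≤ A * Real.exp (M * l1 z) := by
    intro S
    induction S using Finset.induction with
    | empty => exact ⟨0, 0, le_rfl, fun z => by simp⟩
    | insert e S he ih =>
      obtain ⟨A, M, hM, h⟩ := ih
      obtain ⟨-, A', M', hM', h'⟩ := eb_dmtr i e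
      have p0 : 0 ≤ A := nonneg_of_mul_nonneg_left ((sum_nonneg fun _ _ => abs_nonneg _).trans (h 0)) (Real.exp_pos _)
      have p1 : 0 ≤ A' := nonneg_of_mul_nonneg_left ((abs_nonneg _).trans (h' 0)) (Real.exp_pos _)
      refine ⟨A' + A, max M' M, hM.trans (le_max_right _ _), fun z => ?_⟩
      rw [sum_insert he, add_mul]
      refine add_le_add ((h' z).trans ?_) ((h z).trans ?_) <;>
        refine mul_le_mul_of_nonneg_left (Real.exp_le_exp.2 (mul_le_mul_of_nonneg_right ?_ (l1_nonneg z))) ?_ <;>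
        first | assumption | exact le_max_left _ _ | exact le_max_right _ _
  obtain ⟨A', M', hM', hA'⟩ := hS univ
  have pA : 0 ≤ A := nonneg_of_mul_nonneg_left ((abs_nonneg _).trans (hA 0)) (Real.exp_pos _)
  have pA' : 0 ≤ A' := nonneg_of_mul_nonneg_left ((sum_nonneg fun _ _ => abs_nonneg _).trans (hA' 0)) (Real.exp_pos _)
  have up : ∀ (z : Edge n → ℝ) {a m : ℝ}, 0 ≤ a → a ≤ max A A' → m ≤ max M M' →
      a * Real.exp (m * l1 z) ≤ max A A' * Real.exp (max M M' * l1 z) := fun z a m ha h1 h2 =>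
    mul_le_mul h1 (Real.exp_le_exp.2 (mul_le_mul_of_nonneg_right h2 (l1_nonneg z))) (Real.exp_pos _).le
      (ha.trans h1)
  have hp := P150.PoincareC1.gauss_poincare (f := mtr (n := n) i) (f' := dmtr i) (C := max A A') (M := max M M')
    (hM0.trans (le_max_left _ _)) (hasFDerivAt_mtr i) (continuous_pi fun e => (eb_dmtr i e).1)
    (fun z => (hA z).trans (up z pA (le_max_left _ _) (le_max_left _ _)))
    (fun z k => ((hD z k).trans (hA' z)).trans (up z pA' (le_max_right _ _) (le_max_right _ _)))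
  have i1 := ((eb_mtr (n := n) i).mul (eb_mtr i)).integrable
  have i2 := (eb_mtr (n := n) i).integrable
  have hvar : ∫ g : Edge n → ℝ, (mtr i g - ∫ h, mtr i h ∂gauss (Edge n)) ^ 2 ∂gauss (Edge n) =
      ∫ g, mtr i g ^ 2 ∂gauss (Edge n) - (∫ h, mtr i h ∂gauss (Edge n)) ^ 2 := by
    set m := ∫ h, mtr i h ∂gauss (Edge n) with hm
    have i3 : Integrable (fun g => mtr i g * mtr i g - 2 * m * mtr i g) (gauss (Edge n)) :=
      i1.sub (i2.const_mul _)
    rw [show (fun g => (mtr i g - m) ^ 2) = fun g => (mtr i g * mtr i g - 2 * m * mtr i g) + m ^ 2 from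
        funext fun g => by ring,
      integral_add i3 (integrable_const _), integral_sub i1 (i2.const_mul _),
      integral_const_mul, ← hm]
    simp only [integral_const, probReal_univ, smul_eq_mul, one_mul, ← sq]
    ring
  rw [hvar]
  refine hp.trans ((integral_mono (integrable_finsetSum _ fun e _ => ?_) ((hi.const_mul _).div_const _)
    fun g => sum_dmtr_sq_le i g).trans ?_)
  · simpa only [← sq] using ((eb_dmtr i e).mul (eb_dmtr i e)).integrable
  · rw [integral_div, integral_const_mul]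
    exact div_le_div_of_nonneg_right (mul_le_mul_of_nonneg_left hb (by positivity)) (by positivity)

lemma sum_edge_pair (P Q : Matrix (Fin n) (Fin n) ℝ) :
    ∑ e : Edge n, (P * dir e * Q * dir e).trace =
      P.trace * Q.trace + ∑ a, ∑ b, P a b * Q a b - 2 * ∑ a, P a a * Q a a := by
  have hE : ∀ e : Edge n, (P * dir e * Q * dir e).trace =
      P e.1.2 e.1.2 * Q e.1.1 e.1.1 + P e.1.2 e.1.1 * Q e.1.2 e.1.1 +
        (P e.1.1 e.1.1 * Q e.1.2 e.1.2 + P e.1.1 e.1.2 * Q e.1.1 e.1.2) := fun e => by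
    have he : e.1.1 ≠ e.1.2 := e.2.ne
    rw [Matrix.trace_mul_comm, trace_dir_mul]
    have hd : ∀ c x, (P * dir e) c x =
        (if e.1.2 = x then P c e.1.1 else 0) + if e.1.1 = x then P c e.1.2 else 0 := fun c x => by
      simp [Matrix.mul_apply, dir_apply, mul_add, sum_add_distrib, ite_and]
    rw [Matrix.mul_apply, Matrix.mul_apply]
    simp only [hd, add_mul, ite_mul, zero_mul, sum_add_distrib, sum_ite_eq, mem_univ, if_true]
    ring
  set F : Fin n → Fin n → ℝ := fun a b => P a a * Q b b + P a b * Q a b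
  have hF : ∀ e : Edge n, (P * dir e * Q * dir e).trace = F e.1.2 e.1.1 + F e.1.1 e.1.2 := fun e => by
    rw [hE]
  simp only [hF]
  have h := P150.sum_edge_eq (fun _ : Edge n => (1 : ℝ)) fun a b => F b a + F a b
  simp only [one_mul] at h
  rw [h]
  have hu : ∀ a b, P150.upper (fun _ : Edge n => (1 : ℝ)) a b + P150.upper (fun _ : Edge n => (1 : ℝ)) b a =
      if a = b then 0 else 1 := fun a b => by
    unfold P150.upper
    rcases lt_trichotomy a b with h | rfl | h
    · simp [h, h.asymm, h.ne]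
    · simp
    · simp [h, h.asymm, h.ne']
  calc ∑ a, ∑ b, P150.upper (fun _ : Edge n => (1 : ℝ)) a b * (F b a + F a b)
      = ∑ a, ∑ b, P150.upper (fun _ : Edge n => (1 : ℝ)) b a * F a b +
          ∑ a, ∑ b, P150.upper (fun _ : Edge n => (1 : ℝ)) a b * F a b := by
        simp only [mul_add, sum_add_distrib]
        rw [sum_comm (f := fun a b => P150.upper (fun _ : Edge n => (1 : ℝ)) a b * F b a)]
    _ = ∑ a, ∑ b, (if a = b then 0 else 1) * F a b := by
        simp only [← sum_add_distrib]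
        exact sum_congr rfl fun a _ => sum_congr rfl fun b _ => by rw [← hu]; ring
    _ = ∑ a, ∑ b, F a b - ∑ a, F a a := by
        rw [← sum_sub_distrib]
        refine sum_congr rfl fun a _ => ?_
        simp [ite_mul, sum_ite, filter_ne, sum_erase_eq_sub]
    _ = _ := by
        simp only [F, sum_add_distrib, ← mul_sum, ← sum_mul, Matrix.trace, Matrix.diag]
        ring

lemma mean_rec (k : ℕ) : ∃ C : ℝ, 0 ≤ C ∧ ∀ n : ℕ, 1 ≤ n →
    |∫ g : Edge n → ℝ, (mtr (k + 2) g + mtr k g) ∂gauss (Edge n) -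
      ∑ m ∈ range (k + 1), ∫ g : Edge n → ℝ, mtr m g * mtr (k - m) g ∂gauss (Edge n)| ≤ C / n := by
  obtain ⟨C, hC, hM⟩ := opn_mom k
  refine ⟨3 * (k + 1) * C, by positivity, fun n hn => ?_⟩
  have hn' : (0 : ℝ) < n := by exact_mod_cast hn
  have hsn : √(n : ℝ) * √(n : ℝ) = n := Real.mul_self_sqrt hn'.le
  set T := fun (g : Edge n → ℝ) (e : Edge n) =>
    cheb (Wm g) (k + 1) e.1.2 e.1.1 + cheb (Wm g) (k + 1) e.1.1 e.1.2
  have ebT : ∀ e, EB fun g => T g e := fun e => (eb_cheb _ _ _).add (eb_cheb _ _ _)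
  have e0 : ∀ g : Edge n → ℝ, mtr (k + 2) g + mtr k g = ∑ e, g e * T g e / (√(n : ℝ) * n) := fun g => by
    have hW : Wm g = ∑ e, (g e / √(n : ℝ)) • dir e := by
      ext a b
      simp only [Wm, cpl_eq_sum, Matrix.sum_apply, Matrix.smul_apply, smul_eq_mul, sum_div]
      exact sum_congr rfl fun e _ => by ring
    rw [mtr, mtr, ← add_div, ← Matrix.trace_add, ← mul_cheb_succ]
    nth_rewrite 1 [hW]
    simp only [sum_mul, Matrix.smul_mul, Matrix.trace_sum, Matrix.trace_smul, trace_dir_mul, smul_eq_mul, sum_div, T]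
    exact sum_congr rfl fun e _ => by rw [div_mul_eq_mul_div, div_div]
  have eb1 : ∀ e : Edge n, EB fun g => (dcheb g e (k + 1) * dir e).trace / √(n : ℝ) := fun e => by
    simp only [Matrix.trace, Matrix.diag, Matrix.mul_apply, div_eq_mul_inv]
    exact (EB.sum _ fun a _ => EB.sum _ fun c _ => (eb_dcheb e _ a c).mul (EB.const _)).mul (EB.const _)
  have ibp : ∀ e : Edge n, ∫ g, g e * T g e ∂gauss (Edge n) =
      ∫ g, (dcheb g e (k + 1) * dir e).trace / √(n : ℝ) ∂gauss (Edge n) := fun e => by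
    refine EB.ibp e (ebT e) (eb1 e) fun z t => ?_
    have h := fun a b => hasDerivAt_cheb' (Function.update z e t) e (k + 1) a b
    simp only [Function.update_idem, Function.update_self] at h
    refine ((h e.1.2 e.1.1).add (h e.1.1 e.1.2)).congr_deriv ?_
    rw [Matrix.trace_mul_comm, trace_dir_mul, add_div]
  set err := fun g : Edge n → ℝ => ∑ m ∈ range (k + 1),
    ((∑ a, ∑ b, cheb (Wm g) m a b * cheb (Wm g) (k - m) a b) -
      2 * ∑ a, cheb (Wm g) m a a * cheb (Wm g) (k - m) a a) / ((n : ℝ) * n)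
  have e1 : ∀ g : Edge n → ℝ, ∑ e, (dcheb g e (k + 1) * dir e).trace / √(n : ℝ) / (√(n : ℝ) * n) =
      ∑ m ∈ range (k + 1), mtr m g * mtr (k - m) g + err g := fun g => by
    simp only [div_div, ← mul_assoc, hsn, ← sum_div, dcheb, sum_mul, Matrix.trace_sum, Nat.add_sub_cancel]
    rw [sum_comm]
    simp only [sum_edge_pair, err, mtr, sum_div, ← sum_add_distrib]
    exact sum_congr rfl fun m _ => by field_simp; ring
  have ebe : EB err := by
    simp only [err, div_eq_mul_inv]
    refine EB.sum _ fun m _ => ((EB.sum _ fun a _ => EB.sum _ fun b _ => (eb_cheb m a b).mul (eb_cheb _ a b)).sub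
      ((EB.const 2).mul (EB.sum _ fun a _ => (eb_cheb m a a).mul (eb_cheb _ a a)))).mul (EB.const _)
  have hmm : ∀ m, Integrable (fun g => mtr m g * mtr (k - m) g) (gauss (Edge n)) := fun m =>
    ((eb_mtr m).mul (eb_mtr _)).integrable
  have key : ∫ g, (mtr (k + 2) g + mtr k g) ∂gauss (Edge n) =
      ∑ m ∈ range (k + 1), ∫ g, mtr m g * mtr (k - m) g ∂gauss (Edge n) + ∫ g, err g ∂gauss (Edge n) := by
    simp only [e0]
    rw [integral_finsetSum _ fun e _ => (((EB.proj e).mul (ebT e)).integrable).div_const _]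
    simp only [integral_div, ibp]
    rw [← integral_finsetSum _ fun m _ => hmm m, ← integral_add (integrable_finsetSum _ fun m _ => hmm m) ebe.integrable]
    simp only [← e1, ← integral_div]
    exact (integral_finsetSum _ fun e _ => ((eb1 e).integrable).div_const _).symm
  have herr : ∀ g, |err g| ≤ 3 * (k + 1) * (opn g + 2) ^ k / n := fun g => by
    refine (abs_sum_le_sum_abs _ _).trans ((sum_le_sum (g := fun _ => 3 * (opn g + 2) ^ k / n)
      fun m hm => ?_).trans (le_of_eq ?_))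
    · set P := cheb (Wm g) m
      set Q := cheb (Wm g) (k - m)
      rw [mem_range] at hm
      have hPQ : ‖P‖ * ‖Q‖ ≤ (opn g + 2) ^ k := by
        refine (mul_le_mul (norm_cheb_Wm g _) (norm_cheb_Wm g _) (norm_nonneg _) ?_).trans ?_
        · have := opn_nonneg g; positivity
        · rw [← pow_add, show m + (k - m) = k by omega]
      have h1 : |∑ a, ∑ b, P a b * Q a b| ≤ n * (opn g + 2) ^ k := by
        refine (abs_sum_le_sum_abs _ _).trans ((sum_le_sum fun a _ => ?_).trans_eq
          (by simp : ∑ _a : Fin n, (opn g + 2) ^ k = n * (opn g + 2) ^ k))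
        have hP := col_sq_le Pᵀ a
        have hQ := col_sq_le Qᵀ a
        rw [← Matrix.conjTranspose_eq_transpose_of_trivial, Matrix.l2_opNorm_conjTranspose] at hP hQ
        simp only [Matrix.conjTranspose_apply, star_trivial] at hP hQ
        refine le_trans (Real.abs_le_sqrt (sum_mul_sq_le_sq_mul_sq univ (P a) (Q a))) (le_trans ?_ hPQ)
        rw [← Real.sqrt_sq (mul_nonneg (norm_nonneg P) (norm_nonneg Q)), mul_pow]
        exact Real.sqrt_le_sqrt (mul_le_mul hP hQ (sum_nonneg fun _ _ => sq_nonneg _) (sq_nonneg _))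
      have h2 : |∑ a, P a a * Q a a| ≤ n * (opn g + 2) ^ k := by
        refine (abs_sum_le_sum_abs _ _).trans ((sum_le_sum fun a _ => ?_).trans_eq
          (by simp : ∑ _a : Fin n, (opn g + 2) ^ k = n * (opn g + 2) ^ k))
        rw [abs_mul]
        exact (mul_le_mul (abs_apply_le P a a) (abs_apply_le Q a a) (abs_nonneg _) (norm_nonneg _)).trans hPQ
      rw [abs_div, abs_of_pos (mul_pos hn' hn'), div_le_div_iff₀ (mul_pos hn' hn') hn']
      have h3 := abs_sub (∑ a, ∑ b, P a b * Q a b) (2 * ∑ a, P a a * Q a a)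
      rw [abs_mul, abs_two] at h3
      nlinarith
    · simp; ring
  rw [key, add_sub_cancel_left]
  obtain ⟨hi, hb⟩ := hM n hn
  refine (abs_integral_le_integral_abs).trans ((integral_mono ebe.integrable.abs
    ((hi.const_mul _).div_const _) herr).trans ?_)
  rw [integral_div, integral_const_mul]
  exact div_le_div_of_nonneg_right (mul_le_mul_of_nonneg_left hb (by positivity)) hn'.le

/-- the semicircular value of the normalised trace -/
def del (i : ℕ) : ℝ := if i = 0 then 1 else 0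

lemma mean_mtr (i : ℕ) : ∃ C : ℝ, 0 ≤ C ∧ ∀ n : ℕ, 1 ≤ n →
    |∫ g : Edge n → ℝ, mtr i g ∂gauss (Edge n) - del i| ≤ C / n := by
  induction i using Nat.strong_induction_on with
  | _ i ih =>
  rcases i with _ | _ | k
  · refine ⟨0, le_rfl, fun n hn => ?_⟩
    have : (n : ℝ) ≠ 0 := by exact_mod_cast (by omega : n ≠ 0)
    simp [mtr, cheb, del, this]
  · refine ⟨0, le_rfl, fun n hn => ?_⟩
    have : ∀ g : Edge n → ℝ, mtr 1 g = 0 := fun g => by
      simp [mtr, cheb, Wm, Matrix.trace, Matrix.diag, cpl]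
    simp [this, del]
  · choose! C hC hμ using ih
    choose V hV hv using var_mtr
    obtain ⟨R, hR, hr⟩ := mean_rec k
    set Cv : ℕ → ℝ := fun m => C m * (C (k - m) + 1) + C (k - m) + (V m + V (k - m))
    refine ⟨R + ∑ m ∈ range (k + 1), Cv m + C k, ?_, fun n hn => ?_⟩
    · have : ∀ m ∈ range (k + 1), 0 ≤ Cv m := fun m hm => by
        rw [mem_range] at hm
        have := hC m (by omega); have := hC (k - m) (by omega); have := hV m; have := hV (k - m)
        positivity
      have := sum_nonneg this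
      have := hC k (by omega)
      linarith
    have hn1 : (1 : ℝ) ≤ n := by exact_mod_cast hn
    set μ : ℕ → ℝ := fun m => ∫ g : Edge n → ℝ, mtr m g ∂gauss (Edge n)
    have hd : ∀ m, |del m| ≤ 1 := fun m => by unfold del; split_ifs <;> simp
    have hprod : ∀ m ∈ range (k + 1),
        |∫ g : Edge n → ℝ, mtr m g * mtr (k - m) g ∂gauss (Edge n) - del m * del (k - m)| ≤ Cv m / n := by
      intro m hm
      rw [mem_range] at hm
      have a1 := hμ m (by omega) n hn
      have a2 := hμ (k - m) (by omega) n hn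
      set a := fun g : Edge n → ℝ => mtr m g - μ m
      set b := fun g : Edge n → ℝ => mtr (k - m) g - μ (k - m)
      have ea : EB a := (eb_mtr m).sub (EB.const _)
      have eb' : EB b := (eb_mtr _).sub (EB.const _)
      have split : ∫ g : Edge n → ℝ, mtr m g * mtr (k - m) g ∂gauss (Edge n) =
          ∫ g, a g * b g ∂gauss (Edge n) + μ m * μ (k - m) := by
        rw [show (fun g => mtr m g * mtr (k - m) g) = fun g => (a g * b g + (μ (k - m) * a g + μ m * b g)) +
            μ m * μ (k - m) from funext fun g => by simp only [a, b]; ring,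
          integral_add ((ea.mul eb').integrable.fun_add ((ea.integrable.const_mul _).fun_add (eb'.integrable.const_mul _)))
            (integrable_const _),
          integral_add (ea.mul eb').integrable ((ea.integrable.const_mul _).fun_add (eb'.integrable.const_mul _)),
          integral_add (ea.integrable.const_mul _) (eb'.integrable.const_mul _), integral_const_mul, integral_const_mul]
        simp only [a, b, integral_sub (eb_mtr _).integrable (integrable_const _), integral_const, probReal_univ,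
          smul_eq_mul, one_mul, μ, sub_self, mul_zero, add_zero]
      have hcov : |∫ g, a g * b g ∂gauss (Edge n)| ≤ (V m + V (k - m)) / n := by
        have iA : Integrable (fun g => a g ^ 2) (gauss (Edge n)) := by simpa only [sq] using (ea.mul ea).integrable
        have iB : Integrable (fun g => b g ^ 2) (gauss (Edge n)) := by simpa only [sq] using (eb'.mul eb').integrable
        refine abs_integral_le_integral_abs.trans ((integral_mono (ea.mul eb').integrable.abs (iA.fun_add iB)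
          fun g => ?_).trans ?_)
        · show |a g * b g| ≤ a g ^ 2 + b g ^ 2
          rw [abs_mul, ← sq_abs (a g), ← sq_abs (b g)]
          nlinarith [sq_nonneg (|a g| - |b g|), abs_nonneg (a g), abs_nonneg (b g)]
        · rw [integral_add iA iB, add_div]
          exact add_le_add ((hv m n hn).trans (div_le_div_of_nonneg_left (hV m) (by linarith) (le_self_pow₀ hn1 two_ne_zero)))
            ((hv (k - m) n hn).trans (div_le_div_of_nonneg_left (hV _) (by linarith) (le_self_pow₀ hn1 two_ne_zero)))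
      rw [split]
      have hμb : |μ (k - m)| ≤ C (k - m) + 1 := by
        have h1 := abs_sub_abs_le_abs_sub (μ (k - m)) (del (k - m))
        have h2 : C (k - m) / n ≤ C (k - m) := div_le_self (hC _ (by omega)) hn1
        have := hd (k - m)
        linarith
      have h3 : |μ m * μ (k - m) - del m * del (k - m)| ≤ (C m * (C (k - m) + 1) + C (k - m)) / n := by
        rw [show μ m * μ (k - m) - del m * del (k - m) =
          (μ m - del m) * μ (k - m) + del m * (μ (k - m) - del (k - m)) by ring, add_div]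
        refine (abs_add_le _ _).trans (add_le_add ?_ ?_)
        · rw [abs_mul, mul_div_right_comm]
          exact mul_le_mul a1 hμb (abs_nonneg _) (div_nonneg (hC m (by omega)) (by linarith))
        · rw [abs_mul]
          exact (mul_le_of_le_one_left (abs_nonneg _) (hd m)).trans a2
      rw [add_sub_assoc, show Cv m / (n : ℝ) = (V m + V (k - m)) / n +
        (C m * (C (k - m) + 1) + C (k - m)) / n by rw [← add_div]; simp only [Cv]; ring]
      exact (abs_add_le _ _).trans (add_le_add hcov h3)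
    have hdel : del (k + 2) + del k = ∑ m ∈ range (k + 1), del m * del (k - m) := by
      rw [sum_eq_single 0]
      · simp [del]
      · intro m _ hm; simp [del, hm]
      · simp
    have hA := hr n hn
    rw [integral_add (eb_mtr _).integrable (eb_mtr _).integrable] at hA
    have hB : |∑ m ∈ range (k + 1), ∫ g : Edge n → ℝ, mtr m g * mtr (k - m) g ∂gauss (Edge n) -
        ∑ m ∈ range (k + 1), del m * del (k - m)| ≤ (∑ m ∈ range (k + 1), Cv m) / n := by
      rw [← sum_sub_distrib, sum_div]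
      exact (abs_sum_le_sum_abs _ _).trans (sum_le_sum hprod)
    have hk := hμ k (by omega) n hn
    rw [add_div, add_div]
    rw [abs_le] at hA hB hk ⊢
    constructor <;> linarith [hA.1, hA.2, hB.1, hB.2, hk.1, hk.2, hdel]

theorem trace_close (i : ℕ) : ∃ C : ℝ, 0 ≤ C ∧ ∀ n : ℕ, 1 ≤ n →
    ∫ g : Edge n → ℝ, |(cheb (Wm g) i).trace / n - (if i = 0 then 1 else 0)| ∂gauss (Edge n) ≤ C / √(n : ℝ) := by
  obtain ⟨V, hV, hv⟩ := var_mtr i
  obtain ⟨C, hC, hμ⟩ := mean_mtr i
  refine ⟨V + 1 + C, by linarith, fun n hn => ?_⟩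
  have hn1 : (1 : ℝ) ≤ n := by exact_mod_cast hn
  have hn0 : (0 : ℝ) < n := by linarith
  set μ := ∫ g : Edge n → ℝ, mtr i g ∂gauss (Edge n)
  have ea : EB (fun g : Edge n → ℝ => mtr i g - μ) := (eb_mtr i).sub (EB.const _)
  have iA : Integrable (fun g : Edge n → ℝ => (mtr i g - μ) ^ 2) (gauss (Edge n)) := by
    simpa only [sq] using (ea.mul ea).integrable
  have hpt : ∀ g : Edge n → ℝ, |mtr i g - del i| ≤ (n : ℝ) * (mtr i g - μ) ^ 2 + (1 + C) / n := fun g => by
    have h1 : |mtr i g - μ| ≤ (n : ℝ) * (mtr i g - μ) ^ 2 + 1 / n := by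
      rw [← sub_nonneg]
      have e : (n : ℝ) * (mtr i g - μ) ^ 2 + 1 / n - |mtr i g - μ| =
          ((n * |mtr i g - μ| - 1 / 2) ^ 2 + 3 / 4) / n := by
        rw [← sq_abs (mtr i g - μ)]; field_simp; ring
      rw [e]; positivity
    have h2 := abs_sub_le (mtr i g) μ (del i)
    have h3 := hμ n hn
    rw [add_div]
    linarith
  refine (integral_mono (f := fun g => |mtr i g - del i|) ((eb_mtr i).sub (EB.const (del i))).integrable.abs
    ((iA.const_mul _).fun_add (integrable_const _)) hpt).trans ?_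
  rw [integral_add (iA.const_mul _) (integrable_const _), integral_const_mul]
  simp only [integral_const, probReal_univ, smul_eq_mul, one_mul]
  have h4 : (n : ℝ) * ∫ g, (mtr i g - μ) ^ 2 ∂gauss (Edge n) ≤ V / n := by
    refine (mul_le_mul_of_nonneg_left (hv n hn) hn0.le).trans (le_of_eq ?_)
    field_simp
  calc _ ≤ V / (n : ℝ) + (1 + C) / n := add_le_add h4 le_rfl
    _ = (V + 1 + C) / n := by ring
    _ ≤ _ := div_le_div_of_nonneg_left (by linarith) (Real.sqrt_pos.2 hn0) ((Real.sqrt_le_left (by linarith)).2 (le_self_pow₀ hn1 two_ne_zero))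

end Vale.Agent.P146.Lower
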