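import Vale.Agent.P146.Lower.Basic
import Vale.Agent.P168.MP.Conc
import Vale.Agent.P168.MP.Coarse

/-! P146 lower bound: the Gibbs mean of `σ'φσ` against the perturbed system at `lam = -w`, by convexity in
`lam`, pointwise in the disorder. -/

open MeasureTheory Finset Real
open Vale.Agent.P150 (gauss)
open Vale.Agent.P168.MP (lin logZ0 ET pw spinAt allBatch BIdx gu Mark att Ok tilt mean1)

noncomputable section

namespace Vale.Agent.P146.Lower

/-- the nested log functional lies above its tangents along a tilt -/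
lemma tilt_tangent {Ω : Type*} [Fintype Ω] [Nonempty Ω] {R : ℕ} {m : ℕ → ℝ} {w : List Ω → ℝ}
    (h : Ok R m w) (hR : 1 ≤ R) (D : List Ω → ℝ) {s t : ℝ} (hst : s ≤ t) :
    (t - s) * mean1 R m (tilt w D s) D ≤ logZ0 R m (tilt w D t) - logZ0 R m (tilt w D s) := by
  have hL : ∀ x, HasDerivAt (fun x => logZ0 R m (tilt w D x)) (mean1 R m (tilt w D x) D) x := fun x =>
    Vale.Agent.P168.MP.hasDerivAt_logZ0 (h.tilt D x) (Vale.Agent.P168.MP.hasDerivAt_tilt w D x)
  have hmono : Monotone fun x => mean1 R m (tilt w D x) D := by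
    refine monotone_of_deriv_nonneg (fun x => (Vale.Agent.P168.MP.hasDerivAt_ET_const (h.tilt D x)
      (Vale.Agent.P168.MP.hasDerivAt_tilt w D x) Vale.Agent.P168.MP.valid_single _).differentiableAt)
      fun x => ?_
    have e := (Vale.Agent.P168.MP.hasDerivAt_ET_const (h.tilt D x)
      (Vale.Agent.P168.MP.hasDerivAt_tilt w D x) (T := [(0, 0)]) Vale.Agent.P168.MP.valid_single
      (fun ps => D (ps.getD 0 []))).deriv
    unfold mean1
    rw [e]
    refine le_trans ?_ (Vale.Agent.P168.MP.var_le_deriv (h.tilt D x) hR D)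
    refine mul_nonneg (h.pos 1 le_rfl hR).le ?_
    rw [← Vale.Agent.P168.MP.var_eq (h.tilt D x) D]
    exact Vale.Agent.P168.MP.ET_nonneg (h.tilt D x).wpos fun ps => sq_nonneg _
  rcases hst.eq_or_lt with rfl | hlt
  · simp
  obtain ⟨c, hc, hd⟩ := exists_hasDerivAt_eq_slope (fun x => logZ0 R m (tilt w D x))
    (fun x => mean1 R m (tilt w D x) D) hlt
    (fun x _ => (hL x).continuousAt.continuousWithinAt) fun x _ => hL x
  have := hmono hc.1.le
  simp only at this
  rw [hd] at this
  rwa [le_div_iff₀ (by linarith), mul_comm] at this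

variable {n : ℕ}

/-- log-sum-exp lies above its tangent at the Gibbs measure -/
lemma gibbs_tangent (β : ℝ) (g : Edge n → ℝ) (b : Cfg n → ℝ) (w : ℝ) :
    log (Vale.Agent.P168.MP.avg fun x => exp (β * energy g x)) -
      log (Vale.Agent.P168.MP.avg fun x => exp (β * energy g x - w * b x)) ≤
        w * ∑ x, gibbs β g x * b x := by
  have hZ := partition_pos β g
  have hg : ∀ x, 0 ≤ gibbs β g x := fun x => (div_pos (exp_pos _) hZ).le
  have h1 : ∑ x, gibbs β g x = 1 := by
    simp only [gibbs, ← sum_div]; exact div_self hZ.ne'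
  have hj : exp (∑ x, gibbs β g x * (-(w * b x))) ≤ ∑ x, gibbs β g x * exp (-(w * b x)) := by
    simpa [smul_eq_mul] using convexOn_exp.map_sum_le (t := univ) (w := fun x => gibbs β g x)
      (p := fun x => -(w * b x)) (fun x _ => hg x) h1 fun x _ => Set.mem_univ _
  have hs : ∑ x, gibbs β g x * (-(w * b x)) = -(w * ∑ x, gibbs β g x * b x) := by
    rw [mul_sum, ← sum_neg_distrib]; exact sum_congr rfl fun x _ => by ring
  have he : ∑ x, gibbs β g x * exp (-(w * b x)) =
      (Vale.Agent.P168.MP.avg fun x => exp (β * energy g x - w * b x)) /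
        Vale.Agent.P168.MP.avg fun x : Cfg n => exp (β * energy g x) := by
    have hc : (Fintype.card (Cfg n) : ℝ) ≠ 0 := Nat.cast_ne_zero.2 Fintype.card_ne_zero
    simp only [Vale.Agent.P168.MP.avg, gibbs, div_mul_eq_mul_div, ← exp_add, ← sub_eq_add_neg, ← sum_div]
    rw [div_div_div_cancel_right₀ hc]
    rfl
  rw [hs, he] at hj
  have hA : 0 < Vale.Agent.P168.MP.avg fun x : Cfg n => exp (β * energy g x) :=
    Vale.Agent.P168.MP.avg_pos fun x => exp_pos _
  have hB : 0 < Vale.Agent.P168.MP.avg fun x : Cfg n => exp (β * energy g x - w * b x) :=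
    Vale.Agent.P168.MP.avg_pos fun x => exp_pos _
  have := log_le_log (exp_pos _) hj
  rw [log_exp, log_div hB.ne' hA.ne'] at this
  linarith

/-- **Convexity, secant**: the drop of the perturbed free energy is at most `w` times the Gibbs mean -/
theorem free_drop_le (P : Par) (n : ℕ) [NeZero n] (β : ℝ) (a : ℕ → ℝ) (K : ℕ) (w : ℝ) :
    P.free n β a K 0 - P.free n β a K (-w) ≤ w * gibbsBil n β a K + 2 * P.cap := by
  set b := fun (g : Edge n → ℝ) (x : Cfg n) => bil (chebSum a K (Wm g)) x x
  set G := fun (g : Edge n → ℝ) => ∑ x : Cfg n, gibbs β g x * b g x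
  set L := fun (u : P.Grid) (t : ℝ) (g : Edge n → ℝ) => logZ0 P.R (lin P.R) (P.wp (wgt β a K t 0 g) u)
  have hpt : ∀ (u : P.Grid) (g : Edge n → ℝ), L u 0 g - L u (-w) g ≤ w * G g + 2 * P.cap := fun u g => by
    have h2 := abs_le.1 (abs_logZ0_wp_sub_le P (fun x => wgt_pos β a K 0 0 g x) u)
    have h3 := abs_le.1 (abs_logZ0_wp_sub_le P (fun x => wgt_pos β a K (-w) 0 g x) u)
    have h4 := gibbs_tangent β g (b g) w
    have e0 : (wgt β a K 0 0 g : Cfg n → ℝ) = fun x => exp (β * energy g x) := funext fun x => by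
      simp [wgt]
    have e1 : (wgt β a K (-w) 0 g : Cfg n → ℝ) = fun x => exp (β * energy g x - w * b g x) :=
      funext fun x => by simp [wgt, b, sub_eq_add_neg]
    simp only [L, G] at *
    rw [e0] at h2 ⊢
    rw [e1] at h3 ⊢
    linarith
  have ebG : Integrable G (gauss (Edge n)) := by
    refine (EB.of_le (F := G) (eb_abs_entries (eb_chebSum a K)) ?_ fun g => ?_).integrable
    · refine continuous_finsetSum _ fun x _ => Continuous.mul ?_ (eb_bil (eb_chebSum a K) x x).1
      refine Continuous.div (continuous_exp.comp (continuous_const.mul (eb_energy x).1)) ?_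
        fun g => (partition_pos β g).ne'
      exact continuous_finsetSum _ fun y _ => continuous_exp.comp (continuous_const.mul (eb_energy y).1)
    · refine (abs_sum_le_sum_abs _ _).trans ((sum_le_sum fun x _ => ?_).trans_eq
        (by rw [← sum_mul, show ∑ x : Cfg n, gibbs β g x = 1 from by
          simp only [gibbs, ← sum_div]; exact div_self (partition_pos β g).ne', one_mul]))
      rw [gibbs, abs_mul, abs_of_nonneg (div_pos (exp_pos _) (partition_pos β g)).le]
      exact mul_le_mul_of_nonneg_left (abs_bil_le _ _ _) (div_pos (exp_pos _) (partition_pos β g)).le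
  have hi : ∀ u t, Integrable (L u t) (gauss (Edge n)) := fun u t => (eb_logZ0 P β a K t 0 u).integrable
  have hu : ∀ u, (∫ g, L u 0 g ∂gauss (Edge n)) - ∫ g, L u (-w) g ∂gauss (Edge n) ≤
      w * gibbsBil n β a K + 2 * P.cap := fun u => by
    have := integral_mono ((hi u 0).sub (hi u (-w))) ((ebG.const_mul w).add (integrable_const (2 * P.cap)))
      (hpt u)
    simp only [Pi.sub_apply, Pi.add_apply] at this
    rw [integral_sub (hi u 0) (hi u (-w)), integral_add (ebG.const_mul w) (integrable_const _),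
      integral_const, probReal_univ, one_smul, integral_const_mul] at this
    exact this
  have : Nonempty P.Grid := ⟨fun _ => ⟨0, P.M_pos⟩⟩
  refine le_trans (le_of_eq ?_) ((Vale.Agent.P168.MP.avg_le_avg hu).trans_eq
    (Vale.Agent.P168.MP.avg_const _))
  exact (Vale.Agent.P168.MP.avg_sub _ _).symm

/-- **Convexity, tangent**: the drop of the perturbed free energy is at least the perturbed mean at `-w` -/
theorem free_drop_ge (P : Par) (n : ℕ) [NeZero n] (β : ℝ) (a : ℕ → ℝ) (K : ℕ) {w : ℝ} (hw : 0 ≤ w) :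
    w * (n * ∑ j ∈ range K, a j * P.diag n β a K (-w) 0 (j + 1)) ≤
      P.free n β a K 0 - P.free n β a K (-w) := by
  set b := fun (g : Edge n → ℝ) (x : Cfg n) => bil (chebSum a K (Wm g)) x x
  set E := fun (u : P.Grid) (g : Edge n → ℝ) => ET P.R (lin P.R) (P.wp (wgt β a K (-w) 0 g) u) [(0, 0)]
    fun ps => b g (spinAt P.R (ps.getD 0 []))
  set L := fun (u : P.Grid) (t : ℝ) (g : Edge n → ℝ) => logZ0 P.R (lin P.R) (P.wp (wgt β a K t 0 g) u)
  have hpt : ∀ (u : P.Grid) (g : Edge n → ℝ), w * E u g ≤ L u 0 g - L u (-w) g := fun u g => by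
    have hp : ∀ t : ℝ, P.wp (wgt β a K t 0 g) u =
        tilt (P.wp (wgt β a K 0 0 g) u) (fun p => b g (spinAt P.R p)) t := fun t => funext fun p => by
      simp only [Par.wp, pw, tilt, wgt, b, Pi.zero_apply, add_zero, zero_mul, exp_add]
      ring
    have h1 := tilt_tangent (ok_wp P (fun x => wgt_pos β a K 0 0 g x) u) P.one_le
      (fun p => b g (spinAt P.R p)) (s := -w) (t := 0) (by linarith)
    rw [← hp, ← hp] at h1
    simp only [mean1, zero_sub, neg_neg] at h1
    exact h1
  have ebE : ∀ (u : P.Grid) (j : ℕ), EB fun g : Edge n → ℝ => ET P.R (lin P.R)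
      (P.wp (wgt β a K (-w) 0 g) u) [(0, 0)] fun ps =>
        bil (cheb (Wm g) j) (spinAt P.R (ps.getD 0 [])) (spinAt P.R (ps.getD 0 [])) / n := fun u j =>
    eb_ET P β a K (-w) 0 u (fun ps => (eb_bil (eb_cheb j) _ _).1.div_const _)
      ((eb_abs_entries (eb_cheb j)).mul (EB.const (1 / (n:ℝ)))) fun g ps => by
        rw [abs_div, Nat.abs_cast, mul_one_div]
        exact div_le_div_of_nonneg_right (abs_bil_le _ _ _) (Nat.cast_nonneg _)
  have hn : (n:ℝ) ≠ 0 := Nat.cast_ne_zero.2 (NeZero.ne n)
  have hlin : ∀ u g, E u g = n * ∑ j ∈ range K, a j * ET P.R (lin P.R)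
      (P.wp (wgt β a K (-w) 0 g) u) [(0, 0)] fun ps =>
        bil (cheb (Wm g) (j + 1)) (spinAt P.R (ps.getD 0 [])) (spinAt P.R (ps.getD 0 [])) / n := fun u g => by
    simp only [mul_sum, ← Vale.Agent.P168.MP.ET_const_mul, ← Vale.Agent.P168.MP.ET_sum, E]
    congr 1
    funext ps
    simp only [b, bil, chebSum, Matrix.sum_apply, Matrix.smul_apply, smul_eq_mul, mul_sum, sum_mul, sum_div]
    rw [sum_comm (s := range K)]
    refine sum_congr rfl fun i _ => ?_
    rw [sum_comm (s := range K)]
    refine sum_congr rfl fun k _ => sum_congr rfl fun j _ => ?_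
    field_simp
  have ebEu : ∀ u, Integrable (E u) (gauss (Edge n)) := fun u => by
    rw [show E u = fun g => _ from funext (hlin u)]
    exact ((integrable_finsetSum _ fun j _ => (ebE u (j + 1)).integrable.const_mul (a j))).const_mul _
  have hi : ∀ u t, Integrable (L u t) (gauss (Edge n)) := fun u t => (eb_logZ0 P β a K t 0 u).integrable
  have hu : ∀ u, w * ∫ g, E u g ∂gauss (Edge n) ≤
      (∫ g, L u 0 g ∂gauss (Edge n)) - ∫ g, L u (-w) g ∂gauss (Edge n) := fun u => by
    have := integral_mono ((ebEu u).const_mul w) ((hi u 0).sub (hi u (-w))) (hpt u)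
    simp only [Pi.sub_apply] at this
    rwa [integral_sub (hi u 0) (hi u (-w)), integral_const_mul] at this
  have : Nonempty P.Grid := ⟨fun _ => ⟨0, P.M_pos⟩⟩
  refine le_trans (le_of_eq ?_) ((Vale.Agent.P168.MP.avg_le_avg hu).trans_eq
    (Vale.Agent.P168.MP.avg_sub _ _))
  have hc : (Fintype.card P.Grid : ℝ) ≠ 0 := Nat.cast_ne_zero.2 Fintype.card_ne_zero
  simp only [hlin, integral_const_mul, integral_finsetSum _ fun j _ => (ebE _ (j + 1)).integrable.const_mul _]
  simp only [Par.diag, Par.mean, Vale.Agent.P168.MP.avg, mul_div_assoc', ← sum_div, ← mul_sum]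
  rw [sum_comm (s := (univ : Finset P.Grid))]
  simp only [← mul_sum]

end Vale.Agent.P146.Lower
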