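import Vale.Agent.P146.Calc
import Vale.Agent.P157.Par.GridRep
import Vale.Agent.P157.Par.Lip

/-! P146, diverging lower bound: objects. The free energy is tested against the vector field of a Chebyshev
polynomial of the coupling matrix; the test is read in a hierarchical perturbation of bounded cost. -/

open MeasureTheory Finset Real
open Vale.Agent.P150 (gauss)
open Vale.Agent.P168.MP (lin logZ0 ET pw spinAt allBatch BIdx gu Mark att sp)
open Vale.Agent.P157.Par (qlev adev ovK Phi Prof coef)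

noncomputable section

namespace Vale.Agent.P146.Lower

variable {n : ℕ}

/-- the normalised coupling matrix -/
def Wm (g : Edge n → ℝ) : Matrix (Fin n) (Fin n) ℝ := fun a b => cpl g a b / √(n : ℝ)

/-- its operator norm -/
def opn (g : Edge n → ℝ) : ℝ := ‖Matrix.toEuclideanCLM (𝕜 := ℝ) (Wm g)‖

/-- Chebyshev polynomials of the second kind of half the argument -/
def cheb (A : Matrix (Fin n) (Fin n) ℝ) : ℕ → Matrix (Fin n) (Fin n) ℝ
  | 0 => 1
  | 1 => A
  | j + 2 => A * cheb A (j + 1) - cheb A j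

/-- `φ = ∑_{j<K} a_j U_{j+1}` -/
def chebSum (a : ℕ → ℝ) (K : ℕ) (A : Matrix (Fin n) (Fin n) ℝ) : Matrix (Fin n) (Fin n) ℝ :=
  ∑ j ∈ range K, a j • cheb A (j + 1)

/-- bilinear form at two configurations -/
def bil (A : Matrix (Fin n) (Fin n) ℝ) (x y : Cfg n) : ℝ := ∑ i, ∑ j, spin (x i) * A i j * spin (y j)

/-- mean of `σ' φ σ` under the Gibbs measure -/
def gibbsBil (n : ℕ) (β : ℝ) (a : ℕ → ℝ) (K : ℕ) : ℝ :=
  ∫ g, ∑ x : Cfg n, gibbs β g x * bil (chebSum a K (Wm g)) x x ∂gauss (Edge n)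

/-- weight of the system deformed by `lam σ' φ σ` and by a disorder-free factor `exp v` -/
def wgt (β : ℝ) (a : ℕ → ℝ) (K : ℕ) (lam : ℝ) (v : Cfg n → ℝ) (g : Edge n → ℝ) (x : Cfg n) : ℝ :=
  Real.exp (β * energy g x + lam * bil (chebSum a K (Wm g)) x x + v x)

/-- parameters of the perturbation -/
structure Par where
  R : ℕ
  S : ℕ
  M : ℕ
  h : ℝ
  ub : ℝ
  two_le : 2 ≤ R
  S_pos : 0 < S
  M_pos : 0 < M
  h_pos : 0 < h
  h_le : h ≤ 1
  ub_pos : 0 < ub
  ub_le : ub ≤ 1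

/-- the grid of strengths -/
abbrev Par.Grid (P : Par) : Type := BIdx P.R 2 → Fin P.M

/-- the perturbed weight on paths -/
def Par.wp (P : Par) [NeZero n] (W : Cfg n → ℝ) (u : P.Grid) :
    List (Mark n P.S (allBatch P.R 2)) → ℝ :=
  pw (S := P.S) (β := allBatch P.R 2) P.R W (fun _ => P.h) (gu P.ub P.M u)

/-- the cost of the perturbation -/
def Par.cap (P : Par) : ℝ :=
  (P.S : ℝ) * ∑ i : BIdx P.R 2, (((allBatch P.R 2 i).k : ℝ) + 1)

/-- mean of the deviations of the overlaps from their level values, over the grid -/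
def Par.dev (P : Par) [NeZero n] (W : Cfg n → ℝ) : ℝ :=
  Vale.Agent.P168.MP.avg fun u : P.Grid =>
    adev P.R (P.wp W u) (ovK (spinAt P.R)) (qlev P.R (P.wp W u) (spinAt P.R))

/-- the perturbation makes overlaps functions of the level, up to `δ`, whatever the weight -/
def Par.Good (P : Par) (δ : ℝ) : Prop :=
  ∀ (n : ℕ) [NeZero n] (W : Cfg n → ℝ), (∀ x, 0 < W x) → P.dev W ≤ δ

/-- average over grid and disorder of a functional of the perturbed system -/
def Par.mean (P : Par) [NeZero n] (β : ℝ) (a : ℕ → ℝ) (K : ℕ) (lam : ℝ) (v : Cfg n → ℝ)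
    (G : (Edge n → ℝ) → (List (Mark n P.S (allBatch P.R 2)) → ℝ) → ℝ) : ℝ :=
  Vale.Agent.P168.MP.avg fun u : P.Grid => ∫ g, G g (P.wp (wgt β a K lam v g) u) ∂gauss (Edge n)

/-- perturbed log partition function, uniform prior -/
def Par.free (P : Par) (n : ℕ) [NeZero n] (β : ℝ) (a : ℕ → ℝ) (K : ℕ) (lam : ℝ) : ℝ :=
  P.mean (n := n) β a K lam 0 fun _ w => logZ0 P.R (lin P.R) w

/-- replica expectation of `σ' U_j σ / n` -/
def Par.diag (P : Par) (n : ℕ) [NeZero n] (β : ℝ) (a : ℕ → ℝ) (K : ℕ) (lam : ℝ) (v : Cfg n → ℝ)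
    (j : ℕ) : ℝ :=
  P.mean (n := n) β a K lam v fun g w => ET P.R (lin P.R) w [(0, 0)] fun ps =>
    bil (cheb (Wm g) j) (spinAt P.R (ps.getD 0 [])) (spinAt P.R (ps.getD 0 [])) / n

/-- replica convolution of two level functions -/
def conv (R : ℕ) (q v : ℕ → ℝ) (l : ℕ) : ℝ :=
  ((att R (lin R) [(0, l), (0, 0)]).map fun c =>
    c.2 * (q (sp R (c.1 :: [(0, l), (0, 0)]) 0 2) * v (sp R (c.1 :: [(0, l), (0, 0)]) 2 1))).sum

/-- level values of `σ' U_j τ / n`: iterated convolution -/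
def lev (β : ℝ) (R : ℕ) (q : ℕ → ℝ) : ℕ → ℕ → ℝ
  | 0 => q
  | j + 1 => fun l => β * conv R q (lev β R q j) l

/-- `D(0) = 1 - ∫ q` -/
def top (R : ℕ) (q : ℕ → ℝ) : ℝ := (∑ l ∈ range R, (1 - q l)) / R

/-- the Parisi functional of the SK model, uniform prior -/
def Vsk (β : ℝ) (R : ℕ) (q : ℕ → ℝ) : ℝ :=
  Phi cosh R (lin R) (fun l => β ^ 2 * q l) -
    β ^ 2 / 4 * ∑ l ∈ range (R + 1), Vale.Agent.P157.Par.coef R l * q l ^ 2

/-- values of all trials -/
def skValues (β : ℝ) : Set ℝ :=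
  {v | ∃ R q, 1 ≤ R ∧ Prof R q 1 ∧ q R = 1 ∧ v = Vsk β R q}

end Vale.Agent.P146.Lower
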