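import Vale.Agent.P146.Lower.Convex
import Vale.Agent.P146.Lower.Cheb

/-! P146 lower bound: the drop of the deformed log partition function has variance `O(n)`. -/

open MeasureTheory Finset Real Matrix
open scoped Matrix.Norms.L2Operator
open Vale.Agent.P150 (gauss l1)

noncomputable section

namespace Vale.Agent.P146.Lower

variable {n : ℕ}

/-- Gaussian Poincaré for functions with exponentially bounded partial derivatives -/
lemma poincare_eb {f : (Edge n → ℝ) → ℝ} {f' : (Edge n → ℝ) → Edge n → ℝ} (hf : EB f)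
    (hf' : ∀ e, EB fun g => f' g e) (hdiff : Differentiable ℝ f)
    (hpar : ∀ g e, HasDerivAt (fun s => f (Function.update g e s)) (f' g e) (g e)) :
    ∫ g, (f g - ∫ z, f z ∂gauss (Edge n)) ^ 2 ∂gauss (Edge n) ≤ ∫ g, ∑ e, f' g e ^ 2 ∂gauss (Edge n) := by
  have hfd : ∀ g, HasFDerivAt f (P150.PoincareC1.lin (f' g)) g := fun g => by
    refine (hdiff g).hasFDerivAt.congr_fderiv (ContinuousLinearMap.coe_injective (LinearMap.pi_ext' fun e =>
      LinearMap.ext_ring ?_))
    have h1 := (hdiff g).hasFDerivAt.comp_hasDerivAt_of_eq (g e) (hasDerivAt_update g e (g e))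
      (Function.update_eq_self e g).symm
    simp only [LinearMap.coe_comp, Function.comp_apply, LinearMap.coe_single, ContinuousLinearMap.coe_coe,
      P150.PoincareC1.lin_apply]
    rw [h1.unique (hpar g e)]
    simp [Pi.single_apply]
  obtain ⟨-, A, M, hM, hA⟩ := hf
  obtain ⟨-, A', M', hM', hA'⟩ : EB fun g => ∑ e, |f' g e| := EB.sum _ fun e _ => EB.abs' (hf' e)
  have pA : 0 ≤ A := nonneg_of_mul_nonneg_left ((abs_nonneg _).trans (hA 0)) (exp_pos _)
  have pA' : 0 ≤ A' := nonneg_of_mul_nonneg_left ((abs_nonneg _).trans (hA' 0)) (exp_pos _)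
  have up : ∀ (z : Edge n → ℝ) {c m : ℝ}, 0 ≤ c → c ≤ A + A' → m ≤ M + M' →
      c * exp (m * l1 z) ≤ (A + A') * exp ((M + M') * l1 z) := fun z c m hc h1 h2 =>
    mul_le_mul h1 (exp_le_exp.2 (mul_le_mul_of_nonneg_right h2 (P150.l1_nonneg z))) (exp_pos _).le
      (hc.trans h1)
  have hp := P150.PoincareC1.gauss_poincare (f := f) (f' := f') (C := A + A') (M := M + M') (by linarith) hfd
    (continuous_pi fun e => (hf' e).1) (fun z => (hA z).trans (up z pA (by linarith) (by linarith)))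
    (fun z k => ((single_le_sum (f := fun e => |f' z e|) (fun e _ => abs_nonneg _) (mem_univ k)).trans
      ((le_abs_self _).trans (hA' z))).trans (up z pA' (by linarith) (by linarith)))
  have hf : EB f := ⟨hdiff.continuous, A, M, hM, hA⟩
  set m := ∫ z, f z ∂gauss (Edge n) with hm
  have i1 := (hf.mul hf).integrable
  have e : ∫ g, (f g - m) ^ 2 ∂gauss (Edge n) = ∫ g, f g ^ 2 ∂gauss (Edge n) - m ^ 2 := by
    rw [show (fun g => (f g - m) ^ 2) = fun g => f g * f g + ((-2 * m) * f g + m ^ 2) from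
        funext fun g => by ring,
      integral_add i1 (((EB.const _).mul hf).add (EB.const _)).integrable,
      integral_add ((EB.const _).mul hf).integrable (EB.const _).integrable, integral_const_mul, ← hm]
    simp only [integral_const, probReal_univ, smul_eq_mul, one_mul, ← sq]
    ring
  rw [e]; exact hp

/-- `log Z` of the deformed system -/
def lz (β : ℝ) (a : ℕ → ℝ) (K : ℕ) (t : ℝ) (g : Edge n → ℝ) : ℝ :=
  log (Vale.Agent.P168.MP.avg (wgt β a K t 0 g))

lemma eb_lz (β : ℝ) (a : ℕ → ℝ) (K : ℕ) (t : ℝ) : EB (lz (n := n) β a K t) := eb_logAvg β a K t 0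

/-- derivative of the exponent -/
def dX (β : ℝ) (a : ℕ → ℝ) (K : ℕ) (t : ℝ) (g : Edge n → ℝ) (e : Edge n) (x : Cfg n) : ℝ :=
  β * (bond x e / √(n : ℝ)) + t * ((∑ j ∈ range K, a j * bil (dcheb g e (j + 1)) x x) / √(n : ℝ))

lemma hasDerivAt_bil_cheb (g : Edge n → ℝ) (e : Edge n) (j : ℕ) (x : Cfg n) :
    HasDerivAt (fun s => bil (cheb (Wm (Function.update g e s)) j) x x)
      (bil (dcheb g e j) x x / √(n : ℝ)) (g e) := by
  refine (HasDerivAt.fun_sum fun i _ => HasDerivAt.fun_sum fun k _ =>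
    ((hasDerivAt_cheb' g e j i k).const_mul (spin (x i))).mul_const (spin (x k))).congr_deriv ?_
  simp only [bil, sum_div]
  exact sum_congr rfl fun i _ => sum_congr rfl fun k _ => by ring

lemma bil_chebSum (a : ℕ → ℝ) (K : ℕ) (A : Matrix (Fin n) (Fin n) ℝ) (x : Cfg n) :
    bil (chebSum a K A) x x = ∑ j ∈ range K, a j * bil (cheb A (j + 1)) x x := by
  simp only [bil, chebSum, Matrix.sum_apply, Matrix.smul_apply, smul_eq_mul, mul_sum, sum_mul]
  conv_rhs => rw [sum_comm]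
  refine sum_congr rfl fun i _ => ?_
  rw [sum_comm]
  exact sum_congr rfl fun j _ => sum_congr rfl fun k _ => by ring

lemma hasDerivAt_exponent (β : ℝ) (a : ℕ → ℝ) (K : ℕ) (t : ℝ) (g : Edge n → ℝ) (e : Edge n) (x : Cfg n) :
    HasDerivAt (fun s => wgt β a K t 0 (Function.update g e s) x)
      (wgt β a K t 0 g x * dX β a K t g e x) (g e) := by
  have h1 := (hasDerivAt_energy g e x (g e)).const_mul β
  have h2 := (HasDerivAt.fun_sum (u := range K) fun j _ =>
    (hasDerivAt_bil_cheb g e (j + 1) x).const_mul (a j)).const_mul t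
  have h3 : HasDerivAt (fun s => β * energy (Function.update g e s) x +
      t * bil (chebSum a K (Wm (Function.update g e s))) x x + (0 : Cfg n → ℝ) x)
      (dX β a K t g e x) (g e) := by
    simp only [bil_chebSum]
    refine ((h1.add h2).add_const _).congr_deriv ?_
    simp only [dX, sum_div]
    congr 2
    exact sum_congr rfl fun j _ => by ring
  have := h3.exp
  simp only [Function.update_eq_self] at this
  exact this

/-- gradient of `lz` -/
def dlz (β : ℝ) (a : ℕ → ℝ) (K : ℕ) (t : ℝ) (g : Edge n → ℝ) (e : Edge n) : ℝ :=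
  (∑ x, wgt β a K t 0 g x * dX β a K t g e x) / ∑ x, wgt β a K t 0 g x

lemma hasDerivAt_lz (β : ℝ) (a : ℕ → ℝ) (K : ℕ) (t : ℝ) (g : Edge n → ℝ) (e : Edge n) :
    HasDerivAt (fun s => lz β a K t (Function.update g e s)) (dlz β a K t g e) (g e) := by
  have hc : (Fintype.card (Cfg n) : ℝ) ≠ 0 := Nat.cast_ne_zero.2 Fintype.card_ne_zero
  have hp : (0:ℝ) < ∑ x : Cfg n, wgt β a K t 0 g x := sum_pos (fun x _ => wgt_pos β a K t 0 g x) univ_nonempty
  have h : HasDerivAt (fun s => Vale.Agent.P168.MP.avg (wgt β a K t 0 (Function.update g e s)))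
      ((∑ x, wgt β a K t 0 g x * dX β a K t g e x) / (Fintype.card (Cfg n) : ℝ)) (g e) :=
    (HasDerivAt.fun_sum fun x _ => hasDerivAt_exponent β a K t g e x).div_const _
  refine (h.log ?_).congr_deriv ?_
  · exact (Vale.Agent.P168.MP.avg_pos fun x => wgt_pos β a K t 0 _ x).ne'
  · simp only [Function.update_eq_self, Vale.Agent.P168.MP.avg, dlz]
    field_simp

lemma differentiable_lz (β : ℝ) (a : ℕ → ℝ) (K : ℕ) (t : ℝ) : Differentiable ℝ (lz (n := n) β a K t) := by
  have hw : ∀ x : Cfg n, Differentiable ℝ fun g : Edge n → ℝ => wgt β a K t 0 g x := fun x => by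
    have hb : Differentiable ℝ fun g : Edge n → ℝ => bil (chebSum a K (Wm g)) x x := by
      simp only [bil, chebSum, Matrix.sum_apply, Matrix.smul_apply, smul_eq_mul]
      exact Differentiable.fun_sum fun i _ => Differentiable.fun_sum fun k _ =>
        ((Differentiable.fun_sum fun j _ => (differentiable_cheb (j + 1) i k).const_mul (a j)).const_mul _).mul_const _
    have he : Differentiable ℝ fun g : Edge n → ℝ => energy g x := by unfold energy; fun_prop
    exact (((he.const_mul β).fun_add (hb.const_mul t)).add_const _).exp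
  refine Differentiable.log ?_ fun g => (Vale.Agent.P168.MP.avg_pos fun x => wgt_pos β a K t 0 g x).ne'
  simp only [Vale.Agent.P168.MP.avg, div_eq_mul_inv]
  exact (Differentiable.fun_sum fun x _ => hw x).mul_const _

lemma eb_bil_dcheb (e : Edge n) (j : ℕ) (x : Cfg n) : EB fun g => bil (dcheb g e j) x x :=
  eb_bil (fun i k => eb_dcheb e j i k) x x

lemma sq_dlz_le (β : ℝ) (a : ℕ → ℝ) (K : ℕ) (t : ℝ) (g : Edge n → ℝ) (e : Edge n) :
    dlz β a K t g e ^ 2 ≤ (∑ x, wgt β a K t 0 g x * dX β a K t g e x ^ 2) / ∑ x, wgt β a K t 0 g x := by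
  set w := fun x => wgt β a K t 0 g x
  set D := fun x => dX β a K t g e x
  have hw : ∀ x, 0 ≤ w x := fun x => (wgt_pos β a K t 0 g x).le
  have hp : (0:ℝ) < ∑ x : Cfg n, w x := sum_pos (fun x _ => wgt_pos β a K t 0 g x) univ_nonempty
  have h := sum_mul_sq_le_sq_mul_sq univ (fun x => √(w x)) fun x => √(w x) * D x
  have e1 : ∑ x, √(w x) * (√(w x) * D x) = ∑ x, w x * D x :=
    sum_congr rfl fun x _ => by rw [← mul_assoc, mul_self_sqrt (hw x)]
  have e2 : ∑ x, √(w x) ^ 2 = ∑ x, w x := sum_congr rfl fun x _ => sq_sqrt (hw x)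
  have e3 : ∑ x, (√(w x) * D x) ^ 2 = ∑ x, w x * D x ^ 2 :=
    sum_congr rfl fun x _ => by rw [mul_pow, sq_sqrt (hw x)]
  rw [e1, e2, e3] at h
  show (_ / _) ^ 2 ≤ _
  rw [div_pow, div_le_div_iff₀ (by positivity) hp]
  nlinarith [mul_le_mul_of_nonneg_right h hp.le]

lemma eb_dlz (β : ℝ) (a : ℕ → ℝ) (K : ℕ) (t : ℝ) (e : Edge n) : EB fun g => dlz β a K t g e := by
  have hx : ∀ x : Cfg n, EB fun g => dX β a K t g e x := fun x => by
    simp only [dX, div_eq_mul_inv]
    exact ((EB.const β).mul (EB.const _)).add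
      ((EB.const t).mul ((EB.sum _ fun j _ => (EB.const _).mul (eb_bil_dcheb e (j + 1) x)).mul (EB.const _)))
  refine EB.of_le (EB.sum univ fun x _ => EB.abs' (hx x)) ?_ fun g => ?_
  · exact (continuous_finsetSum _ fun x _ => (continuous_wgt β a K t 0 x).mul (hx x).1).div
      (continuous_finsetSum _ fun x _ => continuous_wgt β a K t 0 x)
      fun g => (sum_pos (fun x _ => wgt_pos β a K t 0 g x) univ_nonempty).ne'
  · have hp : (0:ℝ) < ∑ x : Cfg n, wgt β a K t 0 g x := sum_pos (fun x _ => wgt_pos β a K t 0 g x) univ_nonempty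
    rw [dlz, abs_div, abs_of_pos hp, div_le_iff₀ hp, sum_mul]
    refine (abs_sum_le_sum_abs _ _).trans (sum_le_sum fun x _ => ?_)
    rw [abs_mul, abs_of_pos (wgt_pos β a K t 0 g x), mul_comm]
    exact mul_le_mul_of_nonneg_left (single_le_sum (f := fun y => wgt β a K t 0 g y)
      (fun y _ => (wgt_pos β a K t 0 g y).le) (mem_univ x)) (abs_nonneg _)

lemma nsq_spin (z : Cfg n) : P150.Fast.OpNorm.nsq (fun i => spin (z i)) = n := by
  have : ∀ c : Bool, spin c ^ 2 = 1 := fun c => by cases c <;> simp [spin]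
  simp [P150.Fast.OpNorm.nsq, this]

lemma bil_sandwich (P Q : Matrix (Fin n) (Fin n) ℝ) (u v : Fin n) (x : Cfg n) :
    bil (P * Matrix.single u v (1 : ℝ) * Q) x x =
      (Pᵀ *ᵥ fun i => spin (x i)) u * (Q *ᵥ fun i => spin (x i)) v := by
  have e : ∀ i k, (P * Matrix.single u v (1 : ℝ) * Q) i k = P i u * Q v k := fun i k => by
    simp [Matrix.mul_apply, Matrix.single_apply, ite_and, mul_ite, ite_mul]
  simp only [bil, e, Matrix.mulVec, dotProduct, Matrix.transpose_apply, sum_mul_sum]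
  exact sum_congr rfl fun i _ => sum_congr rfl fun k _ => by ring

lemma sum_bil_dcheb_sq_le (g : Edge n → ℝ) (j : ℕ) (x : Cfg n) :
    ∑ e, bil (dcheb g e j) x x ^ 2 ≤ 4 * (j : ℝ) ^ 2 * (n : ℝ) ^ 2 * (opn g + 2) ^ (2 * j) := by
  set L := opn g + 2
  have hL : 1 ≤ L := by have := opn_nonneg g; simp only [L]; linarith
  set s : Fin n → ℝ := fun i => spin (x i)
  set U : ℕ → Fin n → ℝ := fun m => (cheb (Wm g) m)ᵀ *ᵥ s
  set V : ℕ → Fin n → ℝ := fun m => cheb (Wm g) m *ᵥ s
  have hV : ∀ m, ∑ i, V m i ^ 2 ≤ L ^ (2 * m) * n := fun m => by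
    have h := (P150.Fast.OpNorm.opLe_iff_norm_le.2 (norm_cheb_Wm g m)).2 s
    rw [nsq_spin, ← pow_mul, mul_comm m 2] at h
    exact h
  have hU : ∀ m, ∑ i, U m i ^ 2 ≤ L ^ (2 * m) * n := fun m => by
    have hn : ‖(cheb (Wm g) m)ᵀ‖ ≤ (opn g + 2) ^ m := by
      rw [← Matrix.conjTranspose_eq_transpose_of_trivial, Matrix.l2_opNorm_conjTranspose]
      exact norm_cheb_Wm g m
    have h := (P150.Fast.OpNorm.opLe_iff_norm_le.2 hn).2 s
    rw [nsq_spin, ← pow_mul, mul_comm m 2] at h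
    exact h
  have e1 : ∀ e : Edge n, bil (dcheb g e j) x x =
      ∑ m ∈ range j, (U m e.1.1 * V (j - 1 - m) e.1.2 + U m e.1.2 * V (j - 1 - m) e.1.1) := fun e => by
    have hb : bil (dcheb g e j) x x = ∑ m ∈ range j,
        bil (cheb (Wm g) m * dir e * cheb (Wm g) (j - 1 - m)) x x := by
      simp only [bil, dcheb, Matrix.sum_apply, mul_sum, sum_mul]
      conv_rhs => rw [sum_comm]
      exact sum_congr rfl fun i _ => by rw [sum_comm]
    rw [hb]
    refine sum_congr rfl fun m _ => ?_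
    have h2 : ∀ A B : Matrix (Fin n) (Fin n) ℝ, bil (A + B) x x = bil A x x + bil B x x := fun A B => by
      simp only [bil, Matrix.add_apply, mul_add, add_mul, sum_add_distrib]
    rw [show cheb (Wm g) m * dir e * cheb (Wm g) (j - 1 - m) =
      cheb (Wm g) m * Matrix.single e.1.1 e.1.2 (1:ℝ) * cheb (Wm g) (j - 1 - m) +
        cheb (Wm g) m * Matrix.single e.1.2 e.1.1 (1:ℝ) * cheb (Wm g) (j - 1 - m) by
        simp only [dir, Matrix.mul_add, Matrix.add_mul], h2, bil_sandwich, bil_sandwich]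
  have e2 : ∀ e : Edge n, bil (dcheb g e j) x x ^ 2 ≤ (j : ℝ) * ∑ m ∈ range j,
      2 * ((U m e.1.1 * V (j - 1 - m) e.1.2) ^ 2 + (U m e.1.2 * V (j - 1 - m) e.1.1) ^ 2) := fun e => by
    rw [e1]
    refine sq_sum_le_card_mul_sum_sq.trans ?_
    rw [card_range]
    exact mul_le_mul_of_nonneg_left (sum_le_sum fun m _ => add_sq_le) (Nat.cast_nonneg j)
  refine (sum_le_sum fun e _ => e2 e).trans ?_
  rw [← mul_sum, sum_comm]
  have hs : ∀ F : Fin n × Fin n → ℝ, (∀ p, 0 ≤ F p) → ∑ e : Edge n, F e.1 ≤ ∑ p, F p := fun F hF => by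
    refine le_trans (le_of_eq (sum_subtype (univ.filter fun p : Fin n × Fin n => p.1 < p.2)
      (fun p => by simp) F).symm) ?_
    exact sum_le_univ_sum_of_nonneg hF
  have hm : ∀ m ∈ range j, ∑ e : Edge n,
      2 * ((U m e.1.1 * V (j - 1 - m) e.1.2) ^ 2 + (U m e.1.2 * V (j - 1 - m) e.1.1) ^ 2) ≤
        4 * (n : ℝ) ^ 2 * L ^ (2 * j) := fun m hm => by
    rw [mem_range] at hm
    refine (hs (fun p => 2 * ((U m p.1 * V (j - 1 - m) p.2) ^ 2 + (U m p.2 * V (j - 1 - m) p.1) ^ 2))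
      fun p => by positivity).trans ?_
    have h1 : ∑ p : Fin n × Fin n, (U m p.1 * V (j - 1 - m) p.2) ^ 2 =
        (∑ i, U m i ^ 2) * ∑ i, V (j - 1 - m) i ^ 2 := by
      rw [Fintype.sum_prod_type, sum_mul_sum]; simp only [mul_pow]
    have h2 : ∑ p : Fin n × Fin n, (U m p.2 * V (j - 1 - m) p.1) ^ 2 =
        (∑ i, U m i ^ 2) * ∑ i, V (j - 1 - m) i ^ 2 := by
      rw [Fintype.sum_prod_type, sum_comm, sum_mul_sum]; simp only [mul_pow]
    rw [← mul_sum, sum_add_distrib, h1, h2]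
    have h3 : (∑ i, U m i ^ 2) * ∑ i, V (j - 1 - m) i ^ 2 ≤ L ^ (2 * j) * n * n := by
      refine (mul_le_mul (hU m) (hV _) (sum_nonneg fun i _ => sq_nonneg _) (by positivity)).trans ?_
      rw [show L ^ (2 * m) * (n:ℝ) * (L ^ (2 * (j - 1 - m)) * n) =
        L ^ (2 * m) * L ^ (2 * (j - 1 - m)) * n * n by ring, ← pow_add]
      exact mul_le_mul_of_nonneg_right (mul_le_mul_of_nonneg_right (pow_le_pow_right₀ hL (by omega))
        (Nat.cast_nonneg n)) (Nat.cast_nonneg n)
    calc 2 * ((∑ i, U m i ^ 2) * ∑ i, V (j - 1 - m) i ^ 2 + (∑ i, U m i ^ 2) * ∑ i, V (j - 1 - m) i ^ 2)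
        = 4 * ((∑ i, U m i ^ 2) * ∑ i, V (j - 1 - m) i ^ 2) := by ring
      _ ≤ 4 * (L ^ (2 * j) * n * n) := by linarith
      _ = _ := by ring
  refine (mul_le_mul_of_nonneg_left (sum_le_sum hm) (Nat.cast_nonneg j)).trans (le_of_eq ?_)
  rw [sum_const, card_range, nsmul_eq_mul]; ring

/-- the drop has variance `O(n)` -/
theorem var_drop (β : ℝ) (a : ℕ → ℝ) (K : ℕ) (w : ℝ) : ∃ C : ℝ, 0 ≤ C ∧ ∀ n : ℕ, 1 ≤ n →
    ∫ g : Edge n → ℝ, ((lz β a K 0 g - lz β a K (-w) g) -
      ∫ z, (lz β a K 0 z - lz β a K (-w) z) ∂gauss (Edge n)) ^ 2 ∂gauss (Edge n) ≤ C * n := by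
  obtain ⟨C, hC, hM⟩ := opn_mom (2 * K)
  set A := ∑ j ∈ range K, a j ^ 2
  refine ⟨8 * β ^ 2 + 16 * w ^ 2 * A * ((K : ℝ) * (K : ℝ) ^ 2) * C, by positivity, fun n hn => ?_⟩
  obtain ⟨hi, hb⟩ := hM n hn
  have hn0 : (0:ℝ) < n := by exact_mod_cast hn
  refine (poincare_eb (f' := fun g e => dlz β a K 0 g e - dlz β a K (-w) g e)
    ((eb_lz β a K 0).sub (eb_lz β a K (-w))) (fun e => (eb_dlz β a K 0 e).sub (eb_dlz β a K (-w) e))
    ((differentiable_lz β a K 0).fun_sub (differentiable_lz β a K (-w)))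
    fun g e => (hasDerivAt_lz β a K 0 g e).fun_sub (hasDerivAt_lz β a K (-w) g e)).trans ?_
  have hcard : (Fintype.card (Edge n) : ℝ) ≤ n * n := by
    have h := Fintype.card_subtype_le fun p : Fin n × Fin n => p.1 < p.2
    simp only [Fintype.card_prod, Fintype.card_fin] at h
    exact_mod_cast h
  have hX : ∀ (t : ℝ) (g : Edge n → ℝ) (x : Cfg n), ∑ e, dX β a K t g e x ^ 2 ≤
      (2 * β ^ 2 + 8 * t ^ 2 * A * ((K : ℝ) * (K : ℝ) ^ 2) * (opn g + 2) ^ (2 * K)) * n := fun t g x => by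
    have hL : 1 ≤ opn g + 2 := by have := opn_nonneg g; linarith
    have h1 : ∀ e : Edge n, dX β a K t g e x ^ 2 ≤
        2 * β ^ 2 / n + 2 * t ^ 2 * A / n * ∑ j ∈ range K, bil (dcheb g e (j + 1)) x x ^ 2 := fun e => by
      refine add_sq_le.trans ?_
      rw [mul_add, mul_pow, div_pow, mul_pow, div_pow, sq_sqrt hn0.le,
        show bond x e ^ 2 = 1 by rw [← sq_abs, abs_bond, one_pow]]
      refine add_le_add (le_of_eq (by ring)) ?_
      have := sum_mul_sq_le_sq_mul_sq (range K) a fun j => bil (dcheb g e (j + 1)) x x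
      calc 2 * (t ^ 2 * ((∑ j ∈ range K, a j * bil (dcheb g e (j + 1)) x x) ^ 2 / n))
          ≤ 2 * (t ^ 2 * ((A * ∑ j ∈ range K, bil (dcheb g e (j + 1)) x x ^ 2) / n)) := by gcongr
        _ = _ := by ring
    refine (sum_le_sum fun e _ => h1 e).trans ?_
    rw [sum_add_distrib, sum_const, card_univ, nsmul_eq_mul, ← mul_sum, sum_comm]
    have h2 : ∀ j ∈ range K, ∑ e : Edge n, bil (dcheb g e (j + 1)) x x ^ 2 ≤
        4 * (K : ℝ) ^ 2 * (n : ℝ) ^ 2 * (opn g + 2) ^ (2 * K) := fun j hj => by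
      rw [mem_range] at hj
      refine (sum_bil_dcheb_sq_le g (j + 1) x).trans (mul_le_mul ?_
        (pow_le_pow_right₀ hL (by omega)) (by positivity) (by positivity))
      have : ((j + 1 : ℕ) : ℝ) ≤ K := by exact_mod_cast hj
      gcongr
    refine (add_le_add (mul_le_mul_of_nonneg_right hcard (by positivity))
      (mul_le_mul_of_nonneg_left (sum_le_sum h2) (by positivity))).trans (le_of_eq ?_)
    rw [sum_const, card_range, nsmul_eq_mul]
    field_simp
    ring
  have hg : ∀ (t : ℝ) (g : Edge n → ℝ), ∑ e, dlz β a K t g e ^ 2 ≤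
      (2 * β ^ 2 + 8 * t ^ 2 * A * ((K : ℝ) * (K : ℝ) ^ 2) * (opn g + 2) ^ (2 * K)) * n := fun t g => by
    refine (sum_le_sum fun e _ => sq_dlz_le β a K t g e).trans ?_
    rw [← sum_div, sum_comm, div_le_iff₀ (sum_pos (fun x _ => wgt_pos β a K t 0 g x) univ_nonempty), mul_sum]
    refine sum_le_sum fun x _ => ?_
    rw [← mul_sum, mul_comm _ (wgt β a K t 0 g x)]
    exact mul_le_mul_of_nonneg_left (hX t g x) (wgt_pos β a K t 0 g x).le
  refine (integral_mono (EB.sum univ fun e _ => by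
    simpa only [sq] using ((eb_dlz β a K 0 e).sub (eb_dlz β a K (-w) e)).mul
      ((eb_dlz β a K 0 e).sub (eb_dlz β a K (-w) e))).integrable
    (((integrable_const (8 * β ^ 2)).add (hi.const_mul (16 * w ^ 2 * A * ((K : ℝ) * (K : ℝ) ^ 2)))).mul_const (n:ℝ))
    fun g => ?_).trans ?_
  · have h0 := hg 0 g
    have h1 := hg (-w) g
    calc ∑ e, (dlz β a K 0 g e - dlz β a K (-w) g e) ^ 2
        ≤ ∑ e, (2 * dlz β a K 0 g e ^ 2 + 2 * dlz β a K (-w) g e ^ 2) :=
          sum_le_sum fun e _ => by nlinarith [sq_nonneg (dlz β a K 0 g e + dlz β a K (-w) g e)]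
      _ ≤ _ := by
          simp only [Pi.add_apply]
          rw [sum_add_distrib, ← mul_sum, ← mul_sum]
          refine (add_le_add (mul_le_mul_of_nonneg_left h0 two_pos.le)
            (mul_le_mul_of_nonneg_left h1 two_pos.le)).trans (le_of_eq (by ring))
  · simp only [Pi.add_apply]
    rw [integral_mul_const, integral_add (integrable_const _) (hi.const_mul _), integral_const,
      integral_const_mul, probReal_univ, one_smul]
    refine mul_le_mul_of_nonneg_right ?_ hn0.le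
    have := mul_le_mul_of_nonneg_left hb (show 0 ≤ 16 * w ^ 2 * A * ((K : ℝ) * (K : ℝ) ^ 2) by positivity)
    nlinarith [sq_nonneg β]

end Vale.Agent.P146.Lower
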