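import Vale.Agent.P146.Lower.Alg
import Vale.Agent.P146.Lower.Basic
import Vale.Agent.P157.Par.Close
import Vale.Agent.P157.Par.Taylor

/-! P146 lower bound: functionals of the mean overlaps of the perturbed system. -/

open MeasureTheory Finset Real
open Vale.Agent.P150 (gauss)
open Vale.Agent.P168.MP (lin ET pw spinAt allBatch Mark att sp)
open Vale.Agent.P157.Par (qlev Prof)

noncomputable section

namespace Vale.Agent.P146.Lower

variable {n : ℕ}

lemma qlev_wp_prof (P : Par) [NeZero n] {W : Cfg n → ℝ} (hW : ∀ x, 0 < W x) (u : P.Grid) :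
    Prof P.R (qlev P.R (P.wp W u) (spinAt P.R)) 1 ∧ qlev P.R (P.wp W u) (spinAt P.R) P.R = 1 :=
  Vale.Agent.P157.Par.qlev_prof (wp_pos P hW u)

lemma continuous_qlev_wp (P : Par) [NeZero n] (β : ℝ) (a : ℕ → ℝ) (K : ℕ) (lam : ℝ) (v : Cfg n → ℝ)
    (u : P.Grid) (l : ℕ) :
    Continuous fun g : Edge n → ℝ => qlev P.R (P.wp (wgt β a K lam v g) u) (spinAt P.R) l :=
  Vale.Agent.P157.Par.continuous_ET (continuous_wp P β a K lam v u)
    (fun g p => wp_pos P (fun x => wgt_pos β a K lam v g x) u p) P.R _ fun _ => continuous_const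

lemma continuous_conv {X : Type*} [TopologicalSpace X] (R : ℕ) {q v : X → ℕ → ℝ}
    (hq : ∀ l, Continuous fun x => q x l) (hv : ∀ l, Continuous fun x => v x l) (l : ℕ) :
    Continuous fun x => conv R (q x) (v x) l := by
  unfold conv
  exact continuous_list_sum _ fun c _ => continuous_const.mul ((hq _).mul (hv _))

lemma continuous_lev {X : Type*} [TopologicalSpace X] (β : ℝ) (R : ℕ) {q : X → ℕ → ℝ}
    (hq : ∀ l, Continuous fun x => q x l) : ∀ j l, Continuous fun x => lev β R (q x) j l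
  | 0, l => hq l
  | j + 1, l => continuous_const.mul (continuous_conv R hq (continuous_lev β R hq j) l)

lemma continuous_top {X : Type*} [TopologicalSpace X] (R : ℕ) {q : X → ℕ → ℝ}
    (hq : ∀ l, Continuous fun x => q x l) : Continuous fun x => top R (q x) :=
  (continuous_finsetSum _ fun l _ => continuous_const.sub (hq l)).div_const _

lemma top_mem {R : ℕ} {q : ℕ → ℝ} (hR : 1 ≤ R) (hq : Prof R q 1) : 0 ≤ top R q ∧ top R q ≤ 1 := by
  have hm := fun l (hl : l ∈ range R) => hq.upper (mem_range.1 hl).le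
  refine ⟨div_nonneg (sum_nonneg fun l hl => by linarith [hm l hl]) (Nat.cast_nonneg _), ?_⟩
  rw [top, div_le_one (by exact_mod_cast hR)]
  refine (sum_le_sum fun l hl => (show 1 - q l ≤ 1 by linarith [hm l hl])).trans ?_
  simp

/-- the Parisi functional is continuous and bounded on continuous families of trials -/
lemma vsk_cont (β : ℝ) {R : ℕ} (hR : 1 ≤ R) {X : Type*} [TopologicalSpace X] {q : X → ℕ → ℝ}
    (hq : ∀ x, Prof R (q x) 1) (hc : ∀ l, Continuous fun x => q x l) :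
    (Continuous fun x => Vsk β R (q x)) ∧ ∃ C, ∀ x, |Vsk β R (q x)| ≤ C := by
  obtain ⟨K, hK, hlip⟩ := Vale.Agent.P157.Par.Phi_lip Vale.Agent.P157.Par.sm_logcosh (β ^ 2)
  obtain ⟨h1, h2⟩ := Vale.Agent.P157.Par.cont_functional hR
    (F := fun r => Vale.Agent.P157.Par.Phi cosh R (lin R) fun l => β ^ 2 * r l) (K := K * β ^ 2)
    (by positivity) (fun r r' hr hr' => by
      have h := (hlip R (fun l => β ^ 2 * r l) (fun l => β ^ 2 * r' l) hR
        (by simpa using hr.scale (sq_nonneg β)) (by simpa using hr'.scale (sq_nonneg β))).1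
      rw [Vale.Agent.P157.Par.cosh_eq_exp] at h
      refine h.trans (le_of_eq ?_)
      simp only [Vale.Agent.P157.Par.dist1, ← mul_sub, abs_mul, abs_of_nonneg (sq_nonneg β), ← mul_sum]
      ring) hq hc
  refine ⟨h1.sub (continuous_const.mul (continuous_finsetSum _ fun l _ => continuous_const.mul ((hc l).pow 2))),
    |Vale.Agent.P157.Par.Phi cosh R (lin R) fun _ => β ^ 2 * 1| + 2 * (K * β ^ 2) +
      β ^ 2 / 4 * ∑ l ∈ range (R + 1), |Vale.Agent.P157.Par.coef R l|, fun x => ?_⟩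
  refine (abs_sub _ _).trans (add_le_add (h2 x) ?_)
  rw [abs_mul, abs_of_nonneg (show (0:ℝ) ≤ β ^ 2 / 4 by positivity)]
  refine mul_le_mul_of_nonneg_left ((abs_sum_le_sum_abs _ _).trans (sum_le_sum fun l hl => ?_)) (by positivity)
  have hm := (hq x).upper (Nat.lt_succ_iff.1 (mem_range.1 hl))
  rw [abs_mul, abs_of_nonneg (sq_nonneg (q x l))]
  exact mul_le_of_le_one_right (abs_nonneg _) (pow_le_one₀ hm.1 hm.2)

lemma eb_vsk (P : Par) [NeZero n] (β : ℝ) (a : ℕ → ℝ) (K : ℕ) (lam : ℝ) (v : Cfg n → ℝ) (u : P.Grid) :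
    EB fun g : Edge n → ℝ => Vsk β P.R (qlev P.R (P.wp (wgt β a K lam v g) u) (spinAt P.R)) := by
  obtain ⟨hc, C, hC⟩ := vsk_cont β P.one_le (X := Edge n → ℝ)
    (fun g => (qlev_wp_prof P (fun x => wgt_pos β a K lam v g x) u).1)
    fun l => continuous_qlev_wp P β a K lam v u l
  exact EB.of_le (EB.const C) hc hC

lemma eb_lev (P : Par) [NeZero n] (β : ℝ) (a : ℕ → ℝ) (K : ℕ) (lam : ℝ) (v : Cfg n → ℝ) (u : P.Grid) (j : ℕ) :
    EB fun g : Edge n → ℝ => lev β P.R (qlev P.R (P.wp (wgt β a K lam v g) u) (spinAt P.R)) j P.R := by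
  obtain ⟨C, hC⟩ := abs_lev_le β j
  exact EB.of_le (EB.const C) (continuous_lev β P.R (fun l => continuous_qlev_wp P β a K lam v u l) j P.R)
    fun g => hC _ _ P.one_le (qlev_wp_prof P (fun x => wgt_pos β a K lam v g x) u).1 _ le_rfl

end Vale.Agent.P146.Lower
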