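import Vale.Agent.P146.Lower.RecDer

/-! P146 lower bound: in the perturbed system the level values of `σ' U_j τ / n` follow the iterated
convolution of the mean overlaps (one Gaussian integration by parts per step; the trace terms of `U_j`
cancel the second-order part of the Chebyshev recursion). -/

open MeasureTheory Finset Real Matrix
open Vale.Agent.P150 (gauss)
open Vale.Agent.P168.MP (lin ET spinAt att sp Valid Supp allBatch Mark)
open Vale.Agent.P157.Par (qlev ovK ov devOf adev lvlAvg)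

noncomputable section

namespace Vale.Agent.P146.Lower

namespace Rec

set_option linter.unusedSectionVars false

variable {n : ℕ} [NeZero n]

lemma npos : (0:ℝ) < n := by exact_mod_cast NeZero.pos n

lemma ov_eq_dot (x z : Cfg n) : ov x z = (sv x ⬝ᵥ sv z) / n := by
  rw [ov, Vale.Agent.P168.MP.avg, Fintype.card_fin]
  rfl

lemma div_sqrt (a b : ℝ) : a / √(n : ℝ) / ((n:ℝ) * b) = a / b / ((n:ℝ) * √(n : ℝ)) := by
  simp only [div_div]; congr 1; ring

lemma sqrt_div_div (a : ℝ) : a / √(n : ℝ) / ((n:ℝ) * √(n : ℝ)) = a / n ^ 2 := by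
  rw [div_div, mul_left_comm, Real.mul_self_sqrt (Nat.cast_nonneg _), ← sq]

variable (D : Dat n)

/-- the integrand of the integration by parts -/
def fj (g : Edge n → ℝ) (e : Edge n) (j : ℕ) (x y : Cfg n) : ℝ :=
  Fe e (sv x) (cheb (Wm g) j *ᵥ sv y) / ((n:ℝ) * √(n : ℝ))

/-- its derivative -/
def dfj (g : Edge n → ℝ) (e : Edge n) (j : ℕ) (x y : Cfg n) : ℝ :=
  Fe e (sv x) (dvec g e j (sv y)) / ((n:ℝ) * √(n : ℝ))

/-- weight of the test field in the error -/
def tot (a : ℕ → ℝ) (K : ℕ) : ℝ := 4 * ∑ i ∈ range K, |a i| * (i + 1)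

/-- the centred trace -/
def tau (g : Edge n → ℝ) (m : ℕ) : ℝ := (cheb (Wm g) m).trace / n - if m = 0 then 1 else 0

/-- the error of the derivative of the coupling matrix -/
def Err (g : Edge n → ℝ) (j : ℕ) : ℝ :=
  ∑ m ∈ range j, (|tau g m| * Y g ^ (j - 1 - m) + 3 * (Y g ^ j / n))

lemma tot_nonneg (a : ℕ → ℝ) (K : ℕ) : 0 ≤ tot a K := by unfold tot; positivity

lemma abs_dbil_sum_le (g : Edge n → ℝ) (i j : ℕ) (x y z : Cfg n) :
    |∑ e : Edge n, fj g e j x y * dbil g e (i + 1) z z| ≤ 4 * (i + 1) * Y g ^ (j + i) := by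
  have hn : (0:ℝ) < n := npos
  have e1 : ∑ e : Edge n, fj g e j x y * dbil g e (i + 1) z z = (∑ m ∈ range (i + 1), ∑ e : Edge n,
      Fe e (sv x) (cheb (Wm g) j *ᵥ sv y) *
        Fe e (sv z ᵥ* cheb (Wm g) m) (cheb (Wm g) (i - m) *ᵥ sv z)) / (n:ℝ) ^ 2 := by
    simp only [fj, dbil, mul_sum, sum_div, Nat.add_sub_cancel]
    rw [sum_comm]
    refine sum_congr rfl fun m _ => sum_congr rfl fun e _ => ?_
    rw [← sqrt_div_div]
    ring
  rw [e1, abs_div, abs_of_pos (pow_pos hn 2), div_le_iff₀ (pow_pos hn 2)]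
  refine (abs_sum_le_sum_abs _ _).trans ((sum_le_sum (g := fun _ => 4 * ((n:ℝ) ^ 2 * Y g ^ (j + i)))
    fun m hm => (abs_sum_Fe_Fe_le _ _ _ _).trans (mul_le_mul_of_nonneg_left ?_ (by norm_num))).trans_eq ?_)
  · have hY := (Y_pos g).le
    refine (mul_le_mul (mul_le_mul_of_nonneg_left (nr_cheb g j _) (nr_nonneg _))
      (mul_le_mul (nr_vecMul_cheb g m _) (nr_cheb g (i - m) _) (nr_nonneg _)
        (mul_nonneg (pow_nonneg hY _) (nr_nonneg _)))
      (mul_nonneg (nr_nonneg _) (nr_nonneg _))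
      (mul_nonneg (nr_nonneg _) (mul_nonneg (pow_nonneg hY _) (nr_nonneg _)))).trans_eq ?_
    simp only [nr_sv]
    rw [show j + i = j + (m + (i - m)) by have := mem_range.1 hm; omega, pow_add, pow_add]
    linear_combination (Y g ^ j * (Y g ^ m * Y g ^ (i - m)) * (√(n:ℝ) * √(n:ℝ) + n)) *
      Real.mul_self_sqrt (Nat.cast_nonneg n)
  · simp only [sum_const, card_range, nsmul_eq_mul, Nat.cast_succ]; ring

lemma abs_sum_bond_le (g : Edge n → ℝ) (j : ℕ) (x y z : Cfg n) :
    |∑ e : Edge n, fj g e j x y * (bond z e / √(n : ℝ)) -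
      ov x z * (bil (cheb (Wm g) j) z y / n)| ≤ Y g ^ j / n := by
  have hn : (0:ℝ) < n := npos
  have hb : ∀ e : Edge n, bond z e = Fe e (sv z) (sv z) / 2 := fun e => by simp only [bond, Fe, sv]; ring
  have hs : ∀ a, sv z a * sv z a = 1 := fun a => by cases h : z a <;> simp [sv, spin, h]
  set r := cheb (Wm g) j *ᵥ sv y
  have e1 : ∑ e : Edge n, fj g e j x y * (bond z e / √(n : ℝ)) =
      ((sv x ⬝ᵥ sv z) * (r ⬝ᵥ sv z) - sv x ⬝ᵥ r) / (n:ℝ) ^ 2 := by
    have h := sum_Fe_Fe (sv x) r (sv z) (sv z)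
    simp only [hs, mul_one] at h
    rw [show (sv x ⬝ᵥ sv z) * (r ⬝ᵥ sv z) - sv x ⬝ᵥ r = (∑ e, Fe e (sv x) r * Fe e (sv z) (sv z)) / 2 from by
      rw [h, show ∑ a, sv x a * r a = sv x ⬝ᵥ r from rfl]; ring, sum_div, sum_div]
    refine sum_congr rfl fun e _ => ?_
    rw [← sqrt_div_div, hb, fj]
    ring
  rw [e1, ov_eq_dot, bil_eq, dotProduct_comm r, sub_div, div_mul_div_comm, ← sq, sub_sub_cancel_left,
    abs_neg, abs_div, abs_of_pos (pow_pos hn 2), div_le_div_iff₀ (pow_pos hn 2) hn]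
  have h := abs_bil_cheb g j x y
  rw [bil_eq] at h
  nlinarith [mul_le_mul_of_nonneg_right h hn.le]

lemma abs_ov_bil_le (g : Edge n → ℝ) (j : ℕ) (x z y : Cfg n) :
    |bil (cheb (Wm g) j) z y / n| ≤ Y g ^ j ∧ |ov x z * (bil (cheb (Wm g) j) z y / n)| ≤ Y g ^ j := by
  have h : |bil (cheb (Wm g) j) z y / n| ≤ Y g ^ j := by
    rw [abs_div, Nat.abs_cast, div_le_iff₀ npos, mul_comm (Y g ^ j)]; exact abs_bil_cheb g j z y
  exact ⟨h, by
    rw [abs_mul]
    exact (mul_le_of_le_one_left (abs_nonneg _) (Vale.Agent.P157.Par.abs_ov_le _ _)).trans h⟩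

/-- the integrand against the derivative of the weight -/
lemma fj_xi_close (g : Edge n → ℝ) (j : ℕ) (x y z : Cfg n) :
    |∑ e : Edge n, fj g e j x y * D.xi g e z - D.β * (ov x z * (bil (cheb (Wm g) j) z y / n))| ≤
      (|D.β| / n + |D.lam| * tot D.a D.K) * Y g ^ (j + D.K) := by
  have e : ∑ e : Edge n, fj g e j x y * D.xi g e z =
      D.β * ∑ e : Edge n, fj g e j x y * (bond z e / √(n : ℝ)) +
        D.lam * ∑ i ∈ range D.K, D.a i * ∑ e : Edge n, fj g e j x y * dbil g e (i + 1) z z := by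
    simp only [Dat.xi, mul_add, sum_add_distrib, mul_sum]
    congr 1
    · exact sum_congr rfl fun e _ => by ring
    · rw [sum_comm]
      exact sum_congr rfl fun i _ => sum_congr rfl fun e _ => by ring
  rw [e, add_sub_right_comm, ← mul_sub, add_mul]
  refine (abs_add_le _ _).trans (add_le_add ?_ ?_)
  · rw [abs_mul, div_mul_eq_mul_div, ← mul_div_assoc']
    exact mul_le_mul_of_nonneg_left ((abs_sum_bond_le g j x y z).trans (div_le_div_of_nonneg_right
      (Y_pow_le g (Nat.le_add_right _ _)) (Nat.cast_nonneg _))) (abs_nonneg _)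
  · rw [abs_mul, mul_assoc |D.lam|]
    refine mul_le_mul_of_nonneg_left ((abs_sum_le_sum_abs _ _).trans
      ((sum_le_sum (g := fun i : ℕ => |D.a i| * (4 * ((i:ℝ) + 1) * Y g ^ (j + D.K))) fun i hi => ?_).trans_eq ?_))
      (abs_nonneg _)
    · rw [abs_mul]
      refine mul_le_mul_of_nonneg_left ((abs_dbil_sum_le g i j x y z).trans (mul_le_mul_of_nonneg_left
        (Y_pow_le g (by have := mem_range.1 hi; omega)) (by positivity))) (abs_nonneg _)
    · simp only [tot, mul_sum, sum_mul]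
      exact sum_congr rfl fun i _ => by ring

lemma fj_xi_le (hl : |D.lam| ≤ 1) (g : Edge n → ℝ) (j : ℕ) (x y z : Cfg n) :
    |∑ e : Edge n, fj g e j x y * D.xi g e z| ≤ (2 * |D.β| + tot D.a D.K) * Y g ^ (j + D.K) := by
  have h1 := fj_xi_close D g j x y z
  have h2 : |D.β * (ov x z * (bil (cheb (Wm g) j) z y / n))| ≤ |D.β| * Y g ^ (j + D.K) := by
    rw [abs_mul]
    exact mul_le_mul_of_nonneg_left ((abs_ov_bil_le g j x z y).2.trans (Y_pow_le g (Nat.le_add_right _ _)))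
      (abs_nonneg _)
  have hp : 0 ≤ Y g ^ (j + D.K) := pow_nonneg (Y_pos g).le _
  have h3 : |D.β| / n ≤ |D.β| := div_le_self (abs_nonneg _) (Nat.one_le_cast.2 (NeZero.one_le))
  have h4 := mul_le_mul_of_nonneg_right (add_le_add h3 (mul_le_mul_of_nonneg_right hl (tot_nonneg D.a D.K))) hp
  rw [one_mul] at h4
  linarith [abs_sub_abs_le_abs_sub (∑ e : Edge n, fj g e j x y * D.xi g e z)
    (D.β * (ov x z * (bil (cheb (Wm g) j) z y / n)))]

/-- the derivative of the coupling matrix: the previous Chebyshev term, up to traces -/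
lemma dfj_close (g : Edge n → ℝ) (j : ℕ) (x y : Cfg n) :
    |∑ e : Edge n, dfj g e j x y - (if j = 0 then 0 else bil (cheb (Wm g) (j - 1)) x y / n)| ≤ Err g j := by
  have hn : (0:ℝ) < n := npos
  set r := fun m => cheb (Wm g) (j - 1 - m) *ᵥ sv y
  have e1 : ∑ e : Edge n, dfj g e j x y = ∑ m ∈ range j, (r m ⬝ᵥ (cheb (Wm g) m *ᵥ sv x) +
      (cheb (Wm g) m).trace * (sv x ⬝ᵥ r m) - 2 * ∑ a, sv x a * cheb (Wm g) m a a * r m a) / (n:ℝ) ^ 2 := by
    simp only [← sum_edge_trace, sum_div]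
    rw [sum_comm]
    refine sum_congr rfl fun e _ => ?_
    rw [dfj, Fe]
    simp only [dvec, mul_sum, ← sum_add_distrib, sum_div]
    refine sum_congr rfl fun m _ => ?_
    rw [← sqrt_div_div]
    ring
  have e2 : (if j = 0 then 0 else bil (cheb (Wm g) (j - 1)) x y / n) =
      ∑ m ∈ range j, (if m = 0 then (1:ℝ) else 0) * ((sv x ⬝ᵥ r m) / n) := by
    rcases j with _ | k
    · simp
    · simp [bil_eq, r]
  rw [e1, e2, ← sum_sub_distrib, Err]
  refine (abs_sum_le_sum_abs _ _).trans (sum_le_sum fun m hm => ?_)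
  have hm' := mem_range.1 hm
  have hr : nr (r m) ≤ Y g ^ (j - 1 - m) * √(n : ℝ) := (nr_cheb g _ _).trans_eq (by rw [nr_sv])
  have hx : nr (cheb (Wm g) m *ᵥ sv x) ≤ Y g ^ m * √(n : ℝ) := (nr_cheb g _ _).trans_eq (by rw [nr_sv])
  have hk0 : 0 ≤ Y g ^ (j - 1 - m) := pow_nonneg (Y_pos g).le _
  have hm0 : 0 ≤ Y g ^ m := pow_nonneg (Y_pos g).le _
  have hpow : Y g ^ (j - 1 - m) * Y g ^ m ≤ Y g ^ j := by rw [← pow_add]; exact Y_pow_le g (by omega)
  have b1 : |r m ⬝ᵥ (cheb (Wm g) m *ᵥ sv x)| ≤ n * Y g ^ j := by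
    refine (abs_dot_le _ _).trans ((mul_le_mul hr hx (nr_nonneg _) (mul_nonneg hk0 (Real.sqrt_nonneg _))).trans ?_)
    rw [mul_mul_mul_comm, Real.mul_self_sqrt hn.le, mul_comm]
    exact mul_le_mul_of_nonneg_left hpow hn.le
  have b2 : |sv x ⬝ᵥ r m| ≤ n * Y g ^ (j - 1 - m) := by
    refine (abs_dot_le _ _).trans ((mul_le_mul_of_nonneg_left hr (nr_nonneg _)).trans_eq ?_)
    rw [nr_sv, mul_left_comm, Real.mul_self_sqrt hn.le, mul_comm]
  have b3 : |∑ a, sv x a * cheb (Wm g) m a a * r m a| ≤ n * Y g ^ j := by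
    have hv : nr (fun a => sv x a * cheb (Wm g) m a a) ≤ √(n : ℝ) * Y g ^ m := by
      rw [← Real.sqrt_sq (nr_nonneg _), nr_sq, ← Real.sqrt_sq (mul_nonneg (Real.sqrt_nonneg _) hm0)]
      refine Real.sqrt_le_sqrt ?_
      rw [mul_pow, Real.sq_sqrt hn.le, dotProduct]
      refine (sum_le_sum (g := fun _ => (Y g ^ m) ^ 2) fun a _ => ?_).trans_eq (by simp)
      rw [← abs_mul_abs_self, abs_mul, show |sv x a| = 1 from Vale.Agent.P146.abs_spin _, one_mul, ← sq]
      exact pow_le_pow_left₀ (abs_nonneg _) (abs_diag_cheb g m a) 2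
    refine (abs_dot_le (fun a => sv x a * cheb (Wm g) m a a) (r m)).trans
      ((mul_le_mul hv hr (nr_nonneg _) (mul_nonneg (Real.sqrt_nonneg _) hm0)).trans ?_)
    rw [show √(n:ℝ) * Y g ^ m * (Y g ^ (j - 1 - m) * √(n:ℝ)) =
      √(n:ℝ) * √(n:ℝ) * (Y g ^ (j - 1 - m) * Y g ^ m) by ring, Real.mul_self_sqrt hn.le]
    exact mul_le_mul_of_nonneg_left hpow hn.le
  have e3 : (r m ⬝ᵥ (cheb (Wm g) m *ᵥ sv x) + (cheb (Wm g) m).trace * (sv x ⬝ᵥ r m) -
        2 * ∑ a, sv x a * cheb (Wm g) m a a * r m a) / (n:ℝ) ^ 2 -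
      (if m = 0 then (1:ℝ) else 0) * ((sv x ⬝ᵥ r m) / n) =
      tau g m * ((sv x ⬝ᵥ r m) / n) +
        (r m ⬝ᵥ (cheb (Wm g) m *ᵥ sv x) - 2 * ∑ a, sv x a * cheb (Wm g) m a a * r m a) / (n:ℝ) ^ 2 := by
    simp only [tau]
    field_simp
    ring
  rw [e3]
  refine (abs_add_le _ _).trans (add_le_add ?_ ?_)
  · rw [abs_mul]
    refine mul_le_mul_of_nonneg_left ?_ (abs_nonneg _)
    rw [abs_div, Nat.abs_cast, div_le_iff₀ hn, mul_comm (Y g ^ _)]
    exact b2
  · rw [abs_div, abs_of_pos (pow_pos hn 2), div_le_iff₀ (pow_pos hn 2)]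
    refine (abs_sub _ _).trans ?_
    rw [abs_mul, show |(2:ℝ)| = 2 by norm_num]
    field_simp
    nlinarith

/-! ### pointwise bounds -/

lemma Dat.E2_abs_le (g : Edge n → ℝ) (l : ℕ) {h : Cfg n → Cfg n → ℝ} {M : ℝ} (hh : ∀ x y, |h x y| ≤ M) :
    |D.E2 g l h| ≤ M :=
  Vale.Agent.P168.MP.ET_bound (D.w_pos g) fun _ => hh _ _

/-- the derivative of the product of overlaps against the integrand -/
lemma dprod_sum_le (g : Edge n → ℝ) (j l : ℕ) {M : ℝ}
    (hM : ∀ x y z, |∑ e : Edge n, fj g e j x y * D.xi g e z| ≤ M) :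
    ∀ {ss : List ℕ}, (∀ s ∈ ss, s ≤ D.R) →
      |∑ e : Edge n, D.dprod g e ss * D.E2 g l (fj g e j)| ≤ 6 * (M * (ss.map (D.dev g)).sum)
  | [], _ => by simp [Dat.dprod]
  | s :: ss, h => by
    have ih := dprod_sum_le g j l hM (ss := ss) fun t ht => h t (List.mem_cons_of_mem _ ht)
    have hM0 : 0 ≤ M := (abs_nonneg _).trans (hM default default default)
    set c := fun x y => ov x y - D.q g s
    have e : ∑ e : Edge n, D.dprod g e (s :: ss) * D.E2 g l (fj g e j) =
        D.prod g ss * D.D3 g s (fun x y z => c x y * D.E2 g l fun x' y' => ∑ e, fj g e j x' y' * D.xi g e z) +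
          D.q g s * ∑ e : Edge n, D.dprod g e ss * D.E2 g l (fj g e j) := by
      simp only [D.E2_sum, mul_sum, D.D3_sum, Dat.dprod, add_mul, sum_add_distrib, c]
      congr 1 <;> refine sum_congr rfl fun e _ => ?_
      · rw [mul_right_comm, mul_comm (D.D3 _ _ _) (D.E2 _ _ _), ← D.D3_const_mul, mul_comm]
        refine congrArg (D.prod g ss * ·) (congrArg (D.D3 g s) (funext fun x => funext fun y => funext fun z => ?_))
        rw [show (fun x' y' => fj g e j x' y' * D.xi g e z) = fun x' y' => D.xi g e z * fj g e j x' y' from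
          funext fun _ => funext fun _ => mul_comm _ _, D.E2_const_mul]
        ring
      · ring
    rw [e, List.map_cons, List.sum_cons, mul_add, mul_add]
    refine (abs_add_le _ _).trans (add_le_add ?_ ?_)
    · rw [abs_mul]
      refine (mul_le_of_le_one_left (abs_nonneg _) (D.prod_abs_le g ss)).trans
        (D.abs_D3_le g (h s List.mem_cons_self) (k := fun x y => |ov x y - D.q g s|) fun x y z => ?_)
      rw [abs_mul, mul_comm M]
      exact mul_le_mul_of_nonneg_left (Dat.E2_abs_le D g l fun _ _ => hM _ _ z) (abs_nonneg _)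
    · rw [abs_mul]
      exact (mul_le_of_le_one_left (abs_nonneg _) (D.q_abs_le g s)).trans ih

/-- the attachments of a pair -/
def Dat.atts (l : ℕ) : List ((ℕ × ℕ) × ℝ) := att D.R (lin D.R) [(0, l), (0, 0)]

/-- level of the pair `(i,j)` after an attachment -/
def Dat.lv (l : ℕ) (c : (ℕ × ℕ) × ℝ) (i j : ℕ) : ℕ := sp D.R (c.1 :: [(0, l), (0, 0)]) i j

lemma list_sum_sub {α : Type} (L : List α) (f g : α → ℝ) :
    (L.map fun a => f a - g a).sum = (L.map f).sum - (L.map g).sum := by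
  induction L with
  | nil => simp
  | cons a L ih => simp only [List.map_cons, List.sum_cons, ih]; ring

/-- the derivative of the expectation: the convolution and the previous term -/
lemma dA_close (g : Edge n → ℝ) (j : ℕ) {l : ℕ} (hl : l ≤ D.R) :
    |∑ e : Edge n, (D.D3 g l (fun x y z => fj g e j x y * D.xi g e z) + D.E2 g l (dfj g e j)) -
        (if j = 0 then 0 else D.t g (j - 1) l) - D.β * conv D.R (D.q g) (D.t g j) l| ≤
      6 * ((|D.β| / n + |D.lam| * tot D.a D.K) * Y g ^ (j + D.K)) +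
        |D.β| * ((D.atts l).map fun c => |c.2| * (Y g ^ j * D.dev g (D.lv l c 0 2))).sum + Err g j := by
  set M := (|D.β| / n + |D.lam| * tot D.a D.K) * Y g ^ (j + D.K)
  set B := fun x y => bil (cheb (Wm g) j) x y / n
  have h1 : |D.D3 g l (fun x y z => ∑ e : Edge n, fj g e j x y * D.xi g e z) -
      D.D3 g l (fun x y z => D.β * (ov x z * B z y))| ≤ 6 * M := by
    rw [← D.D3_sub]
    refine (D.abs_D3_le g hl (k := fun _ _ => 1) (M := M) fun x y z => ?_).trans_eq (by rw [D.E2_one, mul_one])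
    rw [mul_one]
    exact fj_xi_close D g j x y z
  have h2 : |D.D3 g l (fun x y z => D.β * (ov x z * B z y)) - D.β * conv D.R (D.q g) (D.t g j) l| ≤
      |D.β| * ((D.atts l).map fun c => |c.2| * (Y g ^ j * D.dev g (D.lv l c 0 2))).sum := by
    rw [D.D3_const_mul, ← mul_sub, abs_mul]
    refine mul_le_mul_of_nonneg_left ?_ (abs_nonneg _)
    unfold Dat.D3 conv Dat.atts Dat.lv
    rw [← list_sum_sub]
    refine (Vale.Agent.P157.Par.abs_list_sum _ _).trans (Vale.Agent.P157.Par.list_sum_le fun c hc => ?_)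
    rw [← mul_sub, abs_mul]
    refine mul_le_mul_of_nonneg_left ?_ (abs_nonneg _)
    set s := sp D.R (c.1 :: [(0, l), (0, 0)]) 0 2
    rw [show D.t g j (sp D.R (c.1 :: [(0, l), (0, 0)]) 2 1) = _ from
      (D.E_pair g hl hc (i := 2) (j := 1) (by norm_num) (by norm_num) B).symm,
      ← Vale.Agent.P168.MP.ET_const_mul, ← Vale.Agent.P168.MP.ET_sub, Dat.dev, ← D.E2_const_mul,
      ← D.E_pair g hl hc (i := 0) (j := 2) (by norm_num) (by norm_num)]
    refine (Vale.Agent.P168.MP.ET_abs_le (D.w_pos g) _ _).trans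
      (Vale.Agent.P168.MP.ET_mono (D.w_pos g) fun ps => ?_)
    rw [← sub_mul, abs_mul, mul_comm (Y g ^ j)]
    exact mul_le_mul_of_nonneg_left (abs_ov_bil_le g j default _ _).1 (abs_nonneg _)
  have h3 : |D.E2 g l (fun x y => ∑ e : Edge n, dfj g e j x y) -
      (if j = 0 then 0 else D.t g (j - 1) l)| ≤ Err g j := by
    have e : (if j = 0 then 0 else D.t g (j - 1) l) =
        D.E2 g l fun x y => if j = 0 then 0 else bil (cheb (Wm g) (j - 1)) x y / n := by
      split_ifs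
      · rw [D.E2_one]
      · rfl
    rw [e, Dat.E2, Dat.E2, ← Vale.Agent.P168.MP.ET_sub]
    exact Vale.Agent.P168.MP.ET_bound (D.w_pos g) fun ps => dfj_close g j _ _
  rw [sum_add_distrib, ← D.D3_sum, ← D.E2_sum]
  rw [abs_le] at h1 h2 h3 ⊢
  constructor <;> linarith [h1.1, h1.2, h2.1, h2.2, h3.1, h3.2]

/-! ### integrals -/

/-- root of the mean deviation -/
def Dat.d (s : ℕ) : ℝ := √(∫ g, D.dev g s ∂gauss (Edge n))

/-- average of the roots over the levels -/
def Dat.dd : ℝ := lvlAvg D.R D.d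

lemma dev_nonneg (g : Edge n → ℝ) (s : ℕ) : 0 ≤ D.dev g s :=
  Vale.Agent.P168.MP.ET_nonneg (D.w_pos g) fun _ => abs_nonneg _

lemma dev_le_two (g : Edge n → ℝ) (s : ℕ) : D.dev g s ≤ 2 :=
  (le_abs_self _).trans (Dat.E2_abs_le D g s fun x y => by
    rw [abs_abs]
    linarith [abs_sub (ov x y) (D.q g s), Vale.Agent.P157.Par.abs_ov_le x y, D.q_abs_le g s])

lemma Dat.d_nonneg (s : ℕ) : 0 ≤ D.d s := Real.sqrt_nonneg _

lemma int_Y_dev_le {p : ℕ} {C : ℝ} (hC : ∫ g : Edge n → ℝ, Y g ^ (2 * p) ∂gauss (Edge n) ≤ C) (s : ℕ) :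
    ∫ g, Y g ^ p * D.dev g s ∂gauss (Edge n) ≤ √(2 * C) * D.d s := by
  refine (integral_mul_le_sqrt (eb_pow eb_Y p) (eb_dev D s)).trans ?_
  rw [Real.sqrt_mul zero_le_two, mul_comm √2, mul_assoc, Dat.d, ← Real.sqrt_mul zero_le_two]
  refine mul_le_mul (Real.sqrt_le_sqrt ?_) (Real.sqrt_le_sqrt ?_) (Real.sqrt_nonneg _) (Real.sqrt_nonneg _)
  · simpa [← pow_mul, mul_comm p 2] using hC
  · rw [← integral_const_mul]
    refine integral_mono (eb_pow (eb_dev D s) 2).integrable ((eb_dev D s).integrable.const_mul 2) fun g => ?_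
    rw [sq]
    exact mul_le_mul_of_nonneg_right (dev_le_two D g s) (dev_nonneg D g s)

lemma Dat.dd_nonneg : 0 ≤ D.dd := Vale.Agent.P157.Par.lvlAvg_nonneg fun _ => D.d_nonneg _

lemma att_d_le {l : ℕ} (hl : l ≤ D.R) :
    ((D.atts l).map fun c => |c.2| * D.d (D.lv l c 0 2)).sum ≤ 24 * (D.d l + D.dd) ∧
      ((D.atts l).map fun c => |c.2| * D.d (D.lv l c 2 1)).sum ≤ 24 * (D.d l + D.dd) := by
  have hT : Valid D.R [(0, l), (0, 0)] := Vale.Agent.P157.Par.valid_pair hl
  have h : ∀ b < 2, ((D.atts l).map fun c => |c.2| * D.d (D.lv l c 2 b)).sum ≤ 24 * (D.d l + D.dd) := by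
    intro b hb
    refine (Vale.Agent.P157.Par.att_pair_le D.P.one_le (φ := D.d) D.d_nonneg hT (b := b) hb).trans ?_
    rw [Vale.Agent.P157.Par.pairSum_two D.d hl]
    have h1 : D.d D.R ≤ D.dd := le_add_of_nonneg_left
      (div_nonneg (sum_nonneg fun l _ => D.d_nonneg l) (Nat.cast_nonneg _))
    have := D.d_nonneg l
    have := D.dd_nonneg
    simp only [List.length_cons, List.length_nil, Dat.dd] at *
    norm_num
    linarith
  refine ⟨le_of_eq_of_le (congrArg List.sum (List.map_congr_left fun c _ => ?_)) (h 0 (by norm_num)), h 1 (by norm_num)⟩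
  rw [Dat.lv, Dat.lv, Vale.Agent.P168.MP.sp_comm]

lemma eb_fj (e : Edge n) (j : ℕ) (x y : Cfg n) : EB fun g : Edge n → ℝ => fj g e j x y :=
  eb_div (eb_Fe (p := fun _ => sv x) (fun _ => EB.const _) (eb_mulVec (eb_cheb j) _) e) _

lemma eb_dfj (e : Edge n) (j : ℕ) (x y : Cfg n) : EB fun g : Edge n → ℝ => dfj g e j x y :=
  eb_div (eb_Fe (p := fun _ => sv x) (fun _ => EB.const _) (eb_dvec e j _) e) _

lemma hd_fj (g : Edge n → ℝ) (e : Edge n) (j : ℕ) (x y : Cfg n) :
    HasDerivAt (fun t => fj (Function.update g e t) e j x y) (dfj g e j x y) (g e) :=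
  (((hd_mulVec g e j (sv y) e.1.2).const_mul (sv x e.1.1)).add
    ((hd_mulVec g e j (sv y) e.1.1).const_mul (sv x e.1.2))).div_const _

lemma cheb_succ (A : Matrix (Fin n) (Fin n) ℝ) (j : ℕ) :
    cheb A (j + 1) = A * cheb A j - if j = 0 then 0 else cheb A (j - 1) := by
  cases j with
  | zero => simp [cheb]
  | succ k => simp [cheb]

/-- the Chebyshev recursion under the expectation -/
lemma t_succ (g : Edge n → ℝ) (j l : ℕ) :
    D.t g (j + 1) l = ∑ e, g e * D.E2 g l (fj g e j) - if j = 0 then 0 else D.t g (j - 1) l := by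
  have e1 : ∀ x y : Cfg n, bil (cheb (Wm g) (j + 1)) x y / n =
      (∑ e, g e * fj g e j x y) - (if j = 0 then 0 else bil (cheb (Wm g) (j - 1)) x y / n) := fun x y => by
    rw [bil_eq, cheb_succ, Matrix.sub_mulVec, dotProduct_sub, ← Matrix.mulVec_mulVec, dot_Wm, sub_div, sum_div]
    congr 1
    · exact sum_congr rfl fun e _ => by simp only [fj, div_div, mul_div_assoc, mul_comm (n:ℝ)]
    · rcases j with _ | k <;> simp [bil_eq]
  simp only [Dat.t, e1]
  rw [Dat.E2, Vale.Agent.P168.MP.ET_sub]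
  refine congrArg₂ (· - ·) ?_ ?_
  · simp only [Dat.E2, ← Vale.Agent.P168.MP.ET_const_mul]
    exact Vale.Agent.P168.MP.ET_sum _ _ _
  · split_ifs
    · exact D.E2_one g l 0
    · rfl

lemma prod_cons (g : Edge n → ℝ) (s : ℕ) (ss : List ℕ) : D.prod g (s :: ss) = D.q g s * D.prod g ss := rfl

/-- the second term: the deviations enter the integral -/
lemma int_att_dev_le {p : ℕ} {C : ℝ} (hC : ∫ g : Edge n → ℝ, Y g ^ (2 * p) ∂gauss (Edge n) ≤ C) {l : ℕ}
    (hl : l ≤ D.R) :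
    ∫ g, ((D.atts l).map fun c => |c.2| * (Y g ^ p * D.dev g (D.lv l c 0 2))).sum ∂gauss (Edge n) ≤
      √(2 * C) * (24 * (D.d l + D.dd)) := by
  rw [(Vale.Agent.P157.Par.integrable_list_sum (D.atts l)
    (F := fun c g => |c.2| * (Y g ^ p * D.dev g (D.lv l c 0 2))) (μ := gauss (Edge n))
    fun c _ => ((eb_pow eb_Y p).mul (eb_dev D _)).integrable.const_mul _).2]
  refine (Vale.Agent.P157.Par.list_sum_le (g := fun c => √(2 * C) * (|c.2| * D.d (D.lv l c 0 2))) fun c _ => ?_).trans ?_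
  · rw [integral_const_mul, mul_left_comm]
    exact mul_le_mul_of_nonneg_left (int_Y_dev_le D hC _) (abs_nonneg _)
  · rw [List.sum_map_mul_left]
    exact mul_le_mul_of_nonneg_left (att_d_le D hl).1 (Real.sqrt_nonneg _)

lemma eb_Err (j : ℕ) : EB fun g : Edge n → ℝ => Err g j :=
  EB.sum _ fun m _ => ((EB.abs' ((eb_div (EB.sum univ fun a _ => eb_cheb m a a) _).sub (EB.const _))).mul
    (eb_pow eb_Y _)).add ((EB.const _).mul (eb_div (eb_pow eb_Y j) _))

lemma mom (k : ℕ) : ∃ C : ℝ, 0 ≤ C ∧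
    ∀ (n : ℕ) [NeZero n], ∫ g : Edge n → ℝ, Y g ^ k ∂gauss (Edge n) ≤ C := by
  obtain ⟨C, hC, h⟩ := opn_mom k
  exact ⟨C, hC, fun n _ => (h n NeZero.one_le).2⟩

lemma rr_bounds (n : ℕ) [NeZero n] :
    0 < √√(n : ℝ) ∧ √√(n : ℝ) * √√(n : ℝ) = √(n : ℝ) ∧ √√(n : ℝ) ≤ n := by
  have h1 : (1:ℝ) ≤ n := Nat.one_le_cast.2 NeZero.one_le
  have h2 : (1:ℝ) ≤ √(n : ℝ) := Real.one_le_sqrt.2 h1
  have h3 : ∀ x : ℝ, 1 ≤ x → √x ≤ x := fun x hx => by
    rw [Real.sqrt_le_left (zero_le_one.trans hx)]; exact le_self_pow₀ hx two_ne_zero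
  exact ⟨Real.sqrt_pos.2 (zero_lt_one.trans_le h2), Real.mul_self_sqrt (Real.sqrt_nonneg _),
    (h3 _ h2).trans (h3 _ h1)⟩

lemma tau_le (g : Edge n → ℝ) (m : ℕ) : |tau g m| ≤ 2 * Y g ^ m := by
  refine (abs_sub _ _).trans (two_mul (Y g ^ m) ▸ add_le_add ?_ ?_)
  · rw [abs_div, Nat.abs_cast, div_le_iff₀ npos, mul_comm]; exact abs_trace_le g m
  · split_ifs
    · rw [abs_one]; exact one_le_pow₀ (one_le_Y g)
    · rw [abs_zero]; exact pow_nonneg (Y_pos g).le _

/-- the error of the trace terms -/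
lemma int_Err_le (j : ℕ) : ∃ C : ℝ, 0 ≤ C ∧
    ∀ (n : ℕ) [NeZero n], ∫ g : Edge n → ℝ, Err g j ∂gauss (Edge n) ≤ C / √√(n : ℝ) := by
  choose Ct hCt0 hCt using trace_close
  choose Cm hCm0 hCm using mom
  refine ⟨∑ m ∈ range j, (Ct m + 2 * Cm (m + 2 * (j - 1 - m)) + 3 * Cm j),
    sum_nonneg fun m _ => add_nonneg (add_nonneg (hCt0 m) (mul_nonneg zero_le_two (hCm0 _)))
      (mul_nonneg (by norm_num) (hCm0 _)), fun n _ => ?_⟩
  obtain ⟨hw, hww, hwn⟩ := rr_bounds n
  set ω := √√(n : ℝ)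
  have et : ∀ m, EB fun g : Edge n → ℝ => |tau g m| := fun m =>
    EB.abs' ((eb_div (EB.sum univ fun a _ => eb_cheb m a a) _).sub (EB.const _))
  rw [show (fun g : Edge n → ℝ => Err g j) = fun g => ∑ m ∈ range j,
      (|tau g m| * Y g ^ (j - 1 - m) + 3 * (Y g ^ j / n)) from rfl,
    integral_finsetSum _ fun m _ => (((et m).mul (eb_pow eb_Y _)).add
      ((EB.const 3).mul (eb_div (eb_pow eb_Y j) n))).integrable, sum_div]
  refine sum_le_sum fun m _ => ?_
  set k := j - 1 - m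
  rw [integral_add ((et m).mul (eb_pow eb_Y k)).integrable ((EB.const 3).mul (eb_div (eb_pow eb_Y j) n)).integrable,
    add_div]
  refine add_le_add ?_ ?_
  · refine (integral_mono ((et m).mul (eb_pow eb_Y k)).integrable
      (((et m).integrable.const_mul ω).add ((eb_pow eb_Y (m + 2 * k)).integrable.const_mul (2 / ω)))
      fun g => ?_).trans ?_
    · show |tau g m| * Y g ^ k ≤ ω * |tau g m| + 2 / ω * Y g ^ (m + 2 * k)
      have h1 : Y g ^ k ≤ ω + (Y g ^ k) ^ 2 / ω := by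
        rw [← sub_nonneg, show ω + (Y g ^ k) ^ 2 / ω - Y g ^ k = ((ω - Y g ^ k) ^ 2 + ω * Y g ^ k) / ω by
          field_simp; ring]
        exact div_nonneg (add_nonneg (sq_nonneg _) (mul_nonneg hw.le (pow_nonneg (Y_pos g).le _))) hw.le
      refine (mul_le_mul_of_nonneg_left h1 (abs_nonneg _)).trans ?_
      rw [mul_add, mul_comm |tau g m| ω, pow_add, pow_mul', div_mul_eq_mul_div]
      refine add_le_add le_rfl ?_
      rw [← mul_div_assoc, ← mul_assoc]
      exact div_le_div_of_nonneg_right (mul_le_mul_of_nonneg_right (tau_le g m) (sq_nonneg _)) hw.le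
    · rw [integral_add' ((et m).integrable.const_mul ω) ((eb_pow eb_Y _).integrable.const_mul _),
        integral_const_mul, integral_const_mul, add_div]
      refine add_le_add ?_ ?_
      · refine (mul_le_mul_of_nonneg_left (hCt m n NeZero.one_le) hw.le).trans_eq ?_
        rw [← hww]; field_simp
      · rw [div_mul_eq_mul_div]
        exact div_le_div_of_nonneg_right (mul_le_mul_of_nonneg_left (hCm _ n) zero_le_two) hw.le
  · rw [integral_const_mul, integral_div, mul_div_assoc']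
    exact div_le_div₀ (mul_nonneg (by norm_num) (hCm0 _)) (mul_le_mul_of_nonneg_left (hCm j n) (by norm_num))
      hw hwn

/-- the inductive statement: products of mean overlaps are allowed as factors -/
def Close (β : ℝ) (a : ℕ → ℝ) (K j : ℕ) (C : ℝ) : Prop :=
  ∀ (n : ℕ) [NeZero n] (D : Dat n), D.β = β → D.a = a → D.K = K → |D.lam| ≤ 1 →
    ∀ ss : List ℕ, (∀ s ∈ ss, s ≤ D.R) → ∀ l ≤ D.R,
      |∫ g, D.prod g ss * (D.t g j l - lev D.β D.R (D.q g) j l) ∂gauss (Edge n)| ≤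
        C * ((ss.map D.d).sum + D.d l + D.dd + |D.lam| + 1 / √√(n : ℝ))

lemma close_zero (β : ℝ) (a : ℕ → ℝ) (K : ℕ) : Close β a K 0 0 := by
  intro n _ D _ _ _ _ ss _ l _
  have e : ∀ g, D.t g 0 l = lev D.β D.R (D.q g) 0 l := fun g => by
    refine congrArg (D.E2 g l) (funext fun x => funext fun y => ?_)
    rw [ov_eq_dot, bil_eq, cheb, Matrix.one_mulVec]
  simp [e]

/-- **One step of the recursion** -/
lemma close_succ (β : ℝ) (a : ℕ → ℝ) (K j : ℕ) {C : ℝ} (hC0 : 0 ≤ C) (hC : Close β a K j C) :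
    ∃ C', 0 ≤ C' ∧ Close β a K (j + 1) C' := by
  obtain ⟨Cp, hCp0, hCp⟩ := mom (2 * (j + K))
  obtain ⟨C1, hC10, hC1⟩ := mom (j + K)
  obtain ⟨Cj, hCj0, hCj⟩ := mom (2 * j)
  obtain ⟨Ce, hCe0, hCe⟩ := int_Err_le j
  have hA := tot_nonneg a K
  set A := tot a K with hAdef
  refine ⟨6 * (2 * |β| + A) * √(2 * Cp) + 6 * (|β| + A) * C1 + |β| * √(2 * Cj) * 24 + Ce + 54 * |β| * C,
    by positivity, ?_⟩
  intro n _ D hβ ha hK hlam ss hss l hl
  obtain ⟨hw, -, hwn⟩ := rr_bounds n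
  set μ := gauss (Edge n)
  set ω := √√(n : ℝ)
  set Sd := (ss.map D.d).sum with hSd
  have hSd0 : 0 ≤ Sd := List.sum_nonneg fun x hx => by
    obtain ⟨s, -, rfl⟩ := List.mem_map.1 hx; exact D.d_nonneg s
  set E0 := Sd + D.d l + D.dd + |D.lam| + 1 / ω
  have hd := D.d_nonneg l
  have hdd := D.dd_nonneg
  have hω : 0 ≤ 1 / ω := (one_div_pos.2 hw).le
  set dA : Edge n → (Edge n → ℝ) → ℝ := fun e g =>
    D.D3 g l (fun x y z => fj g e j x y * D.xi g e z) + D.E2 g l (dfj g e j)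
  set φ : Edge n → (Edge n → ℝ) → ℝ := fun e g => D.prod g ss * D.E2 g l (fj g e j)
  set φ' : Edge n → (Edge n → ℝ) → ℝ := fun e g =>
    D.dprod g e ss * D.E2 g l (fj g e j) + D.prod g ss * dA e g
  have ebA : ∀ e, EB fun g => D.E2 g l (fj g e j) := fun e => eb_E2 D (fun x y => eb_fj e j x y) l
  have ebdA : ∀ e, EB (dA e) := fun e =>
    (eb_D3 D (fun x y z => (eb_fj e j x y).mul (eb_xi D e z)) l).add (eb_E2 D (fun x y => eb_dfj e j x y) l)
  have ebφ : ∀ e, EB (φ e) := fun e => (eb_prod D ss).mul (ebA e)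
  have ebφ' : ∀ e, EB (φ' e) := fun e =>
    ((eb_dprod D e ss).mul (ebA e)).add ((eb_prod D ss).mul (ebdA e))
  have ibp : ∀ e, ∫ g, g e * φ e g ∂μ = ∫ g, φ' e g ∂μ := fun e =>
    EB.ibp e (ebφ e) (ebφ' e) (deriv_line fun g => by
      refine ((hd_prod D g e hss).mul (hd_E2 D g e hl (f := fun t => fj (Function.update g e t) e j)
        fun x y => hd_fj g e j x y)).congr_deriv ?_
      simp only [Function.update_eq_self, φ', dA])
  set prev : (Edge n → ℝ) → ℝ := fun g => if j = 0 then 0 else D.t g (j - 1) l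
  have ebprev : EB prev := by
    rcases eq_or_ne j 0 with h | h
    · simpa [prev, h] using EB.const (S := Edge n) 0
    · simpa [prev, h] using eb_t D (j - 1) l
  set L : (Edge n → ℝ) → ℝ := fun g => conv D.R (D.q g) (lev D.β D.R (D.q g) j) l
  set U : (Edge n → ℝ) → ℝ := fun g => conv D.R (D.q g) (D.t g j) l
  have ebL : EB L := eb_conv (eb_q D) (eb_lev D j) l
  have ebU : EB U := eb_conv (eb_q D) (eb_t D j) l
  set T12 : (Edge n → ℝ) → ℝ := fun g => (∑ e, D.dprod g e ss * D.E2 g l (fj g e j)) +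
    D.prod g ss * ((∑ e, dA e g) - prev g - D.β * U g)
  have ebT : EB T12 := (EB.sum univ fun e _ => (eb_dprod D e ss).mul (ebA e)).add
    ((eb_prod D ss).mul (((EB.sum univ fun e _ => ebdA e).sub ebprev).sub ((EB.const _).mul ebU)))
  set F : (ℕ × ℕ) × ℝ → (Edge n → ℝ) → ℝ := fun c g => c.2 * (D.prod g (D.lv l c 0 2 :: ss) *
    (D.t g j (D.lv l c 2 1) - lev D.β D.R (D.q g) j (D.lv l c 2 1)))
  have ebF : ∀ c, EB (F c) := fun c => (EB.const _).mul ((eb_prod D _).mul ((eb_t D _ _).sub (eb_lev D _ _)))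
  have eU : ∀ g, ((D.atts l).map fun c => F c g).sum = D.prod g ss * (U g - L g) := fun g => by
    simp only [U, L, conv, ← list_sum_sub, ← List.sum_map_mul_left]
    refine congrArg List.sum (List.map_congr_left fun c _ => ?_)
    simp only [F, prod_cons, Dat.lv]
    ring
  -- integration by parts
  have key : ∫ g, D.prod g ss * (D.t g (j + 1) l - lev D.β D.R (D.q g) (j + 1) l) ∂μ =
      (∫ g, T12 g ∂μ) + D.β * ((D.atts l).map fun c => ∫ g, F c g ∂μ).sum := by
    have e1 : ∀ g, D.prod g ss * (D.t g (j + 1) l - lev D.β D.R (D.q g) (j + 1) l) =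
        (∑ e, g e * φ e g) - D.prod g ss * (prev g + D.β * L g) := fun g => by
      rw [t_succ, show lev D.β D.R (D.q g) (j + 1) l = D.β * L g from rfl, sub_sub, mul_sub, mul_sum]
      exact congrArg₂ (· - ·) (sum_congr rfl fun e _ => mul_left_comm _ _ _) rfl
    have e2 : ∀ g, (∑ e, φ' e g) - D.prod g ss * (prev g + D.β * L g) =
        T12 g + D.β * ((D.atts l).map fun c => F c g).sum := fun g => by
      rw [eU]
      simp only [φ', T12, sum_add_distrib, ← mul_sum]
      ring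
    have i3 := ((eb_prod D ss).mul (ebprev.add ((EB.const D.β).mul ebL))).integrable
    simp only [e1]
    rw [integral_sub (EB.sum univ fun e _ => (EB.proj e).mul (ebφ e)).integrable i3,
      integral_finsetSum _ fun e _ => ((EB.proj e).mul (ebφ e)).integrable,
      sum_congr rfl fun e _ => ibp e, ← integral_finsetSum _ fun e _ => (ebφ' e).integrable,
      ← integral_sub (EB.sum univ fun e _ => ebφ' e).integrable i3,
      integral_congr_ae (Filter.Eventually.of_forall e2),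
      integral_add ebT.integrable ((EB.const D.β).mul (eb_list _ ebF)).integrable, integral_const_mul,
      (Vale.Agent.P157.Par.integrable_list_sum (D.atts l) (F := F) (μ := μ) fun c _ => (ebF c).integrable).2]
  -- the convolution of the errors
  have hF : |((D.atts l).map fun c => ∫ g, F c g ∂μ).sum| ≤ C * (54 * E0) := by
    refine (Vale.Agent.P157.Par.abs_list_sum _ _).trans ((Vale.Agent.P157.Par.list_sum_le
      (g := fun c => C * (|c.2| * (Sd + D.dd + |D.lam| + 1 / ω) + |c.2| * D.d (D.lv l c 0 2) +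
        |c.2| * D.d (D.lv l c 2 1))) fun c _ => ?_).trans ?_)
    · simp only [F]
      rw [integral_const_mul, abs_mul]
      have h := hC n D hβ ha hK hlam (D.lv l c 0 2 :: ss) (fun s hs => by
        rcases List.mem_cons.1 hs with rfl | hs
        · exact Vale.Agent.P168.MP.sp_le _ _ _ _
        · exact hss s hs) (D.lv l c 2 1) (Vale.Agent.P168.MP.sp_le _ _ _ _)
      refine (mul_le_mul_of_nonneg_left h (abs_nonneg _)).trans_eq ?_
      rw [List.map_cons, List.sum_cons]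
      ring
    · rw [List.sum_map_mul_left, List.sum_map_add, List.sum_map_add, List.sum_map_mul_right]
      refine mul_le_mul_of_nonneg_left ?_ hC0
      have h6 := mul_le_mul_of_nonneg_right (sum_abs_att D l)
        (show 0 ≤ Sd + D.dd + |D.lam| + 1 / ω by positivity)
      obtain ⟨h7, h8⟩ := att_d_le D hl
      simp only [E0, Dat.atts] at *
      linarith [abs_nonneg D.lam]
  -- the deviations
  have hdev : ∀ ss' : List ℕ,
      ∫ g, Y g ^ (j + K) * (ss'.map (D.dev g)).sum ∂μ ≤ √(2 * Cp) * (ss'.map D.d).sum := by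
    intro ss'
    simp only [← List.sum_map_mul_left]
    rw [(Vale.Agent.P157.Par.integrable_list_sum ss' (F := fun s g => Y g ^ (j + K) * D.dev g s) (μ := μ)
      fun s _ => ((eb_pow eb_Y _).mul (eb_dev D s)).integrable).2]
    exact Vale.Agent.P157.Par.list_sum_le fun s _ => int_Y_dev_le D (hCp n) s
  set b1 : (Edge n → ℝ) → ℝ := fun g => 6 * (2 * |β| + A) * (Y g ^ (j + K) * (ss.map (D.dev g)).sum)
  set b2 : (Edge n → ℝ) → ℝ := fun g => 6 * (|β| / n + |D.lam| * A) * Y g ^ (j + K)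
  set b3 : (Edge n → ℝ) → ℝ := fun g =>
    |β| * ((D.atts l).map fun c => |c.2| * (Y g ^ j * D.dev g (D.lv l c 0 2))).sum
  have eb1 : EB b1 := (EB.const _).mul ((eb_pow eb_Y _).mul (eb_list _ (eb_dev D)))
  have eb2 : EB b2 := (EB.const _).mul (eb_pow eb_Y _)
  have eb3 : EB b3 := (EB.const _).mul
    (eb_list _ fun _ => (EB.const _).mul ((eb_pow eb_Y _).mul (eb_dev D _)))
  have hT : ∀ g, |T12 g| ≤ b1 g + (b2 g + b3 g + Err g j) := fun g => by
    refine (abs_add_le _ _).trans (add_le_add ?_ ?_)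
    · refine (dprod_sum_le D g j l (fj_xi_le D hlam g j) hss).trans_eq ?_
      simp only [b1, hAdef, hβ, ha, hK]; ring
    · rw [abs_mul]
      refine (mul_le_of_le_one_left (abs_nonneg _) (D.prod_abs_le g ss)).trans
        ((dA_close D g j hl).trans_eq ?_)
      simp only [b2, b3, hAdef, hβ, ha, hK]; ring
  have hI : |∫ g, T12 g ∂μ| ≤ (6 * (2 * |β| + A) * √(2 * Cp) + 6 * (|β| + A) * C1 +
      |β| * √(2 * Cj) * 24 + Ce) * E0 := by
    refine abs_integral_le_integral_abs.trans ((integral_mono (EB.abs' ebT).integrable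
      (eb1.add ((eb2.add eb3).add (eb_Err j))).integrable hT).trans ?_)
    rw [integral_add eb1.integrable ((eb2.add eb3).add (eb_Err j)).integrable,
      integral_add (eb2.add eb3).integrable (eb_Err j).integrable, integral_add eb2.integrable eb3.integrable]
    simp only [b1, b2, b3, integral_const_mul]
    have k1 : 6 * (2 * |β| + A) * ∫ g, Y g ^ (j + K) * (ss.map (D.dev g)).sum ∂μ ≤
        6 * (2 * |β| + A) * √(2 * Cp) * E0 := by
      rw [mul_assoc _ (√_) E0]
      exact mul_le_mul_of_nonneg_left ((hdev ss).trans (mul_le_mul_of_nonneg_left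
        (by simp only [E0]; linarith [abs_nonneg D.lam]) (Real.sqrt_nonneg _))) (by positivity)
    have k2 : 6 * (|β| / n + |D.lam| * A) * ∫ g : Edge n → ℝ, Y g ^ (j + K) ∂μ ≤
        6 * (|β| + A) * C1 * E0 := by
      have h1 : |β| / n ≤ |β| * E0 := by
        rw [div_eq_mul_one_div]
        exact mul_le_mul_of_nonneg_left ((one_div_le_one_div_of_le hw hwn).trans
          (by simp only [E0]; linarith [abs_nonneg D.lam])) (abs_nonneg _)
      have h2 : |D.lam| * A ≤ A * E0 := by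
        rw [mul_comm]; exact mul_le_mul_of_nonneg_left (by simp only [E0]; linarith) hA
      have hI0 : 0 ≤ ∫ g : Edge n → ℝ, Y g ^ (j + K) ∂μ := integral_nonneg fun g => pow_nonneg (Y_pos g).le _
      refine (mul_le_mul (mul_le_mul_of_nonneg_left (add_le_add h1 h2) (by norm_num)) (hC1 n) hI0
        (by positivity)).trans_eq ?_
      ring
    have k3 : |β| * ∫ g, ((D.atts l).map fun c => |c.2| * (Y g ^ j * D.dev g (D.lv l c 0 2))).sum ∂μ ≤
        |β| * √(2 * Cj) * 24 * E0 := by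
      rw [mul_assoc, mul_assoc]
      exact mul_le_mul_of_nonneg_left ((int_att_dev_le D (hCj n) hl).trans (mul_le_mul_of_nonneg_left
        (mul_le_mul_of_nonneg_left (by simp only [E0]; linarith [abs_nonneg D.lam]) (by norm_num))
        (Real.sqrt_nonneg _))) (abs_nonneg _)
    have k4 : ∫ g : Edge n → ℝ, Err g j ∂μ ≤ Ce * E0 := by
      refine (hCe n).trans ?_
      rw [div_eq_mul_one_div]
      exact mul_le_mul_of_nonneg_left (by simp only [E0]; linarith [abs_nonneg D.lam]) hCe0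
    linarith
  rw [key]
  refine (abs_add_le _ _).trans ?_
  rw [add_mul]
  refine add_le_add hI ?_
  rw [abs_mul, hβ]
  refine (mul_le_mul_of_nonneg_left hF (abs_nonneg _)).trans_eq ?_
  ring

lemma close_all (β : ℝ) (a : ℕ → ℝ) (K : ℕ) : ∀ j : ℕ, ∃ C, 0 ≤ C ∧ Close β a K j C
  | 0 => ⟨0, le_rfl, close_zero β a K⟩
  | j + 1 => by
    obtain ⟨C, h0, h⟩ := close_all β a K j
    exact close_succ β a K j h0 h

lemma adev_eq (g : Edge n → ℝ) :
    adev D.R (D.w g) (ovK (spinAt D.R)) (D.q g) = (∑ s ∈ range D.R, D.dev g s) / D.R + D.dev g D.R := rfl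

/-- the roots are small when the deviation is -/
lemma dd_le {t : ℝ} (ht : 0 < t) :
    D.d D.R + D.dd ≤ 3 * t + 2 * (∫ g, adev D.R (D.w g) (ovK (spinAt D.R)) (D.q g) ∂gauss (Edge n)) / t := by
  have h : ∀ s, D.d s ≤ t + (∫ g, D.dev g s ∂gauss (Edge n)) / t := fun s => by
    have h0 : 0 ≤ ∫ g, D.dev g s ∂gauss (Edge n) := integral_nonneg fun g => dev_nonneg D g s
    refine Real.sqrt_le_iff.2 ⟨by positivity, ?_⟩
    rw [show (t + (∫ g, D.dev g s ∂gauss (Edge n)) / t) ^ 2 = t ^ 2 + 2 * (∫ g, D.dev g s ∂gauss (Edge n)) +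
      ((∫ g, D.dev g s ∂gauss (Edge n)) / t) ^ 2 by field_simp; ring]
    nlinarith
  have hR : (0:ℝ) < D.R := by exact_mod_cast D.P.one_le
  have hi : ∫ g, adev D.R (D.w g) (ovK (spinAt D.R)) (D.q g) ∂gauss (Edge n) =
      (∑ s ∈ range D.R, ∫ g, D.dev g s ∂gauss (Edge n)) / D.R + ∫ g, D.dev g D.R ∂gauss (Edge n) := by
    simp only [adev_eq]
    rw [integral_add (eb_div (EB.sum _ fun s _ => eb_dev D s) _).integrable (eb_dev D _).integrable, integral_div,
      integral_finsetSum _ fun s _ => (eb_dev D s).integrable]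
  have hs : (∑ s ∈ range D.R, D.d s) / D.R ≤
      t + (∑ s ∈ range D.R, ∫ g, D.dev g s ∂gauss (Edge n)) / D.R / t := by
    refine (div_le_div_of_nonneg_right (sum_le_sum fun s _ => h s) hR.le).trans_eq ?_
    rw [sum_add_distrib, sum_const, card_range, nsmul_eq_mul, ← sum_div]
    field_simp
  have hT := h D.R
  have hp : 0 ≤ (∑ s ∈ range D.R, ∫ g, D.dev g s ∂gauss (Edge n)) / D.R / t :=
    div_nonneg (div_nonneg (sum_nonneg fun s _ => integral_nonneg fun g => dev_nonneg D g s) hR.le) ht.le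
  rw [Dat.dd, lvlAvg, hi, mul_div_assoc, add_div]
  linarith

lemma eb_adev : EB fun g => adev D.R (D.w g) (ovK (spinAt D.R)) (D.q g) := by
  simp only [adev_eq]
  exact (eb_div (EB.sum _ fun s _ => eb_dev D s) _).add (eb_dev D _)

lemma t_top (g : Edge n → ℝ) (j : ℕ) :
    ET D.R (lin D.R) (D.w g) [(0, 0)] (fun ps =>
      bil (cheb (Wm g) j) (spinAt D.R (ps.getD 0 [])) (spinAt D.R (ps.getD 0 [])) / n) = D.t g j D.R := by
  have h := Vale.Agent.P157.Par.ET_two (R := D.R) (D.w_pos g) (U := [(0, 0)]) Vale.Agent.P168.MP.valid_single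
    (i := 0) (j := 0) Nat.one_pos Nat.one_pos
    fun p p' => bil (cheb (Wm g) j) (spinAt D.R p) (spinAt D.R p') / n
  rwa [Vale.Agent.P168.MP.sp_self] at h

end Rec

/-- **The recursion**: in a perturbed system whose overlaps are functions of the level, `σ' U_j σ / n` is the
iterated convolution of the mean overlaps at the top level. -/
theorem diag_close (β : ℝ) (a : ℕ → ℝ) (K j : ℕ) : ∃ C : ℝ, 0 ≤ C ∧
    ∀ (P : Par) (δ : ℝ), 0 ≤ δ → P.Good δ → ∀ (n : ℕ) [NeZero n] (lam : ℝ), |lam| ≤ 1 →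
      ∀ v : Cfg n → ℝ,
      |P.diag n β a K lam v j -
        P.mean (n := n) β a K lam v (fun _ w => lev β P.R (qlev P.R w (spinAt P.R)) j P.R)| ≤
        C * (√δ + |lam| + 1 / √√(n : ℝ)) := by
  obtain ⟨C, hC0, hC⟩ := Rec.close_all β a K j
  refine ⟨5 * C + C, by positivity, fun P δ hδ hG n _ lam hlam v => ?_⟩
  have : Nonempty (Fin P.M) := ⟨⟨0, P.M_pos⟩⟩
  obtain ⟨hw, -, -⟩ := Rec.rr_bounds n
  set ω := √√(n : ℝ)
  set t := √δ + 1 / ω
  have hω := one_div_pos.2 hw
  have ht : 0 < t := add_pos_of_nonneg_of_pos (Real.sqrt_nonneg _) hω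
  set X : P.Grid → Rec.Dat n := fun u => ⟨P, β, a, K, lam, v, u⟩
  have hdiff : P.diag n β a K lam v j -
      P.mean (n := n) β a K lam v (fun _ w => lev β P.R (qlev P.R w (spinAt P.R)) j P.R) =
      Vale.Agent.P168.MP.avg fun u : P.Grid => ∫ g, (X u).prod g [] *
        ((X u).t g j P.R - lev β P.R ((X u).q g) j P.R) ∂gauss (Edge n) := by
    simp only [Par.diag, Par.mean, Vale.Agent.P168.MP.avg]
    rw [← sub_div, ← sum_sub_distrib]
    refine congrArg (· / (Fintype.card P.Grid : ℝ)) (sum_congr rfl fun u _ => ?_)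
    have e : ∀ g, ET P.R (lin P.R) (P.wp (wgt β a K lam v g) u) [(0, 0)] (fun ps =>
        bil (cheb (Wm g) j) (spinAt P.R (ps.getD 0 [])) (spinAt P.R (ps.getD 0 [])) / n) =
          (X u).t g j P.R := fun g => Rec.t_top (X u) g j
    simp only [e, Rec.Dat.prod, List.map_nil, List.prod_nil, one_mul]
    exact (integral_sub (Rec.eb_t (X u) j P.R).integrable (Rec.eb_lev (X u) j P.R).integrable).symm
  rw [hdiff]
  set Ad : P.Grid → (Edge n → ℝ) → ℝ := fun u g =>
    adev P.R ((X u).w g) (ovK (spinAt P.R)) ((X u).q g)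
  have hdev : (Vale.Agent.P168.MP.avg fun u => ∫ g, Ad u g ∂gauss (Edge n)) ≤ δ := by
    rw [Vale.Agent.P168.MP.avg, ← integral_finsetSum _ fun u _ => (Rec.eb_adev (X u)).integrable, ← integral_div]
    refine (integral_mono ((Rec.eb_div (EB.sum univ fun u _ => Rec.eb_adev (X u)) _).integrable)
      (integrable_const δ) fun g => ?_).trans_eq (by simp)
    exact hG n (wgt β a K lam v g) (wgt_pos β a K lam v g)
  have hu : ∀ u : P.Grid, |∫ g, (X u).prod g [] *
      ((X u).t g j P.R - lev β P.R ((X u).q g) j P.R) ∂gauss (Edge n)| ≤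
      C * (3 * t + |lam| + 1 / ω) + C * (2 / t) * ∫ g, Ad u g ∂gauss (Edge n) := fun u => by
    refine (hC n (X u) rfl rfl rfl hlam [] (by simp) P.R le_rfl).trans ?_
    rw [mul_assoc C (2 / t), ← mul_add]
    refine mul_le_mul_of_nonneg_left ?_ hC0
    have h := Rec.dd_le (X u) ht
    simp only [List.map_nil, List.sum_nil, zero_add, div_mul_eq_mul_div] at *
    linarith
  refine (abs_div _ _).trans_le ?_
  rw [Nat.abs_cast]
  refine (div_le_div_of_nonneg_right ((abs_sum_le_sum_abs _ _).trans (sum_le_sum fun u _ => hu u))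
    (Nat.cast_nonneg _)).trans ?_
  have hc : (Fintype.card P.Grid : ℝ) ≠ 0 := Nat.cast_ne_zero.2 Fintype.card_ne_zero
  rw [sum_add_distrib, sum_const, card_univ, nsmul_eq_mul, ← mul_sum, add_div, mul_div_cancel_left₀ _ hc,
    mul_div_assoc]
  rw [Vale.Agent.P168.MP.avg] at hdev
  have h2 : δ ≤ t * t := by
    calc δ = √δ * √δ := (Real.mul_self_sqrt hδ).symm
      _ ≤ t * t := mul_le_mul (le_add_of_nonneg_right hω.le) (le_add_of_nonneg_right hω.le)
          (Real.sqrt_nonneg _) ht.le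
  have h3 : C * (2 / t) * δ ≤ C * (2 * t) := by
    rw [mul_assoc]
    refine mul_le_mul_of_nonneg_left ?_ hC0
    rw [div_mul_eq_mul_div, div_le_iff₀ ht]
    linarith
  have h4 := mul_le_mul_of_nonneg_left hdev (mul_nonneg hC0 (div_nonneg zero_le_two ht.le))
  refine le_trans (add_le_add le_rfl (h4.trans h3)) ?_
  simp only [t]
  nlinarith [mul_nonneg hC0 (abs_nonneg lam), mul_nonneg hC0 (Real.sqrt_nonneg δ), mul_nonneg hC0 hω.le]

end Vale.Agent.P146.Lower
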