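import Vale.Agent.P146.Lower.SiteTilt
import Vale.Agent.P146.Lower.Cheb
import Vale.Agent.P146.Lower.Func

/-! P146 lower bound: one more site of the deformed perturbed system is worth the Parisi functional at the
profile of the base system, up to the deviation and a multiple of the deformation. -/

open MeasureTheory ProbabilityTheory Finset Real Filter
open Vale.Agent.P150 (gauss dot l1)
open Vale.Agent.P168.MP (lin logZ0 ET nest pw spinAt allBatch BIdx gu Mark growC ok_lin)
open Vale.Agent.P157.Par (qlev adev devOf ovK Prof dist1 Phi)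

noncomputable section

namespace Vale.Agent.P146.Lower

variable {N : ℕ}

/-! ### the error function of the change of the Chebyshev forms -/

/-- normalised fields of the new spin -/
def fldA (g : Edge N → ℝ) (i : ℕ) (σ : Cfg N) : Fin N → ℝ :=
  fun k => chv (Wm g) i (spv σ) k / (√((N : ℝ) + 1) * (opn g + 2) ^ i)

/-- normalised fields of the new spin, scaled couplings -/
def fldB (g : Edge N → ℝ) (i : ℕ) (σ : Cfg N) : Fin N → ℝ :=
  fun k => chc g i σ k / (√((N : ℝ) + 1) * (opn g + 2) ^ i)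

lemma fld_den_pos (g : Edge N → ℝ) (i : ℕ) : 0 < √((N : ℝ) + 1) * (opn g + 2) ^ i := by
  have := opn_nonneg g; positivity

lemma fld_self_le (g : Edge N → ℝ) (i : ℕ) {v : Fin N → ℝ} (hv : nrm v ≤ √(N : ℝ) * (opn g + 2) ^ i) :
    dot (fun k => v k / (√((N : ℝ) + 1) * (opn g + 2) ^ i))
      (fun k => v k / (√((N : ℝ) + 1) * (opn g + 2) ^ i)) ≤ 1 := by
  have hd := fld_den_pos g i
  simp only [dot, div_mul_div_comm, ← sum_div]
  rw [div_le_one (by positivity), show ∑ k, v k * v k = nrm v ^ 2 by rw [nrm_sq]; exact sum_congr rfl fun k _ => by ring]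
  have hL : 0 ≤ (opn g + 2) ^ i := by have := opn_nonneg g; positivity
  calc nrm v ^ 2 ≤ (√(N : ℝ) * (opn g + 2) ^ i) ^ 2 := pow_le_pow_left₀ (nrm_nonneg v) hv 2
    _ ≤ (√((N : ℝ) + 1) * (opn g + 2) ^ i) ^ 2 :=
        pow_le_pow_left₀ (by positivity) (mul_le_mul_of_nonneg_right (Real.sqrt_le_sqrt (by linarith)) hL) 2
    _ = _ := sq _

lemma dot_fld (g : Edge N → ℝ) (z : Fin N → ℝ) (i : ℕ) (v : Fin N → ℝ) :
    dotProduct (uv z) v = (opn g + 2) ^ i * dot (fun k => v k / (√((N : ℝ) + 1) * (opn g + 2) ^ i)) z := by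
  have hd := fld_den_pos g i
  simp only [dotProduct, dot, uv, mul_sum]
  have hL : (opn g + 2) ^ i ≠ 0 := (pow_pos (by linarith [opn_nonneg g]) i).ne'
  exact sum_congr rfl fun k _ => by field_simp

lemma fldA_self [NeZero N] (g : Edge N → ℝ) (i : ℕ) (σ : Cfg N) :
    dot (fldA g i σ) (fldA g i σ) ≤ 1 := fld_self_le g i (nrm_chv_le g σ i)

lemma fldB_self [NeZero N] (g : Edge N → ℝ) (i : ℕ) (σ : Cfg N) :
    dot (fldB g i σ) (fldB g i σ) ≤ 1 := by
  refine fld_self_le g i (nrm_chv_le' g (fun v => ?_) σ i)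
  obtain ⟨hc0, hc1, -, -⟩ := one_sub_cs N
  rw [Matrix.smul_mulVec, nrm_smul, abs_of_nonneg hc0]
  exact (mul_le_of_le_one_left (nrm_nonneg _) hc1).trans (nrm_mulVec_le g v)

/-- the square of the fields is controlled by fourth powers of normalised fields -/
lemma gsum_sq_le [NeZero N] (K : ℕ) (g : Edge N → ℝ) (z : Fin N → ℝ) (σ : Cfg N) :
    bigL g z ^ (2 * K) * gsum K g z σ ^ 2 ≤ (2 + 4 * (K : ℝ) ^ 2) * bigL g z ^ (8 * K) +
      4 * K * ∑ i ∈ range K, (dot (fldA g i σ) z ^ 4 + dot (fldB g i σ) z ^ 4) := by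
  set Λ := bigL g z
  have hΛ : 1 ≤ Λ := by simp only [Λ, bigL]; linarith [opn_nonneg g, nrm_nonneg (uv z)]
  set A := fun i => dotProduct (uv z) (chv (Wm g) i (spv σ))
  set B := fun i => dotProduct (uv z) (chc g i σ)
  set S := ∑ i ∈ range K, (|A i| + |B i|)
  have hS : S ^ 2 ≤ 2 * K * ∑ i ∈ range K, (A i ^ 2 + B i ^ 2) := by
    have h := sq_sum_le_card_mul_sum_sq (s := range K) (f := fun i => |A i| + |B i|)
    rw [card_range] at h
    refine h.trans ?_
    rw [mul_comm (2:ℝ) K, mul_assoc, mul_sum (range K) (fun i => A i ^ 2 + B i ^ 2) (2:ℝ)]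
    refine mul_le_mul_of_nonneg_left (sum_le_sum fun i _ => ?_) (Nat.cast_nonneg K)
    have h2 := two_mul_le_add_sq |A i| |B i|
    rw [sq_abs, sq_abs] at h2
    show (|A i| + |B i|) ^ 2 ≤ 2 * (A i ^ 2 + B i ^ 2)
    rw [add_sq, sq_abs, sq_abs]
    linarith
  have h2 : gsum K g z σ ^ 2 ≤ 2 + 4 * K * ∑ i ∈ range K, (A i ^ 2 + B i ^ 2) := by
    show (1 + S) ^ 2 ≤ _
    nlinarith [sq_nonneg (S - 1)]
  have hone : ∀ i < K, ∀ y : ℝ, Λ ^ (2 * K) * ((opn g + 2) ^ i * y) ^ 2 ≤ Λ ^ (8 * K) / 2 + y ^ 4 / 2 := by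
    intro i hi y
    have hp : ((opn g + 2) ^ i) ^ 2 ≤ Λ ^ (2 * K) := by
      rw [← pow_mul]
      refine (pow_le_pow_left₀ (by linarith [opn_nonneg g])
        (show opn g + 2 ≤ Λ by simp only [Λ, bigL]; linarith [nrm_nonneg (uv z)]) _).trans ?_
      exact pow_le_pow_right₀ hΛ (by omega)
    calc Λ ^ (2 * K) * ((opn g + 2) ^ i * y) ^ 2 = Λ ^ (2 * K) * ((opn g + 2) ^ i) ^ 2 * y ^ 2 := by ring
      _ ≤ Λ ^ (2 * K) * Λ ^ (2 * K) * y ^ 2 := by
          exact mul_le_mul_of_nonneg_right (mul_le_mul_of_nonneg_left hp (by positivity)) (sq_nonneg y)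
      _ ≤ _ := by
          have := two_mul_le_add_sq (Λ ^ (4 * K)) (y ^ 2)
          rw [← pow_mul, ← pow_mul, show 4 * K * 2 = 8 * K by ring] at this
          rw [← pow_add, show 2 * K + 2 * K = 4 * K by ring]
          norm_num at this
          linarith
  refine (mul_le_mul_of_nonneg_left h2 (by positivity)).trans ?_
  rw [mul_add, mul_left_comm, mul_sum (range K) (fun i => A i ^ 2 + B i ^ 2) (Λ ^ (2 * K))]
  have h3 : Λ ^ (2 * K) ≤ Λ ^ (8 * K) := pow_le_pow_right₀ hΛ (by omega)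
  have h4 : ∑ i ∈ range K, Λ ^ (2 * K) * (A i ^ 2 + B i ^ 2) ≤
      K * Λ ^ (8 * K) + ∑ i ∈ range K, (dot (fldA g i σ) z ^ 4 + dot (fldB g i σ) z ^ 4) := by
    refine (sum_le_sum (g := fun i => Λ ^ (8 * K) + (dot (fldA g i σ) z ^ 4 + dot (fldB g i σ) z ^ 4))
      fun i hi => ?_).trans_eq (by simp [sum_add_distrib])
    have a1 := hone i (mem_range.1 hi) (dot (fldA g i σ) z)
    have b1 := hone i (mem_range.1 hi) (dot (fldB g i σ) z)
    have ea : A i = (opn g + 2) ^ i * dot (fldA g i σ) z := dot_fld g z i _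
    have eb : B i = (opn g + 2) ^ i * dot (fldB g i σ) z := dot_fld g z i _
    rw [ea, eb, mul_add]
    have := pow_nonneg (show 0 ≤ Λ by linarith) (8 * K)
    have : 0 ≤ dot (fldA g i σ) z ^ 4 := Even.pow_nonneg (by decide) _
    have : 0 ≤ dot (fldB g i σ) z ^ 4 := Even.pow_nonneg (by decide) _
    linarith
  have h5 := mul_le_mul_of_nonneg_left h4 (show (0:ℝ) ≤ 4 * K by positivity)
  nlinarith

/-! ### continuity -/

lemma continuous_cheb : ∀ j, Continuous fun A : Matrix (Fin N) (Fin N) ℝ => cheb A j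
  | 0 => continuous_const
  | 1 => continuous_id
  | j + 2 => (continuous_id.matrix_mul (continuous_cheb (j + 1))).sub (continuous_cheb j)

lemma continuous_Wm : Continuous fun g : Edge N → ℝ => Wm g :=
  continuous_matrix fun a b => (eb_Wm a b).1

lemma continuous_fldA (i : ℕ) (σ : Cfg N) (k : Fin N) : Continuous fun g : Edge N → ℝ => fldA g i σ k :=
  ((continuous_apply k).comp (((continuous_cheb i).comp continuous_Wm).matrix_mulVec continuous_const)).div
    (continuous_const.mul ((continuous_opn.add continuous_const).pow i)) fun g => (fld_den_pos g i).ne'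

lemma continuous_fldB (i : ℕ) (σ : Cfg N) (k : Fin N) : Continuous fun g : Edge N → ℝ => fldB g i σ k :=
  ((continuous_apply k).comp
    (((continuous_cheb i).comp (continuous_Wm.const_smul (cs N))).matrix_mulVec continuous_const)).div
    (continuous_const.mul ((continuous_opn.add continuous_const).pow i)) fun g => (fld_den_pos g i).ne'

lemma continuous_bigL : Continuous fun x : (Edge N → ℝ) × (Fin N → ℝ) => bigL x.1 x.2 := by
  have h : Continuous fun z : Fin N → ℝ => nrm (uv z) := by unfold nrm uv; fun_prop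
  exact ((continuous_opn.comp continuous_fst).add ((h.comp continuous_snd).const_mul 2)).add continuous_const

/-- powers of the size of the couplings have bounded means -/
lemma bigL_pow (p : ℕ) : ∃ C : ℝ, 0 ≤ C ∧ ∀ (N : ℕ) [NeZero N],
    Integrable (fun x : (Edge N → ℝ) × (Fin N → ℝ) => bigL x.1 x.2 ^ p) ((gauss (Edge N)).prod (gauss (Fin N))) ∧
      ∫ x, bigL x.1 x.2 ^ p ∂(gauss (Edge N)).prod (gauss (Fin N)) ≤ C := by
  obtain ⟨C, hC, hm⟩ := opn_mom p
  have hg : 0 ≤ gmom p := integral_nonneg fun t => (even_two_mul p).pow_nonneg t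
  refine ⟨8 ^ p * (C + (1 + gmom p) + 1), by positivity, fun N _ => ?_⟩
  obtain ⟨i1, e1⟩ := hm N (NeZero.pos N)
  obtain ⟨i2, e2⟩ := nrm_uv_pow (N := N) p
  have hF := (((i1.comp_fst (gauss (Fin N))).add (i2.comp_snd (gauss (Edge N)))).add (integrable_const (1:ℝ))).const_mul (8 ^ p)
  have hle : ∀ x : (Edge N → ℝ) × (Fin N → ℝ), bigL x.1 x.2 ^ p ≤
      8 ^ p * ((opn x.1 + 2) ^ p + nrm (uv x.2) ^ p + 1) := fun x => by
    have h1 : 0 ≤ opn x.1 + 2 := by linarith [opn_nonneg x.1]
    have h2 := nrm_nonneg (uv x.2)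
    set m := max (max (opn x.1 + 2) (nrm (uv x.2))) 1
    have hm' : bigL x.1 x.2 ≤ 8 * m := by
      simp only [bigL]
      linarith [le_max_left (opn x.1 + 2) (nrm (uv x.2)), le_max_right (opn x.1 + 2) (nrm (uv x.2)),
        le_max_left (max (opn x.1 + 2) (nrm (uv x.2))) (1:ℝ), le_max_right (max (opn x.1 + 2) (nrm (uv x.2))) (1:ℝ)]
    refine (pow_le_pow_left₀ (by simp only [bigL]; linarith) hm' p).trans ?_
    rw [mul_pow]
    refine mul_le_mul_of_nonneg_left ?_ (by positivity)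
    have hp1 := pow_nonneg h1 p
    have hp2 := pow_nonneg h2 p
    simp only [m]
    rcases max_choice (max (opn x.1 + 2) (nrm (uv x.2))) (1:ℝ) with h | h <;> rw [h]
    · rcases max_choice (opn x.1 + 2) (nrm (uv x.2)) with h' | h' <;> rw [h'] <;> linarith
    · rw [one_pow]; linarith
  have hI : Integrable (fun x : (Edge N → ℝ) × (Fin N → ℝ) => bigL x.1 x.2 ^ p)
      ((gauss (Edge N)).prod (gauss (Fin N))) :=
    hF.mono' (continuous_bigL.pow p).aestronglyMeasurable (Eventually.of_forall fun x => by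
      rw [Real.norm_eq_abs, abs_of_nonneg (pow_nonneg (by
        simp only [bigL]; linarith [opn_nonneg x.1, nrm_nonneg (uv x.2)]) _)]
      exact hle x)
  refine ⟨hI, (integral_mono hI hF hle).trans ?_⟩
  simp only [Pi.add_apply, integral_const_mul]
  refine mul_le_mul_of_nonneg_left ?_ (by positivity)
  rw [integral_add (f := fun x : (Edge N → ℝ) × (Fin N → ℝ) => (opn x.1 + 2) ^ p + nrm (uv x.2) ^ p)
      ((i1.comp_fst _).add (i2.comp_snd _)) (integrable_const _),
    integral_add (i1.comp_fst _) (i2.comp_snd _),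
    integral_fun_fst (fun g : Edge N → ℝ => (opn g + 2) ^ p), integral_fun_snd (fun z : Fin N → ℝ => nrm (uv z) ^ p),
    integral_const, probReal_univ, probReal_univ, probReal_univ, one_smul, one_smul, one_smul]
  linarith

/-! ### one site, at a fixed grid point -/

lemma avg_spin_exp (t : ℝ) : Vale.Agent.P168.MP.avg (fun s : Bool => exp (spin s * t)) = cosh t := by
  simp [Vale.Agent.P168.MP.avg, spin, cosh_eq]

lemma avg_affine {ι : Type*} [Fintype ι] [Nonempty ι] (f g : ι → ℝ) (a b c : ℝ) :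
    Vale.Agent.P168.MP.avg (fun u => a * f u + b * g u + c) = a * Vale.Agent.P168.MP.avg f + b * Vale.Agent.P168.MP.avg g + c := by
  have hc : (Fintype.card ι : ℝ) ≠ 0 := Nat.cast_ne_zero.2 Fintype.card_ne_zero
  simp only [Vale.Agent.P168.MP.avg, sum_add_distrib, ← mul_sum, sum_const, card_univ, nsmul_eq_mul]
  field_simp

/-- the disorder-free factor of the new spin -/
def vz (β : ℝ) (z : Fin N → ℝ) : Cfg N → ℝ := fun σ => log (cosh (dot (cvec β σ) z))

lemma wp_vz (P : Par) [NeZero N] (β : ℝ) (a : ℕ → ℝ) (K : ℕ) (lam : ℝ) (z : Fin N → ℝ) (g : Edge N → ℝ)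
    (u : P.Grid) : P.wp (wgt β a K lam (vz β z) g) u =
      fun p => P.wp (wgt β a K lam 0 g) u p * yF β (spinAt P.R) z p := by
  funext p
  simp only [Par.wp, pw, wgt, yF, Vale.Agent.P157.Par.fac, vz, exp_add, Pi.zero_apply, exp_zero, mul_one]
  ring

/-- energy per site -/
def dv (g : Edge N → ℝ) (σ : Cfg N) : ℝ := bil (cheb (Wm g) 1) σ σ / N

/-- the bound of the change of the Chebyshev forms under the tilt -/
def chErr (P : Par) [NeZero N] (β : ℝ) (a : ℕ → ℝ) (K : ℕ) (lam : ℝ) (u : P.Grid) (g : Edge N → ℝ)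
    (z : Fin N → ℝ) : ℝ :=
  (2 + 4 * (K : ℝ) ^ 2) * bigL g z ^ (8 * K) + 4 * K * ∑ i ∈ range K,
    ((ET P.R (lin P.R) (P.wp (wgt β a K lam (vz β z) g) u) [(0, 0)]
        fun ps => dot (fldA g i (spinAt P.R (ps.getD 0 []))) z ^ 4) +
      ET P.R (lin P.R) (P.wp (wgt β a K lam (vz β z) g) u) [(0, 0)]
        fun ps => dot (fldB g i (spinAt P.R (ps.getD 0 []))) z ^ 4)

/-- **One more site, pointwise**: convexity around the cosh tilt of the base system -/
lemma site_step (P : Par) [NeZero N] (β : ℝ) (a : ℕ → ℝ) (K : ℕ) (lam : ℝ) (u : P.Grid)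
    (g : Edge N → ℝ) (z : Fin N → ℝ) :
    logZ0 P.R (lin P.R) (P.wp (wgt β a K lam 0 g) u) +
        log (nest (lin P.R) (P.wp (wgt β a K lam 0 g) u) (yF β (spinAt P.R) z) P.R []) -
        ((1 - cs N) * N / 2 * β * ET P.R (lin P.R) (P.wp (wgt β a K lam (vz β z) g) u) [(0, 0)]
            (fun ps => dv g (spinAt P.R (ps.getD 0 []))) +
          |lam| * ((∑ j ∈ range K, |a j|) * 3 ^ (K + 1)) * chErr P β a K lam u g z +
          growC P.R P.S (allBatch P.R 2) / ((N : ℝ) + 1)) ≤
      logZ0 P.R (lin P.R) (P.wp (wgt β a K lam 0 (join g z)) u) := by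
  set W := wgt β a K lam 0 g
  set E := fun σ : Cfg N => β * energy g σ + lam * bil (chebSum a K (Wm g)) σ σ
  set E' := fun τ : Cfg (N + 1) => β * energy (join g z) τ + lam * bil (chebSum a K (Wm (join g z))) τ τ
  set c := fun (σ : Cfg N) (s : Bool) => exp (E' (Fin.snoc σ s) - E σ)
  set Cb := (∑ j ∈ range K, |a j|) * 3 ^ (K + 1)
  set κ := (1 - cs N) * N / 2
  set B := fun σ : Cfg N => bigL g z ^ (2 * K) * gsum K g z σ ^ 2
  set A := fun σ : Cfg N => -(κ * β * dv g σ + |lam| * Cb * B σ)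
  have hW : ∀ σ, 0 < W σ := fun σ => wgt_pos β a K lam 0 g σ
  have hCb : 0 ≤ Cb := mul_nonneg (sum_nonneg fun _ _ => abs_nonneg _) (by positivity)
  have hc : ∀ σ, cosh (dot (cvec β σ) z) * exp (A σ) ≤ Vale.Agent.P168.MP.avg (c σ) := fun σ => by
    rw [← avg_spin_exp, mul_comm, ← Vale.Agent.P168.MP.avg_mul_left]
    refine Vale.Agent.P168.MP.avg_le_avg fun s => ?_
    rw [← exp_add]
    refine exp_le_exp.2 ?_
    set τ : Cfg (N + 1) := Fin.snoc σ s
    have hτ : (fun i : Fin N => τ i.castSucc) = σ := funext fun i => by simp [τ]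
    have hs : τ (Fin.last N) = s := by simp [τ]
    have hD := bil_chebSum_join g z a K τ
    rw [hτ] at hD
    set D := bil (chebSum a K (Wm (join g z))) τ τ - bil (chebSum a K (Wm g)) σ σ
    have hl : -(|lam| * Cb * B σ) ≤ lam * D := by
      have h1 : |lam * D| ≤ |lam| * (Cb * B σ) := by
        rw [abs_mul]
        refine mul_le_mul_of_nonneg_left (hD.trans_eq ?_) (abs_nonneg _)
        simp only [Cb, B]; ring
      rw [mul_assoc]
      linarith [neg_abs_le (lam * D)]
    have hN : (N:ℝ) ≠ 0 := Nat.cast_ne_zero.2 (NeZero.ne N)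
    have hE : E' τ - E σ = -(κ * β * dv g σ) + spin s * dot (cvec β σ) z + lam * D := by
      simp only [E', E, D, energy_join, hτ, hs, dot_cvec, dv, κ]
      rw [show cheb (Wm g) 1 = Wm g from rfl, energy_bil]
      field_simp
      ring
    show A σ + spin s * dot (cvec β σ) z ≤ E' τ - E σ
    rw [hE]
    simp only [A]
    linarith
  have hcp : ∀ σ s, 0 < c σ s := fun σ s => exp_pos _
  have hWt : (fun τ : Cfg (N + 1) => W (fun x => τ x.castSucc) * c (fun x => τ x.castSucc) (τ (Fin.last N))) =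
      wgt β a K lam 0 (join g z) := funext fun τ => by
    have hτ : (Fin.snoc (fun x : Fin N => τ x.castSucc) (τ (Fin.last N)) : Cfg (N + 1)) = τ := Fin.snoc_init_self τ
    simp only [W, c, wgt, E, E', hτ, ← exp_add, Pi.zero_apply]
    ring_nf
  have h1 := Vale.Agent.P168.MP.grow_bound (S := P.S) (β := allBatch P.R 2) P.two_le hW hcp
    (h := fun _ => P.h) (u := gu P.ub P.M u) (fun _ => by rw [abs_of_pos P.h_pos]; exact P.h_le) (P.gu_abs u)
  rw [hWt, Vale.Agent.P168.MP.logZ0_pw_mul hW fun σ => Vale.Agent.P168.MP.avg_pos (hcp σ)] at h1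
  set w := P.wp W u
  set Y := yF β (spinAt P.R) z
  have hw : ∀ p, 0 < w p := wp_pos P hW u
  have hY : ∀ p, 0 < Y p := yF_pos β (spinAt P.R) z
  have hok := ok_lin (R := P.R) P.one_le hw
  have h2 := Vale.Agent.P157.Par.log_nest_add_ET_le hok hY fun p => A (spinAt P.R p)
  have h3 : log (nest (lin P.R) w (fun p => Y p * exp (A (spinAt P.R p))) P.R []) ≤
      Vale.Agent.P168.MP.nestC (S := P.S) (β := allBatch P.R 2) P.R W (fun _ => P.h) (gu P.ub P.M u)
        (fun σ => Vale.Agent.P168.MP.avg (c σ)) :=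
    log_le_log (Vale.Agent.P168.MP.nest_pos hw (fun p => mul_pos (hY p) (exp_pos _)) _ _)
      (Vale.Agent.P168.MP.nest_le_nest hok (fun p => mul_pos (hY p) (exp_pos _))
        (fun p => le_trans (le_of_eq (by simp only [Y, yF_eq])) (hc _)) P.R [] (by simp))
  have hwY : ∀ p, 0 < w p * Y p := fun p => mul_pos (hw p) (hY p)
  set T := fun F : List (Mark N P.S (allBatch P.R 2)) → ℝ =>
    ET P.R (lin P.R) (fun p => w p * Y p) [(0, 0)] fun ps => F (ps.getD 0 [])
  have h4 : -(κ * β * T (fun p => dv g (spinAt P.R p)) + |lam| * Cb * chErr P β a K lam u g z) ≤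
      T fun p => A (spinAt P.R p) := by
    have h5 : T (fun p => B (spinAt P.R p)) ≤ chErr P β a K lam u g z := by
      refine (Vale.Agent.P168.MP.ET_mono hwY (fun ps => gsum_sq_le K g z (spinAt P.R (ps.getD 0 [])))).trans_eq ?_
      rw [Vale.Agent.P168.MP.ET_add, Vale.Agent.P168.MP.ET_const hwY, Vale.Agent.P168.MP.ET_const_mul,
        Vale.Agent.P168.MP.ET_sum, chErr, wp_vz]
      simp only [Vale.Agent.P168.MP.ET_add]
      rfl
    have e : T (fun p => A (spinAt P.R p)) =
        (-1) * (κ * β * T (fun p => dv g (spinAt P.R p)) + |lam| * Cb * T fun p => B (spinAt P.R p)) := by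
      simp only [T, ← Vale.Agent.P168.MP.ET_const_mul, ← Vale.Agent.P168.MP.ET_add]
      refine congrArg _ (funext fun ps => ?_)
      simp only [A]
      ring
    have := mul_le_mul_of_nonneg_left h5 (mul_nonneg (abs_nonneg lam) hCb)
    rw [e]
    linarith
  have h6 := (abs_le.1 h1).1
  rw [wp_vz]
  change logZ0 P.R (lin P.R) w + log (nest (lin P.R) w Y P.R []) - (κ * β * T (fun p => dv g (spinAt P.R p)) +
    |lam| * Cb * chErr P β a K lam u g z + _) ≤ logZ0 P.R (lin P.R) (P.wp (wgt β a K lam 0 (join g z)) u)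
  simp only [T] at h4
  simp only [Par.wp, w, T] at *
  linarith

section mean

variable (P : Par) [NeZero N] (β : ℝ) (a : ℕ → ℝ) (K : ℕ) (lam : ℝ) (u : P.Grid)

omit [NeZero N] in
lemma continuous_wgt_vz (σ : Cfg N) :
    Continuous fun x : (Edge N → ℝ) × (Fin N → ℝ) => wgt β a K lam (vz β x.2) x.1 σ := by
  have h : Continuous fun z : Fin N → ℝ => vz β z σ :=
    Vale.Agent.P157.Par.sm_logcosh.cont0.comp (Vale.Agent.P157.Par.continuous_dot_left _)
  simp only [wgt]
  exact continuous_exp.comp (((continuous_const.mul ((eb_energy σ).1.comp continuous_fst)).add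
    (continuous_const.mul ((eb_bil (eb_chebSum a K) σ σ).1.comp continuous_fst))).add (h.comp continuous_snd))

lemma continuous_ET_vz {T : List (ℕ × ℕ)}
    {F : (Edge N → ℝ) × (Fin N → ℝ) → List (List (Mark N P.S (allBatch P.R 2))) → ℝ}
    (hF : ∀ ps, Continuous fun x => F x ps) :
    Continuous fun x : (Edge N → ℝ) × (Fin N → ℝ) =>
      ET P.R (lin P.R) (P.wp (wgt β a K lam (vz β x.2) x.1) u) T (F x) :=
  Vale.Agent.P157.Par.continuous_ET (fun _ => (continuous_wgt_vz β a K lam _).mul continuous_const)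
    (fun _ p => wp_pos P (fun σ => wgt_pos β a K lam _ _ σ) u p) P.R T hF

lemma chErr_mean : Integrable (fun x : (Edge N → ℝ) × (Fin N → ℝ) => chErr P β a K lam u x.1 x.2)
      ((gauss (Edge N)).prod (gauss (Fin N))) ∧
    ∀ C, (∫ x, bigL x.1 x.2 ^ (8 * K) ∂(gauss (Edge N)).prod (gauss (Fin N)) ≤ C) →
      ∫ x, chErr P β a K lam u x.1 x.2 ∂(gauss (Edge N)).prod (gauss (Fin N)) ≤
        (2 + 4 * (K : ℝ) ^ 2) * C + 4 * K * (K * (2 * (24 * (exp 2 + exp (2 * β ^ 2))))) := by
  obtain ⟨C₀, -, hB⟩ := bigL_pow (8 * K)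
  obtain ⟨hi, -⟩ := hB N
  have one : ∀ (b : (Edge N → ℝ) → Cfg N → Fin N → ℝ), (∀ σ k, Continuous fun g => b g σ k) →
      (∀ g σ, dot (b g σ) (b g σ) ≤ 1) →
      Integrable (fun x : (Edge N → ℝ) × (Fin N → ℝ) => ET P.R (lin P.R) (P.wp (wgt β a K lam (vz β x.2) x.1) u)
          [(0, 0)] fun ps => dot (b x.1 (spinAt P.R (ps.getD 0 []))) x.2 ^ 4)
        ((gauss (Edge N)).prod (gauss (Fin N))) ∧
      ∫ x, ET P.R (lin P.R) (P.wp (wgt β a K lam (vz β x.2) x.1) u)
          [(0, 0)] (fun ps => dot (b x.1 (spinAt P.R (ps.getD 0 []))) x.2 ^ 4)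
          ∂(gauss (Edge N)).prod (gauss (Fin N)) ≤ 24 * (exp 2 + exp (2 * β ^ 2)) := by
    intro b hb hb1
    have hI : Integrable (fun x : (Edge N → ℝ) × (Fin N → ℝ) => ET P.R (lin P.R)
        (P.wp (wgt β a K lam (vz β x.2) x.1) u) [(0, 0)] fun ps => dot (b x.1 (spinAt P.R (ps.getD 0 []))) x.2 ^ 4)
        ((gauss (Edge N)).prod (gauss (Fin N))) := by
      refine (((Vale.Agent.P150.integrable_exp_l1 (ι := Fin N) (√1)).const_mul 48).comp_snd
        (gauss (Edge N))).mono' (continuous_ET_vz P β a K lam u (fun ps => (Continuous.pow ?_ 4))).aestronglyMeasurable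
        (Eventually.of_forall fun x => ?_)
      · exact continuous_finsetSum _ fun k _ =>
          ((hb _ k).comp continuous_fst).mul ((continuous_apply k).comp continuous_snd)
      · rw [Real.norm_eq_abs]
        refine Vale.Agent.P168.MP.ET_bound (wp_pos P (fun σ => wgt_pos β a K lam _ _ σ) u) fun ps => ?_
        rw [abs_of_nonneg (Even.pow_nonneg (by decide) _)]
        exact (pow_four_le_cosh _).trans (mul_le_mul_of_nonneg_left (cosh_dot_le (hb1 _ _) _) (by norm_num))
    refine ⟨hI, ?_⟩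
    rw [integral_prod _ hI]
    refine (integral_mono hI.integral_prod_left (integrable_const _) fun g => ?_).trans_eq
      (by rw [integral_const, probReal_univ, one_smul])
    have h := (tilt_quart P.one_le (wp_pos P (fun σ => wgt_pos β a K lam 0 g σ) u) β (spinAt P.R)
      (b := fun p => b g (spinAt P.R p)) fun p => hb1 g _).2
    simpa only [wp_vz] using h
  have hA := fun i => one (fun g σ => fldA g i σ) (fun σ k => continuous_fldA i σ k) fun g σ => fldA_self g i σ
  have hB' := fun i => one (fun g σ => fldB g i σ) (fun σ k => continuous_fldB i σ k) fun g σ => fldB_self g i σ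
  have hab : ∀ i, Integrable (fun x : (Edge N → ℝ) × (Fin N → ℝ) =>
      (ET P.R (lin P.R) (P.wp (wgt β a K lam (vz β x.2) x.1) u) [(0, 0)]
          fun ps => dot (fldA x.1 i (spinAt P.R (ps.getD 0 []))) x.2 ^ 4) +
        ET P.R (lin P.R) (P.wp (wgt β a K lam (vz β x.2) x.1) u) [(0, 0)]
          fun ps => dot (fldB x.1 i (spinAt P.R (ps.getD 0 []))) x.2 ^ 4)
      ((gauss (Edge N)).prod (gauss (Fin N))) := fun i => (hA i).1.add (hB' i).1
  have hs := integrable_finsetSum (range K) fun i _ => hab i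
  unfold chErr
  refine ⟨(hi.const_mul _).add (hs.const_mul _), fun C hC => ?_⟩
  rw [integral_add (hi.const_mul _) (hs.const_mul _), integral_const_mul, integral_const_mul,
    integral_finsetSum (range K) fun i _ => hab i]
  refine add_le_add (mul_le_mul_of_nonneg_left hC (by positivity)) (mul_le_mul_of_nonneg_left ?_ (by positivity))
  refine (sum_le_sum (g := fun _ => 2 * (24 * (exp 2 + exp (2 * β ^ 2)))) fun i _ => ?_).trans_eq (by simp)
  rw [integral_add (hA i).1 (hB' i).1, two_mul]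
  exact add_le_add (hA i).2 (hB' i).2

/-- the profile of the base system -/
def qb (g : Edge N → ℝ) : ℕ → ℝ := qlev P.R (P.wp (wgt β a K lam 0 g) u) (spinAt P.R)

/-- the deviation of the base system -/
def ab (g : Edge N → ℝ) : ℝ :=
  adev P.R (P.wp (wgt β a K lam 0 g) u) (ovK (spinAt P.R)) (qb P β a K lam u g)

lemma integrable_ab : Integrable (ab P β a K lam u) (gauss (Edge N)) := by
  have hw : ∀ g p, 0 < P.wp (wgt β a K lam (0 : Cfg N → ℝ) g) u p := fun g =>
    wp_pos P (fun σ => wgt_pos β a K lam 0 g σ) u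
  refine (Vale.Agent.P157.Par.integrable_adev_of P.one_le fun l hl => ?_).1
  refine Integrable.of_bound (Vale.Agent.P157.Par.continuous_ET (continuous_wp P β a K lam 0 u) hw P.R _
    fun ps => (continuous_const.sub (continuous_qlev_wp P β a K lam 0 u l)).abs).aestronglyMeasurable 2
    (Eventually.of_forall fun g => ?_)
  rw [Real.norm_eq_abs, abs_of_nonneg (Vale.Agent.P157.Par.devOf_nn (hw g) l)]
  refine (Vale.Agent.P157.Par.devOf_le (hw g) hl (V := 1) (W := 1)
    (fun p p' => Vale.Agent.P157.Par.abs_ov_le _ _) ?_).trans_eq (by norm_num)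
  have := (qlev_wp_prof P (fun σ => wgt_pos β a K lam 0 g σ) u).1.upper hl
  rw [qb, abs_le]; constructor <;> linarith

/-- the energy of the tilted base system, minus its level value -/
def jT (x : (Edge N → ℝ) × (Fin N → ℝ)) : ℝ :=
  ET P.R (lin P.R) (P.wp (wgt β a K lam (vz β x.2) x.1) u) [(0, 0)]
      (fun ps => dv x.1 (spinAt P.R (ps.getD 0 []))) -
    lev β P.R (qlev P.R (P.wp (wgt β a K lam (vz β x.2) x.1) u) (spinAt P.R)) 1 P.R

lemma integrable_dT : Integrable (fun x : (Edge N → ℝ) × (Fin N → ℝ) => ET P.R (lin P.R)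
      (P.wp (wgt β a K lam (vz β x.2) x.1) u) [(0, 0)] fun ps => dv x.1 (spinAt P.R (ps.getD 0 [])))
    ((gauss (Edge N)).prod (gauss (Fin N))) := by
  have h := (eb_abs_entries (n := N) (A := fun g => cheb (Wm g) 1) (eb_cheb 1)).integrable
  refine ((h.div_const (N:ℝ)).comp_fst (gauss (Fin N))).mono'
    (continuous_ET_vz P β a K lam u fun ps => ((eb_bil (eb_cheb 1) _ _).1.div_const _).comp continuous_fst).aestronglyMeasurable
    (Eventually.of_forall fun x => ?_)
  rw [Real.norm_eq_abs]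
  refine Vale.Agent.P168.MP.ET_bound (wp_pos P (fun σ => wgt_pos β a K lam _ _ σ) u) fun ps => ?_
  rw [dv, abs_div, Nat.abs_cast]
  exact div_le_div_of_nonneg_right (abs_bil_le _ _ _) (Nat.cast_nonneg _)

lemma integrable_levT : Integrable (fun x : (Edge N → ℝ) × (Fin N → ℝ) =>
      lev β P.R (qlev P.R (P.wp (wgt β a K lam (vz β x.2) x.1) u) (spinAt P.R)) 1 P.R)
    ((gauss (Edge N)).prod (gauss (Fin N))) := by
  obtain ⟨C, hC⟩ := abs_lev_le β 1
  exact Integrable.of_bound (continuous_lev β P.R (q := fun x : (Edge N → ℝ) × (Fin N → ℝ) =>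
      qlev P.R (P.wp (wgt β a K lam (vz β x.2) x.1) u) (spinAt P.R))
      (fun l => continuous_ET_vz P β a K lam u fun _ => continuous_const) 1 P.R).aestronglyMeasurable C
    (Eventually.of_forall fun x =>
      hC _ _ P.one_le (qlev_wp_prof P (fun σ => wgt_pos β a K lam _ _ σ) u).1 _ le_rfl)

lemma integrable_s2 : Integrable (fun g => s2 P.R (qb P β a K lam u g)) (gauss (Edge N)) := by
  refine Integrable.of_bound (continuous_finsetSum _ fun l _ => continuous_const.mul
    ((continuous_qlev_wp P β a K lam 0 u l).pow 2)).aestronglyMeasurable 1 (Eventually.of_forall fun g => ?_)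
  have hq := qlev_wp_prof P (fun σ => wgt_pos β a K lam (0 : Cfg N → ℝ) g σ) u
  obtain ⟨h0, h1⟩ := s2_mem P.one_le hq.1 hq.2
  exact abs_le.2 ⟨le_trans (by norm_num) h0, h1⟩

lemma levT_le {β : ℝ} (hβ : 0 ≤ β) (g : Edge N → ℝ) (z : Fin N → ℝ) :
    lev β P.R (qlev P.R (P.wp (wgt β a K lam (vz β z) g) u) (spinAt P.R)) 1 P.R ≤
      β * s2 P.R (qb P β a K lam u g) + 2 * β * adev P.R
        (fun p => P.wp (wgt β a K lam 0 g) u p * yF β (spinAt P.R) z p) (ovK (spinAt P.R)) (qb P β a K lam u g) := by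
  rw [wp_vz, lev_one P.one_le]
  set w' := fun p => P.wp (wgt β a K lam (0 : Cfg N → ℝ) g) u p * yF β (spinAt P.R) z p
  have hw' : ∀ p, 0 < w' p := fun p =>
    mul_pos (wp_pos P (fun σ => wgt_pos β a K lam 0 g σ) u p) (yF_pos β (spinAt P.R) z p)
  have h1 := s2_lip P.one_le (Vale.Agent.P157.Par.qlev_prof (R := P.R) (rd := spinAt P.R) hw').1
    (qlev_wp_prof P (fun σ => wgt_pos β a K lam (0 : Cfg N → ℝ) g σ) u).1
  have h2 := dist1_qlev_le (R := P.R) hw' (spinAt P.R) (qb P β a K lam u g)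
  have h3 := mul_le_mul_of_nonneg_left ((le_abs_self _).trans (h1.trans
    (mul_le_mul_of_nonneg_left h2 zero_le_two))) hβ
  simp only [qb] at h3 ⊢
  linarith

lemma integrable_levZ (g : Edge N → ℝ) : Integrable (fun z : Fin N → ℝ =>
    lev β P.R (qlev P.R (P.wp (wgt β a K lam (vz β z) g) u) (spinAt P.R)) 1 P.R) (gauss (Fin N)) := by
  obtain ⟨C, hC⟩ := abs_lev_le β 1
  refine Integrable.of_bound (Continuous.aestronglyMeasurable ?_) C (Eventually.of_forall fun z =>
    hC _ _ P.one_le (qlev_wp_prof P (fun σ => wgt_pos β a K lam _ _ σ) u).1 _ le_rfl)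
  simp only [wp_vz]
  have hw := fun p => wp_pos P (fun σ => wgt_pos β a K lam (0 : Cfg N → ℝ) g σ) u p
  exact continuous_lev β P.R (q := fun z : Fin N → ℝ =>
      qlev P.R (fun p => P.wp (wgt β a K lam 0 g) u p * yF β (spinAt P.R) z p) (spinAt P.R))
    (fun l => Vale.Agent.P157.Par.continuous_ET (fun p => continuous_const.mul (continuous_yF β (spinAt P.R) p))
      (fun z p => mul_pos (hw p) (yF_pos β (spinAt P.R) z p)) P.R _ fun _ => continuous_const) 1 P.R

lemma integral_levT_le {β : ℝ} (hβ : 0 ≤ β) :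
    ∫ x : (Edge N → ℝ) × (Fin N → ℝ),
        lev β P.R (qlev P.R (P.wp (wgt β a K lam (vz β x.2) x.1) u) (spinAt P.R)) 1 P.R
        ∂(gauss (Edge N)).prod (gauss (Fin N)) ≤
      β * (∫ g, s2 P.R (qb P β a K lam u g) ∂gauss (Edge N)) +
        2 * β * exp (2 * β ^ 2) * ∫ g, ab P β a K lam u g ∂gauss (Edge N) := by
  have hs := (integrable_s2 (N := N) P β a K lam u).const_mul β
  have ha := (integrable_ab (N := N) P β a K lam u).const_mul (2 * β * exp (2 * β ^ 2))
  have hI := integrable_levT (N := N) P β a K lam u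
  rw [integral_prod _ hI, ← integral_const_mul, ← integral_const_mul, ← integral_add hs ha]
  refine integral_mono hI.integral_prod_left (hs.add ha) fun g => ?_
  obtain ⟨hi, he⟩ := tilt_adev P.one_le (wp_pos P (fun σ => wgt_pos β a K lam (0 : Cfg N → ℝ) g σ) u) β
    (spinAt P.R) (qb P β a K lam u g)
  refine (integral_mono (integrable_levZ P β a K lam u g) ((integrable_const _).add (hi.const_mul (2 * β)))
    (levT_le P a K lam u hβ g)).trans ?_
  simp only [Pi.add_apply]
  rw [integral_add (integrable_const _) (hi.const_mul _), integral_const, probReal_univ, one_smul, integral_const_mul]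
  have := mul_le_mul_of_nonneg_left he (show 0 ≤ 2 * β by linarith)
  simp only [ab]
  linarith

/-- one site at a fixed grid point -/
lemma site_grid {β : ℝ} (hβ : 0 ≤ β) {CV CL : ℝ}
    (hV : ∀ g : Edge N → ℝ, Phi cosh P.R (lin P.R) (fun l => β ^ 2 * qb P β a K lam u g l) -
        CV * (ab P β a K lam u g + 2 / ((N:ℝ) + 1)) ≤
      ∫ z, log (nest (lin P.R) (P.wp (wgt β a K lam 0 g) u) (yF β (spinAt P.R) z) P.R []) ∂gauss (Fin N))
    (hL : ∫ x, bigL x.1 x.2 ^ (8 * K) ∂(gauss (Edge N)).prod (gauss (Fin N)) ≤ CL) :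
    (∫ g, Vsk β P.R (qb P β a K lam u g) ∂gauss (Edge N)) -
        ((CV + β ^ 2 * exp (2 * β ^ 2)) * (∫ g, ab P β a K lam u g ∂gauss (Edge N)) +
          (1 - cs N) * N / 2 * β * (∫ x, jT P β a K lam u x ∂(gauss (Edge N)).prod (gauss (Fin N))) +
          (CV * (2 / ((N:ℝ) + 1)) + |lam| * ((∑ j ∈ range K, |a j|) * 3 ^ (K + 1)) *
              ((2 + 4 * (K : ℝ) ^ 2) * CL + 4 * K * (K * (2 * (24 * (exp 2 + exp (2 * β ^ 2)))))) +
            growC P.R P.S (allBatch P.R 2) / ((N : ℝ) + 1))) ≤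
      (∫ g, logZ0 P.R (lin P.R) (P.wp (wgt β a K lam 0 g) u) ∂gauss (Edge (N + 1))) -
        ∫ g, logZ0 P.R (lin P.R) (P.wp (wgt β a K lam 0 g) u) ∂gauss (Edge N) := by
  set μ := (gauss (Edge N)).prod (gauss (Fin N))
  set κ := (1 - cs N) * N / 2
  set w := fun g : Edge N → ℝ => P.wp (wgt β a K lam 0 g) u
  have hw : ∀ g p, 0 < w g p := fun g => wp_pos P (fun σ => wgt_pos β a K lam 0 g σ) u
  have iT0 := (eb_logZ0 (n := N + 1) P β a K lam 0 u).integrable
  have iT := (measurePreserving_join (N := N)).integrable_comp_of_integrable iT0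
  have iL := ((eb_logZ0 (n := N) P β a K lam 0 u).integrable).comp_fst (gauss (Fin N))
  have iN : Integrable (fun x : (Edge N → ℝ) × (Fin N → ℝ) =>
      log (nest (lin P.R) (w x.1) (yF β (spinAt P.R) x.2) P.R [])) μ := by
    have hl1 : Integrable (fun z : Fin N → ℝ => √(β ^ 2) * l1 z) (gauss (Fin N)) :=
      Vale.Agent.P150.integrable_of_bound (by unfold l1; fun_prop) (C := √(β ^ 2)) (M := 1) fun z => by
        rw [abs_mul, abs_of_nonneg (Real.sqrt_nonneg _), abs_of_nonneg (Vale.Agent.P150.l1_nonneg z), one_mul]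
        exact mul_le_mul_of_nonneg_left (le_trans (le_add_of_nonneg_right zero_le_one) (add_one_le_exp _))
          (Real.sqrt_nonneg _)
    refine (hl1.comp_snd (gauss (Edge N))).mono' ?_ (Eventually.of_forall fun x => ?_)
    · exact ((Vale.Agent.P157.Par.continuous_nest
        (fun p => (continuous_wp P β a K lam 0 u p).comp continuous_fst) (fun x => hw x.1)
        (fun p => (continuous_yF β (spinAt P.R) p).comp continuous_snd) (fun x => yF_pos β (spinAt P.R) x.2)
        P.R []).log fun x => (Vale.Agent.P168.MP.nest_pos (hw x.1) (yF_pos β _ x.2) P.R []).ne').aestronglyMeasurable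
    · rw [Real.norm_eq_abs]; exact log_nest_yF_bound P.one_le (hw x.1) β _ _
  have iD := integrable_dT (N := N) P β a K lam u
  obtain ⟨iE, eE⟩ := chErr_mean (N := N) P β a K lam u
  set Cb := (∑ j ∈ range K, |a j|) * 3 ^ (K + 1)
  have hm := integral_mono ((iL.add iN).sub (((iD.const_mul (κ * β)).add (iE.const_mul (|lam| * Cb))).add
    (integrable_const (growC P.R P.S (allBatch P.R 2) / ((N : ℝ) + 1))))) iT
    fun x => site_step P β a K lam u x.1 x.2
  simp only [Pi.add_apply, Pi.sub_apply, Function.comp_def] at hm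
  have eT : ∫ x, logZ0 P.R (lin P.R) (P.wp (wgt β a K lam 0 (join x.1 x.2)) u) ∂μ =
      ∫ g, logZ0 P.R (lin P.R) (P.wp (wgt β a K lam 0 g) u) ∂gauss (Edge (N + 1)) := by
    conv_rhs => rw [← (measurePreserving_join (N := N)).map_eq]
    exact (integral_map measurePreserving_join.measurable.aemeasurable
      ((measurePreserving_join (N := N)).map_eq ▸ iT0.aestronglyMeasurable)).symm
  rw [eT, integral_sub, integral_add iL iN, integral_add, integral_add, integral_const_mul, integral_const_mul,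
    integral_const, probReal_univ, one_smul,
    integral_fun_fst (fun g : Edge N → ℝ => logZ0 P.R (lin P.R) (P.wp (wgt β a K lam 0 g) u)),
    probReal_univ, one_smul] at hm
  rotate_left
  · exact iD.const_mul _
  · exact iE.const_mul _
  · exact (iD.const_mul _).add (iE.const_mul _)
  · exact integrable_const _
  · exact iL.add iN
  · exact ((iD.const_mul _).add (iE.const_mul _)).add (integrable_const _)
  have eD : ∫ x, ET P.R (lin P.R) (P.wp (wgt β a K lam (vz β x.2) x.1) u) [(0, 0)]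
      (fun ps => dv x.1 (spinAt P.R (ps.getD 0 []))) ∂μ =
      (∫ x, jT P β a K lam u x ∂μ) +
        ∫ x : (Edge N → ℝ) × (Fin N → ℝ),
          lev β P.R (qlev P.R (P.wp (wgt β a K lam (vz β x.2) x.1) u) (spinAt P.R)) 1 P.R ∂μ := by
    simp only [jT]
    rw [integral_sub iD (integrable_levT P β a K lam u), sub_add_cancel]
  have hN1 : ∫ x, log (nest (lin P.R) (w x.1) (yF β (spinAt P.R) x.2) P.R []) ∂μ ≥
      (∫ g, Vsk β P.R (qb P β a K lam u g) ∂gauss (Edge N)) +
        β ^ 2 / 4 * (∫ g, s2 P.R (qb P β a K lam u g) ∂gauss (Edge N)) -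
        CV * ((∫ g, ab P β a K lam u g ∂gauss (Edge N)) + 2 / ((N:ℝ) + 1)) := by
    have hq := fun g : Edge N → ℝ => qlev_wp_prof P (fun σ => wgt_pos β a K lam 0 g σ) u
    have hs := integrable_s2 (N := N) P β a K lam u
    have hv := (eb_vsk (n := N) P β a K lam 0 u).integrable
    have ha : Integrable (fun g => ab P β a K lam u g + 2 / ((N:ℝ) + 1)) (gauss (Edge N)) :=
      (integrable_ab P β a K lam u).add (integrable_const _)
    rw [integral_prod _ iN]
    refine le_trans (le_of_eq ?_) (integral_mono ((hv.add (hs.const_mul (β ^ 2 / 4))).sub (ha.const_mul CV))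
      iN.integral_prod_left fun g => ?_)
    · simp only [Pi.add_apply, Pi.sub_apply, qb]
      rw [integral_sub (f := fun g => Vsk β P.R (qlev P.R (P.wp (wgt β a K lam 0 g) u) (spinAt P.R)) +
          β ^ 2 / 4 * s2 P.R (qlev P.R (P.wp (wgt β a K lam 0 g) u) (spinAt P.R)))
          (hv.add (hs.const_mul _)) (ha.const_mul _), integral_add hv (by exact hs.const_mul _),
        integral_const_mul, integral_const_mul,
        integral_add (integrable_ab P β a K lam u) (integrable_const _), integral_const, probReal_univ, one_smul]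
    · refine le_trans (le_of_eq ?_) (hV g)
      simp only [Pi.add_apply, Pi.sub_apply, Vsk, s2, qb]
      ring
  obtain ⟨hk0, -, -, hk1⟩ := one_sub_cs N
  have hκ0 : 0 ≤ κ * β := by
    have := (one_sub_cs N).2.1
    have : 0 ≤ (1 - cs N) * N := mul_nonneg (by linarith) (Nat.cast_nonneg _)
    simp only [κ]; positivity
  have hκ1 : κ * β ≤ β / 4 := by
    have : κ ≤ 1 / 4 := by simp only [κ]; linarith
    linarith [mul_le_mul_of_nonneg_right this hβ]
  have hS : 0 ≤ ∫ g, s2 P.R (qb P β a K lam u g) ∂gauss (Edge N) := integral_nonneg fun g =>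
    (s2_mem P.one_le (qlev_wp_prof P (fun σ => wgt_pos β a K lam 0 g σ) u).1
      (qlev_wp_prof P (fun σ => wgt_pos β a K lam 0 g σ) u).2).1
  have hA : 0 ≤ ∫ g, ab P β a K lam u g ∂gauss (Edge N) :=
    integral_nonneg fun g => Vale.Agent.P157.Par.adev_nn (hw g)
  set S := ∫ g, s2 P.R (qb P β a K lam u g) ∂gauss (Edge N)
  set A := ∫ g, ab P β a K lam u g ∂gauss (Edge N)
  have hlev := mul_le_mul_of_nonneg_left (integral_levT_le (N := N) P a K lam u hβ) hκ0
  have hlev2 := mul_le_mul_of_nonneg_right hκ1 (show 0 ≤ β * S + 2 * β * exp (2 * β ^ 2) * A by positivity)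
  have hE := mul_le_mul_of_nonneg_left (eE CL hL)
    (show 0 ≤ |lam| * Cb by have : 0 ≤ Cb := mul_nonneg (sum_nonneg fun _ _ => abs_nonneg _) (by positivity); positivity)
  have hp : 0 ≤ β ^ 2 * exp (2 * β ^ 2) * A := by positivity
  rw [eD] at hm
  simp only [w] at hN1 hm
  linarith

end mean

/-- Vale.Agent.P168.MP.avg commutes with the integral -/
lemma integral_avg' {ι : Type*} [Fintype ι] {X : Type*} [MeasurableSpace X] {μ : Measure X} {F : ι → X → ℝ}
    (h : ∀ i, Integrable (F i) μ) : ∫ x, Vale.Agent.P168.MP.avg (fun i => F i x) ∂μ = Vale.Agent.P168.MP.avg fun i => ∫ x, F i x ∂μ := by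
  simp only [Vale.Agent.P168.MP.avg, integral_div, integral_finsetSum _ fun i _ => h i]

/-- **One more site**, given the energy of the perturbed system -/
theorem site_of {β : ℝ} (hβ : 0 ≤ β) (a : ℕ → ℝ) (K : ℕ)
    (hdiag : ∃ C : ℝ, 0 ≤ C ∧ ∀ (P : Par) (δ : ℝ), 0 ≤ δ → P.Good δ → ∀ (n : ℕ) [NeZero n] (lam : ℝ),
      |lam| ≤ 1 → ∀ v : Cfg n → ℝ,
      |P.diag n β a K lam v 1 -
        P.mean (n := n) β a K lam v (fun _ w => lev β P.R (qlev P.R w (spinAt P.R)) 1 P.R)| ≤
        C * (√δ + |lam| + 1 / √√(n : ℝ))) :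
    ∃ C : ℝ, 0 ≤ C ∧ ∀ ε : ℝ, 0 < ε →
      ∃ δ : ℝ, 0 < δ ∧ ∀ P : Par, P.Good δ → ∀ᶠ n : ℕ in atTop, ∀ lam : ℝ, |lam| ≤ 1 →
        P.mean (n := n + 1) β a K lam 0 (fun _ w => Vsk β P.R (qlev P.R w (spinAt P.R))) - (ε + C * |lam|) ≤
          P.free (n + 2) β a K lam - P.free (n + 1) β a K lam := by
  obtain ⟨CT, hCT, hT⟩ := hdiag
  obtain ⟨CV, hCV, hV⟩ := value_yF β
  obtain ⟨CL, hCL, hL⟩ := bigL_pow (8 * K)
  set Cch := ((∑ j ∈ range K, |a j|) * 3 ^ (K + 1)) *
    ((2 + 4 * (K : ℝ) ^ 2) * CL + 4 * K * (K * (2 * (24 * (exp 2 + exp (2 * β ^ 2))))))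
  have hCch : 0 ≤ Cch := mul_nonneg (mul_nonneg (sum_nonneg fun _ _ => abs_nonneg _) (by positivity)) (by positivity)
  set C1 := CV + β ^ 2 * exp (2 * β ^ 2) + β / 4 * CT + 1
  have hC1 : 0 < C1 := by positivity
  refine ⟨Cch + β / 4 * CT, by positivity, fun ε hε => ?_⟩
  refine ⟨min 1 ((ε / (2 * C1)) ^ 2), lt_min one_pos (by positivity), fun P hP => ?_⟩
  set δ := min 1 ((ε / (2 * C1)) ^ 2)
  have hδ : 0 < δ := lt_min one_pos (by positivity)
  have hδ1 : δ ≤ √δ := by
    have h1 : √δ ≤ 1 := Real.sqrt_le_one.2 (min_le_left _ _)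
    calc δ = √δ * √δ := (Real.mul_self_sqrt hδ.le).symm
      _ ≤ _ := mul_le_of_le_one_left (Real.sqrt_nonneg _) h1
  have hδ2 : C1 * √δ ≤ ε / 2 := by
    have h : √δ ≤ ε / (2 * C1) := (Real.sqrt_le_sqrt (min_le_right _ _)).trans_eq (Real.sqrt_sq (by positivity))
    exact (mul_le_mul_of_nonneg_left h hC1.le).trans_eq (by field_simp)
  set G := growC P.R P.S (allBatch P.R 2)
  have hG : 0 ≤ G := by simp only [G, growC]; positivity
  have hlim : Tendsto (fun n : ℕ => (2 * CV + G + β / 4 * CT) * (1 / √√((n : ℝ) + 1))) atTop (nhds 0) := by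
    simpa using (tendsto_const_nhds (x := (1:ℝ))).div_atTop (Real.tendsto_sqrt_atTop.comp
      (Real.tendsto_sqrt_atTop.comp (tendsto_atTop_add_const_right _ (1:ℝ) tendsto_natCast_atTop_atTop)))
      |>.const_mul (2 * CV + G + β / 4 * CT)
  filter_upwards [hlim.eventually_le_const (half_pos hε)] with n hn lam hlam
  have : Nonempty P.Grid := ⟨fun _ => ⟨0, P.M_pos⟩⟩
  set N := n + 1
  set μ := (gauss (Edge N)).prod (gauss (Fin N))
  have hN : ((N : ℝ)) = (n:ℝ) + 1 := by simp [N]
  set r := 1 / √√((n : ℝ) + 1)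
  have hr : 0 ≤ r := by positivity
  have hr1 : 1 / ((N:ℝ) + 1) ≤ r := by
    have h1 : (1:ℝ) ≤ (n:ℝ) + 1 := by linarith [Nat.cast_nonneg (α := ℝ) n]
    refine one_div_le_one_div_of_le (Real.sqrt_pos.2 (Real.sqrt_pos.2 (by linarith))) ?_
    have h2 : ∀ y : ℝ, 1 ≤ y → √y ≤ y := fun y hy => by
      rw [Real.sqrt_le_left (by linarith)]; exact le_self_pow₀ hy two_ne_zero
    rw [hN]
    linarith [h2 _ (Real.one_le_sqrt.2 h1), h2 _ h1]
  set Vu := fun u : P.Grid => ∫ g, Vsk β P.R (qb P β a K lam u g) ∂gauss (Edge N)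
  set Au := fun u : P.Grid => ∫ g, ab P β a K lam u g ∂gauss (Edge N)
  set Ju := fun u : P.Grid => ∫ x, jT P β a K lam u x ∂μ
  have key := Vale.Agent.P168.MP.avg_le_avg fun u : P.Grid =>
    site_grid (N := N) P a K lam u hβ
      (fun g => hV P.one_le (wp_pos P (fun σ => wgt_pos β a K lam 0 g σ) u) (spinAt P.R)) (hL N).2
  -- the deviations
  have hA : Vale.Agent.P168.MP.avg Au ≤ δ := by
    rw [show Vale.Agent.P168.MP.avg Au = ∫ g, Vale.Agent.P168.MP.avg (fun u : P.Grid => ab P β a K lam u g) ∂gauss (Edge N) from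
      (integral_avg' fun u => integrable_ab P β a K lam u).symm]
    refine (integral_mono ?_ (integrable_const δ) fun g => ?_).trans_eq
      (by rw [integral_const, probReal_univ, one_smul])
    · exact (integrable_finsetSum univ fun u _ => integrable_ab P β a K lam u).div_const _
    · exact hP N (wgt β a K lam 0 g) (fun x => wgt_pos β a K lam 0 g x)
  -- the energy
  set err := CT * (√δ + |lam| + r)
  have herr : 0 ≤ err := by positivity
  have hJ : Vale.Agent.P168.MP.avg Ju ≤ err := by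
    have iJ : ∀ u : P.Grid, Integrable (jT (N := N) P β a K lam u) μ := fun u =>
      (integrable_dT P β a K lam u).sub (integrable_levT P β a K lam u)
    have e : Vale.Agent.P168.MP.avg Ju = ∫ z : Fin N → ℝ, Vale.Agent.P168.MP.avg (fun u : P.Grid => ∫ g, jT P β a K lam u (g, z) ∂gauss (Edge N))
        ∂gauss (Fin N) := by
      rw [integral_avg' fun u => (iJ u).integral_prod_right]
      exact congrArg Vale.Agent.P168.MP.avg (funext fun u => integral_prod_symm _ (iJ u))
    rw [e]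
    refine (integral_mono ?_ (integrable_const err) fun z => ?_).trans_eq
      (by rw [integral_const, probReal_univ, one_smul])
    · exact (integrable_finsetSum univ fun u _ => (iJ u).integral_prod_right).div_const _
    · have h := (abs_le.1 (hT P δ hδ.le hP N lam hlam (vz β z))).2
      rw [hN] at h
      refine le_trans (le_of_eq ?_) h
      have hd : ∀ u : P.Grid, Integrable (fun g : Edge N → ℝ => ET P.R (lin P.R)
          (P.wp (wgt β a K lam (vz β z) g) u) [(0, 0)] fun ps => dv g (spinAt P.R (ps.getD 0 [])))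
          (gauss (Edge N)) := fun u =>
        (eb_ET P β a K lam (vz β z) u (fun ps => (eb_bil (eb_cheb 1) _ _).1.div_const _)
          ((eb_abs_entries (eb_cheb 1)).mul (EB.const (1 / (N:ℝ)))) fun g ps => by
            rw [abs_div, Nat.abs_cast, mul_one_div]
            exact div_le_div_of_nonneg_right (abs_bil_le _ _ _) (Nat.cast_nonneg _)).integrable
      simp only [jT, integral_sub (hd _) (eb_lev P β a K lam (vz β z) _ 1).integrable]
      simp only [Par.diag, Par.mean, Vale.Agent.P168.MP.avg, sum_sub_distrib, sub_div]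
      rfl
  -- assemble
  have hk := one_sub_cs N
  have hκ0 : 0 ≤ (1 - cs N) * N / 2 * β := by
    have : 0 ≤ (1 - cs N) * N := mul_nonneg (by linarith [hk.2.1]) (Nat.cast_nonneg _)
    positivity
  have hκ1 : (1 - cs N) * N / 2 * β ≤ β / 4 := by
    linarith [mul_le_mul_of_nonneg_right (show (1 - cs N) * N / 2 ≤ 1 / 4 by linarith [hk.2.2.2]) hβ]
  have hκJ : (1 - cs N) * N / 2 * β * Vale.Agent.P168.MP.avg Ju ≤ β / 4 * err :=
    (mul_le_mul_of_nonneg_left hJ hκ0).trans (mul_le_mul_of_nonneg_right hκ1 herr)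
  have hA' := mul_le_mul_of_nonneg_left (hA.trans hδ1) (show 0 ≤ CV + β ^ 2 * exp (2 * β ^ 2) by positivity)
  set cst := CV * (2 / ((N:ℝ) + 1)) + |lam| * ((∑ j ∈ range K, |a j|) * 3 ^ (K + 1)) *
      ((2 + 4 * (K : ℝ) ^ 2) * CL + 4 * K * (K * (2 * (24 * (exp 2 + exp (2 * β ^ 2)))))) + G / ((N : ℝ) + 1)
  have hcst : cst ≤ (2 * CV + G) * r + Cch * |lam| := by
    have h1 := mul_le_mul_of_nonneg_left hr1 (show 0 ≤ 2 * CV + G by positivity)
    have h2 : cst = (2 * CV + G) * (1 / ((N:ℝ) + 1)) + Cch * |lam| := by simp only [cst, Cch]; ring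
    linarith
  have e1 : Vale.Agent.P168.MP.avg (fun u : P.Grid => Vu u - ((CV + β ^ 2 * exp (2 * β ^ 2)) * Au u +
      (1 - cs N) * N / 2 * β * Ju u + cst)) =
      Vale.Agent.P168.MP.avg Vu - ((CV + β ^ 2 * exp (2 * β ^ 2)) * Vale.Agent.P168.MP.avg Au + (1 - cs N) * N / 2 * β * Vale.Agent.P168.MP.avg Ju + cst) := by
    rw [← avg_affine Au Ju]
    simp only [Vale.Agent.P168.MP.avg, sum_sub_distrib, sub_div]
  have key' : Vale.Agent.P168.MP.avg Vu - ((CV + β ^ 2 * exp (2 * β ^ 2)) * Vale.Agent.P168.MP.avg Au + (1 - cs N) * N / 2 * β * Vale.Agent.P168.MP.avg Ju + cst) ≤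
      P.free (n + 2) β a K lam - P.free (n + 1) β a K lam := by
    rw [← e1]
    refine key.trans_eq ?_
    simp only [Par.free, Par.mean, Vale.Agent.P168.MP.avg, sum_sub_distrib, sub_div]
    rfl
  have hVmean : P.mean (n := n + 1) β a K lam 0 (fun _ w => Vsk β P.R (qlev P.R w (spinAt P.R))) = Vale.Agent.P168.MP.avg Vu := rfl
  rw [hVmean]
  have hs := Real.sqrt_nonneg δ
  simp only [C1, err, r] at *
  linarith

end Vale.Agent.P146.Lower
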