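import Vale.Agent.P146.Lower.Defs
import Vale.Agent.P157.Par.UpperEnds
import Vale.Agent.P157.Par.UpperBin
import Vale.Agent.P157.Par.InterpDeriv
import Vale.Agent.P157.Par.NodeLim
import Vale.Agent.P157.Par.Upper

/-! P146 lower bound: the Guerra bound for the SK free energy, by interpolation between the couplings
and the node fields of a profile. The collisions of the labels are sent to zero. -/

open MeasureTheory ProbabilityTheory Finset Filter
open scoped Topology
open Vale.Agent.P150 (gauss dot)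
open Vale.Agent.P146 (Edge bond energy spin Cfg)
open Vale.Agent.P168 (sg)
open Vale.Agent.P168.MP (lin Ok Valid Supp ET att nest logZ0 Z avg)
open Vale.Agent.P157.Lim (cvec)

noncomputable section

namespace Vale.Agent.P157.Par.SK

variable {n k R : ℕ}

lemma spin_eq (b : Bool) : spin b = sg b := by cases b <;> simp [spin, sg]

lemma edge_sum (u : Fin n → ℝ) (hu : ∀ i, u i * u i = 1) :
    2 * ∑ e : Edge n, u e.1.1 * u e.1.2 = (∑ i, u i) ^ 2 - n := by
  set F : Fin n × Fin n → ℝ := fun p => if p.1 < p.2 then u p.1 * u p.2 else 0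
  have he : ∑ e : Edge n, u e.1.1 * u e.1.2 = ∑ p, F p := by
    rw [← sum_filter, Finset.sum_subtype (p := fun p : Fin n × Fin n => p.1 < p.2) (univ.filter fun p : Fin n × Fin n => p.1 < p.2) (by simp)]
  have hs : ∑ p : Fin n × Fin n, F p.swap = ∑ p, F p := (Equiv.prodComm _ _).sum_comp F
  have hd : ∑ p : Fin n × Fin n, (if p.1 = p.2 then u p.1 * u p.2 else 0) = n := by
    simp [Fintype.sum_prod_type, hu]
  have hsplit : ∀ p : Fin n × Fin n,
      u p.1 * u p.2 = F p + F p.swap + if p.1 = p.2 then u p.1 * u p.2 else 0 := fun p => by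
    rcases lt_trichotomy p.1 p.2 with h | h | h
    · simp [F, h, h.not_gt, h.ne]
    · simp [F, h]
    · simp [F, h, h.not_gt, h.ne', mul_comm (u p.2)]
  have htot : (∑ i, u i) ^ 2 = ∑ p : Fin n × Fin n, u p.1 * u p.2 := by
    rw [sq, sum_mul_sum, Fintype.sum_prod_type]
  rw [htot, sum_congr rfl fun p _ => hsplit p, sum_add_distrib, sum_add_distrib, hs, hd, he]
  ring

/-- coefficients of the couplings -/
def edgeVec (β : ℝ) (R : ℕ) (p : List (Site n (k + 1))) (e : Edge n) : ℝ :=
  β / √(n : ℝ) * bond (spins R p) e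

/-- coefficients of the node fields -/
def siteB (β : ℝ) (R : ℕ) (q : ℕ → ℝ) (p : List (Site n (k + 1))) (ik : Fin n × Ix R k) : ℝ :=
  siteVec R (fun x => node R (fun l => β ^ 2 * q l) x) p ik

lemma cv_edge [NeZero n] (β : ℝ) (p p' : List (Site n (k + 1))) :
    cv (edgeVec β R) p p' =
      β ^ 2 / (2 * n) * ((∑ i, sg (spins R p i) * sg (spins R p' i)) ^ 2 - n) := by
  have hn : (0 : ℝ) < n := Nat.cast_pos.2 (NeZero.pos n)
  rw [← edge_sum (fun i => sg (spins R p i) * sg (spins R p' i)) fun i => by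
    rw [mul_mul_mul_comm, sg_mul_self, sg_mul_self, one_mul]]
  simp only [cv, dot, edgeVec, bond, spin_eq, mul_sum]
  refine sum_congr rfl fun e _ => ?_
  calc _ = β ^ 2 / (√(n : ℝ) * √(n : ℝ)) *
        (sg (spins R p e.1.1) * sg (spins R p' e.1.1) * (sg (spins R p e.1.2) * sg (spins R p' e.1.2))) := by
        ring
    _ = _ := by rw [Real.mul_self_sqrt hn.le]; field_simp

variable {β : ℝ} {q : ℕ → ℝ}

lemma edge_self_le [NeZero n] (p : List (Site n (k + 1))) :
    dot (edgeVec β R p) (edgeVec β R p) ≤ n * β ^ 2 := by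
  show cv (edgeVec β R) p p ≤ _
  rw [cv_edge]
  have hn : (0 : ℝ) < n := Nat.cast_pos.2 (NeZero.pos n)
  simp only [sg_mul_self, sum_const, card_univ, Fintype.card_fin, nsmul_eq_mul, mul_one]
  rw [div_mul_eq_mul_div, div_le_iff₀ (by positivity)]
  nlinarith [sq_nonneg β, mul_nonneg (sq_nonneg β) hn.le, mul_nonneg (sq_nonneg β) (sq_nonneg (n : ℝ))]

lemma nodeB (hq : Prof R q 1) :
    NodeVec R (fun l => β ^ 2 * q l) fun x : List (Fin (k + 1)) => node R (fun l => β ^ 2 * q l) x :=
  nodeVec_node (hq.scale (sq_nonneg β))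

/-- a pair of replicas splitting at level `l` -/
lemma dd_ge [NeZero n] (hq : Prof R q 1) (h1 : q R = 1) {l : ℕ} (hl : l < R)
    {ps : List (List (Site n (k + 1)))} (hs : Supp R [(0, l), (0, 0)] ps) :
    -(β ^ 2 * (1 + n * q l ^ 2) / 2) - 2 * β ^ 2 * ∑ i, coll i l ps ≤
      dd (edgeVec β R) (siteB β R q) (ps.getD 1 []) (ps.getD 0 []) := by
  have hn : (0 : ℝ) < n := Nat.cast_pos.2 (NeZero.pos n)
  have hv := nodeB (β := β) (k := k) hq
  have e := hs.2.2 0 1 (by simp) (by simp)
  simp only [show Vale.Agent.P168.MP.sp R [(0, l), (0, 0)] 0 1 = l by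
    simp [Vale.Agent.P168.MP.sp, hl.le]] at e
  have l0 := hs.2.1 0 (show 0 < ([(0, l), (0, 0)] : List (ℕ × ℕ)).length by simp)
  have l1 := hs.2.1 1 (show 1 < ([(0, l), (0, 0)] : List (ℕ × ℕ)).length by simp)
  have hb : cv (siteB β R q) (ps.getD 1 []) (ps.getD 0 []) ≤
      ∑ i, (β ^ 2 * q l * (sg (spins R (ps.getD 1 []) i) * sg (spins R (ps.getD 0 []) i)) +
        2 * β ^ 2 * coll i l ps) := by
    show cv (siteVec R _) _ _ ≤ _
    rw [cv_siteVec l1 l0]
    refine sum_le_sum fun i _ => ?_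
    set x := labs i (ps.getD 1 [])
    set y := labs i (ps.getD 0 [])
    by_cases hc : (((ps.getD 1 []).getD l fun _ => (false, 0)) i).2 =
        (((ps.getD 0 []).getD l fun _ => (false, 0)) i).2
    · rw [coll, if_pos hc, mul_one]
      have hd := abs_le.1 (abs_dot_node hv x y)
      simp only [h1, mul_one] at hd
      have hb2 := mul_nonneg (sq_nonneg β) (hq.upper hl.le).1
      have hb3 := mul_le_mul_of_nonneg_left (hq.upper hl.le).2 (sq_nonneg β)
      rcases mul_self_eq_one_iff.1 (show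
          (sg (spins R (ps.getD 1 []) i) * sg (spins R (ps.getD 0 []) i)) *
            (sg (spins R (ps.getD 1 []) i) * sg (spins R (ps.getD 0 []) i)) = 1 by
        rw [mul_mul_mul_comm, sg_mul_self, sg_mul_self, one_mul]) with h | h <;> rw [h] <;> linarith
    · rw [coll, if_neg hc, mul_zero, add_zero, hv.split l hl x y ((List.length_map ..).trans l1)
        ((List.length_map ..).trans l0) (by simp only [x, y, labs, ← List.map_take]; rw [e]) ?_]
      · exact le_of_eq (by ring)
      have e0 : ∀ p : List (Site n (k + 1)), p.length = R →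
          (labs i p).getD l 0 = ((p.getD l fun _ => (false, 0)) i).2 := fun p hp => by
        rw [List.getD_eq_getElem _ _ (by simp [labs, hp, hl]),
          List.getD_eq_getElem _ _ (hp ▸ hl)]
        simp [labs]
      rw [e0 _ l1, e0 _ l0]
      exact hc
  rw [sum_add_distrib, ← mul_sum, ← mul_sum] at hb
  rw [dd, cv_edge]
  set S := ∑ i, sg (spins R (ps.getD 1 []) i) * sg (spins R (ps.getD 0 []) i)
  have key : β ^ 2 / (2 * n) * (S ^ 2 - n) - β ^ 2 * q l * S =
      β ^ 2 / (2 * n) * (S - n * q l) ^ 2 - β ^ 2 * (1 + n * q l ^ 2) / 2 := by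
    field_simp
    ring
  have h0 : 0 ≤ β ^ 2 / (2 * n) * (S - n * q l) ^ 2 := by positivity
  linarith

/-- the diagonal -/
lemma dd_top [NeZero n] (hq : Prof R q 1) (h1 : q R = 1) {p : List (Site n (k + 1))} (hp : p.length = R) :
    dd (edgeVec β R) (siteB β R q) p p = -(β ^ 2 * ((n : ℝ) + 1) / 2) := by
  have hn : (n : ℝ) ≠ 0 := Nat.cast_ne_zero.2 (NeZero.ne n)
  rw [dd, cv_edge, show cv (siteB β R q) p p = n * (β ^ 2 * q R) from cv_siteVec_self (nodeB hq) hp, h1]
  simp only [sg_mul_self, sum_const, card_univ, Fintype.card_fin, nsmul_eq_mul, mul_one]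
  field_simp
  ring

lemma sd_id : Sd id (fun _ => 1) (fun _ => 0) (fun _ => 0) 1 where
  d0 x := hasDerivAt_id x
  d1 x := hasDerivAt_const x 1
  d2 x := hasDerivAt_const x 0
  cont3 := continuous_const
  b1 _ := by simp
  b2 _ := by simp
  b3 _ := by simp

/-- the collisions vanish with the number of labels, whatever the Gaussian field -/
lemma coll_bound {ι : Type} [Fintype ι] [NeZero n] (hR : 1 ≤ R)
    (c : (Fin R → Site n (k + 1)) → ι → ℝ) {V : ℝ} (hV : ∀ s, dot (c s) (c s) ≤ V) (i : Fin n)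
    {l : ℕ} (hl : l < R) :
    ∫ g, ET R (lin R) (Wz R (fun _ => (1 : ℝ)) id fun s => dot (c s) g) [(0, l), (0, 0)] (coll i l)
      ∂gauss ι ≤ collK n R V 0 / √((k + 1 : ℕ) : ℝ) := by
  set m := 2 * n * R
  obtain ⟨hI, hIn⟩ := integral_exp_fmax c hV (show (0 : ℝ) ≤ 4 by norm_num) m
  have hle : ∀ g, ET R (lin R) (Wz R (fun _ => (1 : ℝ)) id fun s => dot (c s) g) [(0, l), (0, 0)] (coll i l) ≤
      1 / ((k + 1 : ℕ) : ℝ) * Real.exp (4 * fmax c g) := fun g => by
    have hb : ∀ p : List (Site n (k + 1)), Real.exp (-fmax c g) ≤ Real.exp (id (dot (c (idx R p)) g)) ∧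
        Real.exp (id (dot (c (idx R p)) g)) ≤ Real.exp (fmax c g) := fun p =>
      ⟨Real.exp_le_exp.2 (abs_le.1 (le_fmax c g _)).1, Real.exp_le_exp.2 (abs_le.1 (le_fmax c g _)).2⟩
    have key := ET_tilt_le (ok_linW hR (w := fun _ => (1 : ℝ)) fun _ => one_pos) (Real.exp_pos _) hb hl.le
      (H := coll i l) (coll_nonneg i l)
    refine key.trans (le_of_eq ?_)
    have e := ET_one_collision (R := R) (m := lin R) (fun _ => (false, 0))
      (fun o : Site n (k + 1) => (o i).2) (δ := 1 / ((k + 1 : ℕ) : ℝ)) (avg_label i) hl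
    unfold coll
    rw [e, ← Real.exp_sub, ← Real.exp_nat_mul,
      show ((2 : ℕ) : ℝ) * (fmax c g - -fmax c g) = 4 * fmax c g by push_cast; ring, mul_comm]
  refine (integral_mono_of_nonneg (Eventually.of_forall fun g =>
    Vale.Agent.P168.MP.ET_nonneg (fun p => mul_pos one_pos (Real.exp_pos _)) (coll_nonneg i l))
    (hI.const_mul _) (Eventually.of_forall hle)).trans ?_
  rw [integral_const_mul]
  set I := ∫ g, Real.exp (4 * fmax c g) ∂gauss ι
  set L : ℝ := ((k + 1 : ℕ) : ℝ) with hLdef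
  have hL : (0 : ℝ) < L := by positivity
  have hsL : 0 < √L := Real.sqrt_pos.2 hL
  have hcard : (Fintype.card (Fin R → Site n (k + 1)) : ℝ) = 2 ^ (n * R) * √L ^ m := by
    simp only [Site, Fintype.card_fun, Fintype.card_prod, Fintype.card_bool, Fintype.card_fin]
    rw [← pow_mul, show m = 2 * (n * R) by ring, pow_mul √L, Real.sq_sqrt hL.le, hLdef]
    push_cast; rw [mul_pow, mul_comm]
  have hroot : I / √L ≤
      max 1 (2 ^ (n * R) * (2 * Real.exp (((m : ℝ) * 4) ^ 2 * V / 2))) := by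
    rcases le_or_gt (I / √L) 1 with h1 | h1
    · exact h1.trans (le_max_left _ _)
    have hm : m ≠ 0 := Nat.mul_ne_zero (Nat.mul_ne_zero two_ne_zero (NeZero.ne n)) (by omega)
    refine (le_self_pow₀ h1.le hm).trans (le_trans ?_ (le_max_right _ _))
    rw [div_pow, div_le_iff₀ (pow_pos hsL _)]
    refine hIn.trans (le_of_eq ?_)
    rw [hcard]; ring
  calc 1 / L * I = I / √L / √L := by rw [div_div, Real.mul_self_sqrt hL.le]; ring
    _ ≤ _ := by
      refine div_le_div_of_nonneg_right (hroot.trans_eq ?_) hsL.le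
      simp [collK, m]

lemma cvec_self_le [NeZero n] (hq : Prof R q 1) (h1 : q R = 1) {t : ℝ} (h0 : 0 ≤ t) (ht : t ≤ 1)
    (s : Fin R → Site n (k + 1)) :
    dot (cvec (fun s : Fin R → Site n (k + 1) => edgeVec β R (List.ofFn s))
        (fun s => siteB β R q (List.ofFn s)) t s)
      (cvec (fun s : Fin R → Site n (k + 1) => edgeVec β R (List.ofFn s))
        (fun s => siteB β R q (List.ofFn s)) t s) ≤ n * β ^ 2 := by
  have ha := edge_self_le (β := β) (R := R) (List.ofFn s)
  have hb : dot (siteB β R q (List.ofFn s)) (siteB β R q (List.ofFn s)) ≤ n * β ^ 2 := by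
    exact (dot_siteVec_self_le (nodeB (β := β) (k := k) hq) (List.ofFn s)).trans_eq (by simp [h1])
  have e : ∀ (X : ℝ) (x : ℝ), √X * x * (√X * x) = √X * √X * (x * x) := fun _ _ => by ring
  simp only [dot, cvec, Fintype.sum_sum_type, Sum.elim_inl, Sum.elim_inr, e,
    Real.mul_self_sqrt h0, Real.mul_self_sqrt (sub_nonneg.2 ht), ← mul_sum] at ha hb ⊢
  nlinarith [mul_le_mul_of_nonneg_left ha h0, mul_le_mul_of_nonneg_left hb (sub_nonneg.2 ht)]

lemma val_one (T : List (ℕ × ℕ)) (Ψ : List (List (Site n (k + 1))) → ℝ)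
    (z : (Fin R → Site n (k + 1)) → ℝ) :
    val R (lin R) (fun _ => (1 : ℝ)) id (fun _ => 1) (fun _ => 0) (fun _ => 0) T [1, 1] Ψ z =
      ET R (lin R) (Wz R (fun _ => (1 : ℝ)) id z) T Ψ := by
  simp [val, tv, Dk, prod_range_succ]

/-- the bound of the derivative at one field -/
lemma slope_le [NeZero n] (hR : 1 ≤ R) (hq : Prof R q 1) (h1 : q R = 1)
    (z : (Fin R → Site n (k + 1)) → ℝ) :
    ((chl R (lin R) [(0, 0)] [1]).map fun ch => ch.c *
        val R (lin R) (fun _ => (1 : ℝ)) id (fun _ => 1) (fun _ => 0) (fun _ => 0) ch.T ch.ks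
          (fun ps => dd (edgeVec β R) (siteB β R q) (ps.getD ch.i []) (ps.getD 0 [])) z).sum ≤
      -(n * β ^ 2 / 2 * ∑ l ∈ range (R + 1), coef R l * q l ^ 2) +
        2 * β ^ 2 / R * ∑ l ∈ range R, ∑ i : Fin n,
          val R (lin R) (fun _ => (1 : ℝ)) id (fun _ => 1) (fun _ => 0) (fun _ => 0)
            [(0, l), (0, 0)] [1, 1] (coll i l) z := by
  set w := Wz R (fun _ : List (Site n (k + 1)) => (1 : ℝ)) id z
  have hw : ∀ p, 0 < w p := fun p => mul_pos one_pos (Real.exp_pos _)
  have hok := ok_linW hR (w := fun _ : List (Site n (k + 1)) => (1 : ℝ)) fun _ => one_pos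
  set Φ : ℕ × ℕ → ℝ := fun x => ET R (lin R) w [x, (0, 0)]
    fun ps => dd (edgeVec β R) (siteB β R q) (ps.getD 1 []) (ps.getD 0 [])
  have e : ((chl R (lin R) [(0, 0)] [1]).map fun ch => ch.c *
        val R (lin R) (fun _ => (1 : ℝ)) id (fun _ => 1) (fun _ => 0) (fun _ => 0) ch.T ch.ks
          (fun ps => dd (edgeVec β R) (siteB β R q) (ps.getD ch.i []) (ps.getD 0 [])) z).sum =
      ((att R (lin R) [(0, 0)]).map fun c => c.2 * Φ c.1).sum := by
    have e2 : nxt 1 = 2 := rfl
    have e3 : ∀ Ψ : List (List (Site n (k + 1))) → ℝ,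
        val R (lin R) (fun _ => (1 : ℝ)) id (fun _ => 1) (fun _ => 0) (fun _ => 0) [(0, 0)] [2] Ψ z = 0 :=
      fun Ψ => by
        simp only [val, tv, List.length_singleton, prod_range_one, List.getD_cons_zero, Dk, mul_zero]
        exact Vale.Agent.P168.MP.ET_const hw _ _
    simp [chl, Function.comp_def, e2, e3, val_one, Φ, w]
  rw [e, att_single_sum hR hok.top hok.last Φ]
  have hl : ∀ l ∈ range R, cf (lin R) l * Φ (0, l) ≤ 1 / (R : ℝ) *
      (β ^ 2 * (1 + n * q l ^ 2) / 2 + 2 * β ^ 2 * ∑ i : Fin n,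
        val R (lin R) (fun _ => (1 : ℝ)) id (fun _ => 1) (fun _ => 0) (fun _ => 0)
          [(0, l), (0, 0)] [1, 1] (coll i l) z) := fun l hl => by
    have hlR := mem_range.1 hl
    have hT : Valid R [(0, l), (0, 0)] := ⟨Nat.zero_lt_one, hlR.le, rfl, rfl⟩
    have h := Vale.Agent.P168.MP.ET_mono_on (m := lin R) hw hT fun ps hs => dd_ge (β := β) hq h1 hlR hs
    rw [Vale.Agent.P168.MP.ET_sub, Vale.Agent.P168.MP.ET_const hw, Vale.Agent.P168.MP.ET_const_mul,
      Vale.Agent.P168.MP.ET_sum] at h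
    rw [show cf (lin R) l = coef R l from rfl, coef_lt hlR]
    simp only [val_one]
    have := mul_le_mul_of_nonneg_left h (show (0 : ℝ) ≤ 1 / R by positivity)
    simp only [Φ, w] at this ⊢
    linarith
  have htop : Φ (0, R) = -(β ^ 2 * ((n : ℝ) + 1) / 2) :=
    (Vale.Agent.P168.MP.ET_congr (show Valid R [(0, R), (0, 0)] from ⟨Nat.zero_lt_one, le_rfl, rfl, rfl⟩)
      fun ps hs => by rw [top_eq hs]; exact dd_top hq h1 (hs.2.1 1 (by simp))).trans
      (Vale.Agent.P168.MP.ET_const hw _ _)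
  have hc : ∑ l ∈ range R, coef R l * q l ^ 2 = -(1 / (R : ℝ)) * ∑ l ∈ range R, q l ^ 2 := by
    rw [mul_sum]; exact sum_congr rfl fun l hl => by rw [coef_lt (mem_range.1 hl)]
  have hs : ∑ l ∈ range R, β ^ 2 * (1 + n * q l ^ 2) / 2 =
      β ^ 2 / 2 * (R + n * ∑ l ∈ range R, q l ^ 2) := by
    rw [← sum_div, ← mul_sum, sum_add_distrib, ← mul_sum, sum_const, card_range, nsmul_one]; ring
  rw [htop, sum_range_succ, coef_top hR, h1, hc]
  refine (add_le_add_left (sum_le_sum hl) _).trans (le_of_eq ?_)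
  rw [← mul_sum, sum_add_distrib, hs, ← mul_sum]
  field_simp
  ring

/-- interpolation with a fixed number of labels -/
theorem key_le [NeZero n] (hR : 1 ≤ R) (hq : Prof R q 1) (h1 : q R = 1) (k : ℕ) :
    ∫ g : Edge n → ℝ, Real.log (Vale.Agent.P146.partition β g / 2 ^ n) ∂gauss (Edge n) ≤
      n * (∫ z, Real.log (Z (lin R) (nodeW Real.cosh R (fun l => β ^ 2 * q l) z) R
        ([] : List (Fin (k + 1)))) ∂gauss (Ix R k)) +
      (-(n * β ^ 2 / 4 * ∑ l ∈ range (R + 1), coef R l * q l ^ 2) +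
        β ^ 2 * n * collK n R (n * β ^ 2) 0 / √((k + 1 : ℕ) : ℝ)) := by
  set w : List (Site n (k + 1)) → ℝ := fun _ => 1
  have hok : Ok R (lin R) w := ok_linW hR fun _ => one_pos
  set a := edgeVec (n := n) (k := k) β R
  set b := siteB (n := n) (k := k) β R q
  set v : List (Fin (k + 1)) → Ix R k → ℝ := fun x => node R (fun l => β ^ 2 * q l) x
  obtain ⟨hc, -, hd⟩ := interp_log hok sd_id a b
  set G : ℝ → ℝ := fun t => ∫ g, Real.log (nest (lin R) w (fac id (fun p => cvec a b t p) g) R [])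
    ∂gauss (Edge n ⊕ (Fin n × Ix R k))
  set A := -(n * β ^ 2 / 4 * ∑ l ∈ range (R + 1), coef R l * q l ^ 2)
  set E := β ^ 2 * n * collK n R (n * β ^ 2) 0 / √((k + 1 : ℕ) : ℝ)
  have h := le_of_deriv_le (A := A + E) (B := 0) hc hd fun t ht => ?_
  · -- the two ends
    have hz : logZ0 R (lin R) w = 0 := by
      rw [logZ0_last (F := fun _ : Site n (k + 1) => (1 : ℝ)) hok hR (fun _ => (false, 0))
        (fun _ => one_pos) fun p _ => rfl, Vale.Agent.P168.MP.avg_const, Real.log_one]
    have eend : ∀ (t : ℝ) g, Real.log (nest (lin R) w (fac id (fun p => cvec a b t p) g) R []) =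
        logZ0 R (lin R) fun p => Real.exp (dot (cvec a b t p) g) := fun t g => by
      rw [logZ0_zt hok, hz, sub_zero]
      exact Vale.Agent.P168.MP.logZ0_congr fun p hp => by simp [Wz, w, zt_idx a b t g hp]
    have hcont : ∀ {ν : Type} [Fintype ν] (c : List (Site n (k + 1)) → ν → ℝ),
        Continuous fun g => logZ0 R (lin R) fun p => Real.exp (dot (c p) g) := fun c =>
      continuous_logZ0 (fun p => Real.continuous_exp.comp (continuous_dot_left _))
        (fun _ _ => Real.exp_pos _) R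
    obtain ⟨e1, e0⟩ := integral_end (hcont a) (hcont b)
    simp only [G, eend, (dot_cvec_one _ _).1, (dot_cvec_one _ _).2] at h
    rw [e1, e0] at h
    have hG1 : ∀ g : Edge n → ℝ, (logZ0 R (lin R) fun p => Real.exp (dot (a p) g)) =
        Real.log (Vale.Agent.P146.partition β g / 2 ^ n) := fun g => by
      rw [logZ0_last (w := fun p => Real.exp (dot (a p) g))
        (F := fun o : Site n (k + 1) => Real.exp (β * energy g fun i => (o i).1))
        (ok_linW hR fun p => Real.exp_pos _) hR (fun _ => (false, 0)) (fun o => Real.exp_pos _) fun p _ => ?_]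
      · congr 1
        have h1 := Vale.Agent.P168.MP.Upper.avg_equiv
          (Equiv.arrowProdEquivProdArrow (Fin n) (fun _ => Bool) (fun _ => Fin (k + 1)))
          (fun o : (Fin n → Bool) × (Fin n → Fin (k + 1)) => Real.exp (β * energy g o.1))
        rw [show (fun o : Site n (k + 1) => Real.exp (β * energy g fun i => (o i).1)) =
          fun o : Site n (k + 1) => Real.exp (β * energy g
            ((Equiv.arrowProdEquivProdArrow (Fin n) (fun _ => Bool) (fun _ => Fin (k + 1))) o).1) from rfl,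
          h1, Vale.Agent.P168.MP.Upper.avg_fst (B := Fin n → Fin (k + 1))
            (fun σ : Fin n → Bool => Real.exp (β * energy g σ)), avg]
        simp [Vale.Agent.P146.partition, Cfg]
      · congr 1
        show dot (edgeVec β R p) g = β * energy g (spins R p)
        simp only [dot, edgeVec, energy, mul_sum]
        exact sum_congr rfl fun e _ => by ring
    have hG0 : ∫ g, (logZ0 R (lin R) fun p => Real.exp (dot (b p) g)) ∂gauss (Fin n × Ix R k) =
        n * ∫ z, Real.log (Z (lin R) (nodeW Real.cosh R (fun l => β ^ 2 * q l) z) R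
          ([] : List (Fin (k + 1)))) ∂gauss (Ix R k) := by
      have hP := Pv_start (f := id) (N := n) (m := lin R) (fun w hw => ok_linW hR hw) hR
        (nodeB (β := β) (k := k) hq)
      have hbase : ∀ g : Fin 0 → Fin n → ℝ, base id (L := k + 1) R g = fun _ => 1 := fun g => by
        funext p; simp [base, ham]
      simp only [Pv, hbase, linVal, integral_const, probReal_univ, one_smul] at hP
      refine Eq.trans ?_ hP
      congr 1; funext g; congr 1; funext p
      simp [linW]; rfl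
    simp only [hG1, hG0] at h
    linarith
  · -- the derivative
    simp only [zero_div, add_zero]
    have hT : Good R [(0, 0)] [1] := ⟨⟨rfl, rfl⟩, rfl, by simp⟩
    have hint : ∀ {T : List (ℕ × ℕ)}, Valid R T → ∀ (ks : List ℕ) (Ψ : List (List (Site n (k + 1))) → ℝ),
        Integrable (fun g => val R (lin R) w id (fun _ => 1) (fun _ => 0) (fun _ => 0) T ks Ψ (zt R a b t g))
          (gauss (Edge n ⊕ (Fin n × Ix R k))) := fun hV ks Ψ =>
      Vale.Agent.P157.Lim.integrable_Bd _ _ (bd_val hok sd_id hV ks Ψ) t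
    have hval : ∀ l ∈ range R, Valid R [(0, l), (0, 0)] := fun l hl =>
      ⟨Nat.zero_lt_one, (mem_range.1 hl).le, rfl, rfl⟩
    have hsum : Integrable (fun g => ∑ l ∈ range R, ∑ i : Fin n,
        val R (lin R) w id (fun _ => 1) (fun _ => 0) (fun _ => 0) [(0, l), (0, 0)] [1, 1] (coll i l)
          (zt R a b t g)) (gauss (Edge n ⊕ (Fin n × Ix R k))) :=
      integrable_finsetSum _ fun l hl => integrable_finsetSum _ fun i _ => hint (hval l hl) _ _
    refine (mul_le_mul_of_nonneg_left (integral_mono ?_ ((integrable_const _).add (hsum.const_mul _))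
      fun g => slope_le hR hq h1 (zt R a b t g)) (by norm_num)).trans ?_
    · exact (integral_list_sum _ fun ch hch => (hint (chl_mem hT hch).1 _ _).const_mul ch.c).1
    rw [integral_add' (integrable_const _) (hsum.const_mul _), integral_const, probReal_univ, one_smul,
      integral_const_mul, integral_finsetSum _ fun l hl => integrable_finsetSum _ fun i _ => hint (hval l hl) _ _]
    have hb : ∑ l ∈ range R, ∫ g, ∑ i : Fin n,
        val R (lin R) w id (fun _ => 1) (fun _ => 0) (fun _ => 0) [(0, l), (0, 0)] [1, 1] (coll i l)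
          (zt R a b t g) ∂gauss (Edge n ⊕ (Fin n × Ix R k)) ≤
        R * (n * (collK n R (n * β ^ 2) 0 / √((k + 1 : ℕ) : ℝ))) := by
      refine (sum_le_card_nsmul _ _ (n * (collK n R (n * β ^ 2) 0 / √((k + 1 : ℕ) : ℝ))) fun l hl => ?_).trans_eq
        (by simp)
      rw [integral_finsetSum _ fun i _ => hint (hval l hl) _ _]
      refine (sum_le_card_nsmul _ _ (collK n R (n * β ^ 2) 0 / √((k + 1 : ℕ) : ℝ)) fun i _ => ?_).trans_eq
        (by simp)
      simp only [val_one, w]
      exact coll_bound hR _ (fun s => cvec_self_le hq h1 ht.1.le ht.2.le s) i (mem_range.1 hl)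
    have hR0 : (0 : ℝ) < R := by exact_mod_cast hR
    calc _ ≤ 1 / 2 * (-(n * β ^ 2 / 2 * ∑ l ∈ range (R + 1), coef R l * q l ^ 2) + 2 * β ^ 2 / R *
          (R * (n * (collK n R (n * β ^ 2) 0 / √((k + 1 : ℕ) : ℝ))))) := by gcongr
      _ = A + E := by simp only [A, E]; field_simp; ring

end Vale.Agent.P157.Par.SK

namespace Vale.Agent.P146.Lower

set_option linter.unusedVariables false in
/-- **Guerra's bound** at finite `n` for the SK model -/
theorem sk_upper {β : ℝ} (hβ : 0 ≤ β) {R : ℕ} {q : ℕ → ℝ} (hR : 1 ≤ R)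
    (hq : Vale.Agent.P157.Par.Prof R q 1) (h1 : q R = 1) {n : ℕ} (hn : 1 ≤ n) :
    ∫ g : Edge n → ℝ, Real.log (partition β g / 2 ^ n) ∂gauss (Edge n) ≤ n * Vsk β R q := by
  have : NeZero n := ⟨by omega⟩
  have hs := hq.scale (sq_nonneg β)
  have hsq : Tendsto (fun k : ℕ => √((k + 1 : ℕ) : ℝ)) atTop atTop :=
    Real.tendsto_sqrt_atTop.comp (tendsto_natCast_atTop_atTop.comp (tendsto_add_atTop_nat 1))
  have hlim := ((Vale.Agent.P157.Par.node_value Vale.Agent.P157.Par.adm_cosh
    (Vale.Agent.P157.Par.ex_lin R) hs hR).const_mul (n : ℝ)).add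
    ((tendsto_const_nhds (x := -(n * β ^ 2 / 4 * ∑ l ∈ range (R + 1),
      Vale.Agent.P157.Par.coef R l * q l ^ 2))).add
        ((tendsto_const_nhds (x := β ^ 2 * n * Vale.Agent.P157.Par.collK n R (n * β ^ 2) 0)).div_atTop hsq))
  refine (ge_of_tendsto' hlim fun k => Vale.Agent.P157.Par.SK.key_le hR hq h1 k).trans (le_of_eq ?_)
  rw [Vsk]
  ring

end Vale.Agent.P146.Lower
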