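import Vale.Agent.P146.Lower.Marginal
import Vale.Agent.P146.Lower.Test
import Vale.Agent.P146.Lower.Upper
import Vale.Agent.P146.Lower.Alg
import Vale.Agent.P146.Lower.Site
import Vale.Agent.P146.Lower.Rec
import Vale.Agent.P146.Lower.Func
import Vale.Agent.P146.Lower.Convex
import Vale.Agent.P157.Par.GridRep

/-! P146 lower bound, assembly: the fluctuations of the free energy diverge for every `β` above `1`. -/

open MeasureTheory Finset Real Filter ProbabilityTheory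
open Vale.Agent.P150 (gauss)
open Vale.Agent.P168.MP (lin logZ0 spinAt)
open Vale.Agent.P157.Par (qlev Prof)

noncomputable section

namespace Vale.Agent.P146.Lower

variable {n : ℕ}

lemma Par.Good.mono {P : Par} {δ δ' : ℝ} (h : P.Good δ) (hd : δ ≤ δ') : P.Good δ' :=
  fun n _ W hW => (h n W hW).trans hd

/-- good parameters at every small `δ` -/
lemma exists_good {δ : ℝ} (hδ : 0 < δ) (R₀ : ℕ) : ∃ P : Par, R₀ ≤ P.R ∧ P.Good δ := by
  obtain ⟨R₁, hR⟩ := Vale.Agent.P157.Par.grid_rep hδ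
  obtain ⟨S, M, h, ub, hS, hM, h0, h1, hu, hu1, hb⟩ := hR (max R₁ (max R₀ 2)) (le_max_left _ _)
  exact ⟨⟨max R₁ (max R₀ 2), S, M, h, ub, le_trans (le_max_right _ _) (le_max_right _ _), hS, hM, h0, h1, hu,
    hu1⟩, le_trans (le_max_left _ _) (le_max_right _ _), fun n _ W hW => hb n W hW⟩

lemma Par.nonempty_grid (P : Par) : Nonempty P.Grid := ⟨fun _ => ⟨0, P.M_pos⟩⟩

/-- the perturbed mean is monotone and affine -/
lemma mean_affine_le (P : Par) [NeZero n] (β : ℝ) (a : ℕ → ℝ) (K : ℕ) (lam : ℝ) (v : Cfg n → ℝ)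
    {Φ Ψ : (List (Vale.Agent.P168.MP.Mark n P.S (Vale.Agent.P168.MP.allBatch P.R 2)) → ℝ) → ℝ} (c₀ c₁ : ℝ)
    (hΦ : ∀ u, Integrable (fun g => Φ (P.wp (wgt β a K lam v g) u)) (gauss (Edge n)))
    (hΨ : ∀ u, Integrable (fun g => Ψ (P.wp (wgt β a K lam v g) u)) (gauss (Edge n)))
    (h : ∀ g u, c₀ + c₁ * Φ (P.wp (wgt β a K lam v g) u) ≤ Ψ (P.wp (wgt β a K lam v g) u)) :
    c₀ + c₁ * P.mean (n := n) β a K lam v (fun _ w => Φ w) ≤
      P.mean (n := n) β a K lam v (fun _ w => Ψ w) := by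
  have := P.nonempty_grid
  have hu := fun u => integral_mono ((integrable_const c₀).add ((hΦ u).const_mul c₁)) (hΨ u) (fun g => h g u)
  simp only [Pi.add_apply] at hu
  refine le_trans (le_of_eq ?_) (Vale.Agent.P168.MP.avg_le_avg hu)
  have hc : (Fintype.card P.Grid : ℝ) ≠ 0 := Nat.cast_ne_zero.2 Fintype.card_ne_zero
  simp only [Par.mean, Vale.Agent.P168.MP.avg,
    fun u => integral_add (integrable_const c₀) ((hΦ u).const_mul c₁), integral_const, integral_const_mul,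
    probReal_univ, one_smul, sum_add_distrib, sum_const, card_univ, nsmul_eq_mul, ← mul_sum]
  field_simp

lemma skValues_mem (β : ℝ) {R : ℕ} {q : ℕ → ℝ} (hR : 1 ≤ R) (hq : Prof R q 1) (h1 : q R = 1) :
    Vsk β R q ∈ skValues β := ⟨R, q, hR, hq, h1, rfl⟩

lemma skValues_bddBelow {β : ℝ} (hβ : 0 ≤ β) : BddBelow (skValues β) := by
  refine ⟨0, ?_⟩
  rintro v ⟨R, q, hR, hq, h1, rfl⟩
  have h := sk_upper hβ hR hq h1 le_rfl
  have hp : ∀ g : Edge 1 → ℝ, partition β g / 2 ^ 1 = 1 := fun g => by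
    have : IsEmpty (Edge 1) := ⟨fun e => absurd e.2 (by simp [Subsingleton.elim e.1.1 e.1.2])⟩
    simp [partition, energy]
  simp only [hp] at h
  simpa using h

lemma sInf_le_vsk {β : ℝ} (hβ : 0 ≤ β) {R : ℕ} {q : ℕ → ℝ} (hR : 1 ≤ R) (hq : Prof R q 1) (h1 : q R = 1) :
    sInf (skValues β) ≤ Vsk β R q :=
  csInf_le (skValues_bddBelow hβ) (skValues_mem β hR hq h1)

lemma skValues_nonempty (β : ℝ) : (skValues β).Nonempty :=
  ⟨_, skValues_mem β (R := 1) le_rfl (q := fun _ => 1) ⟨zero_le_one, fun _ _ => le_rfl, le_rfl⟩ rfl⟩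

/-- a bounded tilt moves the log average by at most its bound -/
lemma abs_log_avg_shift {ι : Type*} [Fintype ι] [Nonempty ι] (X Y : ι → ℝ) {b : ℝ} (h : ∀ x, |Y x| ≤ b) :
    |log (Vale.Agent.P168.MP.avg fun x => exp (X x + Y x)) -
      log (Vale.Agent.P168.MP.avg fun x => exp (X x))| ≤ b := by
  have key : ∀ X Y : ι → ℝ, (∀ x, |Y x| ≤ b) → log (Vale.Agent.P168.MP.avg fun x => exp (X x + Y x)) ≤
      log (Vale.Agent.P168.MP.avg fun x => exp (X x)) + b := fun X Y h => by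
    have h0 : 0 < Vale.Agent.P168.MP.avg fun x => exp (X x) := Vale.Agent.P168.MP.avg_pos fun _ => exp_pos _
    calc log (Vale.Agent.P168.MP.avg fun x => exp (X x + Y x))
        ≤ log (Vale.Agent.P168.MP.avg fun x => exp (X x) * exp b) :=
          log_le_log (Vale.Agent.P168.MP.avg_pos fun _ => exp_pos _) (Vale.Agent.P168.MP.avg_le_avg fun x => by
            rw [← exp_add]; exact exp_le_exp.2 (by linarith [(abs_le.1 (h x)).2]))
      _ = log ((Vale.Agent.P168.MP.avg fun x => exp (X x)) * exp b) := by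
          simp only [Vale.Agent.P168.MP.avg, ← sum_mul, div_mul_eq_mul_div]
      _ = _ := by rw [log_mul h0.ne' (exp_pos b).ne', log_exp]
  have h1 := key X Y h
  have h2 := key (fun x => X x + Y x) (fun x => -Y x) fun x => by rw [abs_neg]; exact h x
  simp only [add_neg_cancel_right] at h2
  rw [abs_le]; constructor <;> linarith

/-- constant for the size of `σ'φσ` -/
lemma bil_int (a : ℕ → ℝ) (K : ℕ) : ∃ A : ℝ, 0 ≤ A ∧ ∀ n : ℕ, 1 ≤ n → ∃ B : (Edge n → ℝ) → ℝ,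
    Integrable B (gauss (Edge n)) ∧ ∫ g, B g ∂gauss (Edge n) ≤ n * A ∧
      ∀ g x, |bil (chebSum a K (Wm g)) x x| ≤ B g := by
  choose C hC0 hC using fun j => opn_mom (j + 1)
  refine ⟨∑ j ∈ range K, |a j| * C j, sum_nonneg fun j _ => mul_nonneg (abs_nonneg _) (hC0 j), fun n hn =>
    ⟨fun g => ∑ j ∈ range K, |a j| * ((n : ℝ) * (opn g + 2) ^ (j + 1)), ?_, ?_, fun g x => ?_⟩⟩
  · exact integrable_finsetSum _ fun j _ => (((hC j n hn).1.const_mul _).const_mul _)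
  · rw [integral_finsetSum _ fun j _ => (((hC j n hn).1.const_mul _).const_mul _), mul_sum]
    refine sum_le_sum fun j _ => ?_
    rw [integral_const_mul, integral_const_mul, mul_left_comm]
    exact mul_le_mul_of_nonneg_left
      (mul_le_mul_of_nonneg_left (hC j n hn).2 (abs_nonneg _)) (Nat.cast_nonneg _)
  · have : bil (chebSum a K (Wm g)) x x = ∑ j ∈ range K, a j * bil (cheb (Wm g) (j + 1)) x x := by
      simp only [bil, chebSum, Matrix.sum_apply, Matrix.smul_apply, smul_eq_mul, mul_sum, sum_mul]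
      rw [sum_comm (s := range K)]
      refine sum_congr rfl fun i _ => ?_
      rw [sum_comm (s := range K)]
      exact sum_congr rfl fun k _ => sum_congr rfl fun j _ => by ring
    rw [this]
    refine (abs_sum_le_sum_abs _ _).trans (sum_le_sum fun j _ => ?_)
    rw [abs_mul]
    exact mul_le_mul_of_nonneg_left (abs_bil_cheb_le g _ x x) (abs_nonneg _)

/-- the perturbed free energy against the plain one -/
lemma free_close (β : ℝ) (a : ℕ → ℝ) (K : ℕ) : ∃ A : ℝ, 0 ≤ A ∧ ∀ (P : Par) (n : ℕ) [NeZero n] (lam : ℝ),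
    |P.free n β a K lam - ∫ g : Edge n → ℝ, log (partition β g / 2 ^ n) ∂gauss (Edge n)| ≤
      P.cap + |lam| * (n * A) := by
  obtain ⟨A, hA, hB⟩ := bil_int a K
  refine ⟨A, hA, fun P n _ lam => ?_⟩
  obtain ⟨B, hBi, hBA, hBb⟩ := hB n (Nat.one_le_iff_ne_zero.2 (NeZero.ne n))
  have := P.nonempty_grid
  have e0 : ∀ g : Edge n → ℝ, Vale.Agent.P168.MP.avg (wgt β a K 0 0 g) = partition β g / 2 ^ n := fun g => by
    simp [Vale.Agent.P168.MP.avg, wgt, partition]
  have e1 : ∀ g : Edge n → ℝ, |logZ0 P.R (lin P.R) (P.wp (wgt β a K lam 0 g) (Classical.arbitrary _)) -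
      log (Vale.Agent.P168.MP.avg (wgt β a K lam 0 g))| ≤ P.cap := fun g =>
    abs_logZ0_wp_sub_le P (fun x => wgt_pos β a K lam 0 g x) _
  have hpt : ∀ u g, |logZ0 P.R (lin P.R) (P.wp (wgt β a K lam 0 g) u) - log (partition β g / 2 ^ n)| ≤
      P.cap + |lam| * B g := fun u g => by
    have h1 := abs_logZ0_wp_sub_le P (fun x => wgt_pos β a K lam 0 g x) u
    have h2 := abs_log_avg_shift (fun x => β * energy g x)
      (fun x => lam * bil (chebSum a K (Wm g)) x x) (b := |lam| * B g) fun x => by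
        rw [abs_mul]; exact mul_le_mul_of_nonneg_left (hBb g x) (abs_nonneg _)
    have e : (Vale.Agent.P168.MP.avg fun x : Cfg n => exp (β * energy g x)) = partition β g / 2 ^ n := by
      simp [Vale.Agent.P168.MP.avg, partition]
    have e' : (Vale.Agent.P168.MP.avg fun x : Cfg n =>
        exp (β * energy g x + lam * bil (chebSum a K (Wm g)) x x)) =
        Vale.Agent.P168.MP.avg (wgt β a K lam 0 g) := by simp [Vale.Agent.P168.MP.avg, wgt]
    rw [e, e'] at h2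
    exact (abs_sub_le _ (log (Vale.Agent.P168.MP.avg (wgt β a K lam 0 g))) _).trans (add_le_add h1 h2)
  have i2 : Integrable (fun g : Edge n → ℝ => log (partition β g / 2 ^ n)) (gauss (Edge n)) := by
    have h := (eb_logAvg (n := n) β a K 0 0).integrable
    simp only [e0] at h
    exact h
  have hu : ∀ u, |(∫ g, logZ0 P.R (lin P.R) (P.wp (wgt β a K lam 0 g) u) ∂gauss (Edge n)) -
      ∫ g : Edge n → ℝ, log (partition β g / 2 ^ n) ∂gauss (Edge n)| ≤ P.cap + |lam| * (n * A) := fun u => by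
    rw [← integral_sub (eb_logZ0 P β a K lam 0 u).integrable i2]
    refine abs_integral_le_integral_abs.trans ((integral_mono
      ((eb_logZ0 P β a K lam 0 u).integrable.sub i2).abs ((integrable_const _).add (hBi.const_mul _))
      (hpt u)).trans ?_)
    simp only [Pi.add_apply]
    rw [integral_add (integrable_const _) (hBi.const_mul _), integral_const, probReal_univ, one_smul,
      integral_const_mul]
    gcongr
  rw [abs_le]
  constructor
  · rw [neg_le_sub_iff_le_add, ← sub_le_iff_le_add]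
    calc _ = Vale.Agent.P168.MP.avg fun _ : P.Grid => _ := (Vale.Agent.P168.MP.avg_const _).symm
      _ ≤ _ := Vale.Agent.P168.MP.avg_le_avg fun u => by linarith [(abs_le.1 (hu u)).1]
  · rw [sub_le_iff_le_add]
    calc P.free n β a K lam ≤ Vale.Agent.P168.MP.avg fun _ : P.Grid => _ :=
          Vale.Agent.P168.MP.avg_le_avg fun u => sub_le_iff_le_add.1 (abs_le.1 (hu u)).2
      _ = _ := Vale.Agent.P168.MP.avg_const _

/-- telescoped lower bound on the increments -/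
lemma telescope {f : ℕ → ℝ} {c : ℝ} {n₀ N : ℕ} (h : ∀ k, n₀ ≤ k → c ≤ f (k + 1) - f k) (hN : n₀ ≤ N) :
    ∀ k, N ≤ k → ((k : ℝ) - N) * c ≤ f k - f N := fun k hk => by
  induction k, hk using Nat.le_induction with
  | base => simp
  | succ k hk ih =>
    have := h k (hN.trans hk)
    push_cast
    linarith

lemma inf_le_mean {β : ℝ} (hβ : 0 ≤ β) (P : Par) (n : ℕ) [NeZero n] (a : ℕ → ℝ) (K : ℕ) (lam : ℝ) :
    sInf (skValues β) ≤
      P.mean (n := n) β a K lam 0 (fun _ w => Vsk β P.R (qlev P.R w (spinAt P.R))) := by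
  have := mean_affine_le P (n := n) β a K lam 0 (sInf (skValues β)) 0 (Φ := fun _ => 0)
    (Ψ := fun w => Vsk β P.R (qlev P.R w (spinAt P.R))) (fun _ => integrable_zero _ _ _)
    (fun u => (eb_vsk P β a K lam 0 u).integrable) fun g u => by
      obtain ⟨hp, hp1⟩ := qlev_wp_prof P (fun x => wgt_pos β a K lam 0 g x) u
      simpa using sInf_le_vsk hβ P.one_le hp hp1
  simpa using this

/-- the coefficients of the test -/
def coeffs (j : ℕ) : ℝ := 1 / ((j : ℝ) + 2)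

lemma harmonic_large (M : ℝ) : ∃ K : ℕ, M ≤ ∑ j ∈ range K, coeffs j := by
  obtain ⟨K, hK⟩ := eventually_atTop.1
    (Real.tendsto_sum_range_one_div_nat_succ_atTop.eventually_ge_atTop (M + 1))
  refine ⟨K, ?_⟩
  have h := hK (K + 1) (by omega)
  rw [sum_range_succ'] at h
  simp only [coeffs]
  push_cast at h
  norm_num [add_assoc] at h ⊢
  linarith

lemma weight_eq (K : ℕ) :
    ∑ j ∈ range K, ((j : ℝ) + 2) / 2 * coeffs j ^ 2 = (∑ j ∈ range K, coeffs j) / 2 := by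
  rw [sum_div]
  refine sum_congr rfl fun j _ => ?_
  have : (j : ℝ) + 2 ≠ 0 := by positivity
  simp only [coeffs]; field_simp

/-- near-minimisers give the diagonal a mass -/
lemma lev_mean_ge {β η ε₀ : ℝ} (hβ : 0 < β) (hη : η ≤ 1) (hε₀ : 0 < ε₀) (P : Par)
    (hm : ∀ q, Prof P.R q 1 → q P.R = 1 → Vsk β P.R q ≤ sInf (skValues β) + ε₀ → 1 - η ≤ β * top P.R q)
    [NeZero n] (a : ℕ → ℝ) (K : ℕ) (lam : ℝ) (j : ℕ) :
    (1 - η) ^ (j + 2) / β * (1 + sInf (skValues β) / ε₀) +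
        -((1 - η) ^ (j + 2) / β / ε₀) *
          P.mean (n := n) β a K lam 0 (fun _ w => Vsk β P.R (qlev P.R w (spinAt P.R))) ≤
      P.mean (n := n) β a K lam 0 (fun _ w => lev β P.R (qlev P.R w (spinAt P.R)) (j + 1) P.R) := by
  refine mean_affine_le P β a K lam 0 _ _ (fun u => (eb_vsk P β a K lam 0 u).integrable)
    (fun u => (eb_lev P β a K lam 0 u (j + 1)).integrable) fun g u => ?_
  obtain ⟨hp, hp1⟩ := qlev_wp_prof P (fun x => wgt_pos β a K lam 0 g x) u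
  set q := qlev P.R (P.wp (wgt β a K lam 0 g) u) (spinAt P.R)
  set b := (1 - η) ^ (j + 2) / β
  have hb : 0 ≤ b := div_nonneg (pow_nonneg (by linarith) _) hβ.le
  have hlev := lev_top_ge hβ.le P.one_le hp hp1 (j + 1)
  have htop := (top_mem P.one_le hp).1
  have e : b * (1 + sInf (skValues β) / ε₀) + -(b / ε₀) * Vsk β P.R q =
      b * (1 - (Vsk β P.R q - sInf (skValues β)) / ε₀) := by ring
  rw [e]
  by_cases hV : Vsk β P.R q ≤ sInf (skValues β) + ε₀
  · have ht := hm q hp hp1 hV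
    have h0 : 0 ≤ (Vsk β P.R q - sInf (skValues β)) / ε₀ :=
      div_nonneg (sub_nonneg.2 (sInf_le_vsk hβ.le P.one_le hp hp1)) hε₀.le
    refine le_trans ?_ hlev
    calc b * (1 - (Vsk β P.R q - sInf (skValues β)) / ε₀) ≤ b := mul_le_of_le_one_right hb (by linarith)
      _ ≤ (β * top P.R q) ^ (j + 2) / β :=
          div_le_div_of_nonneg_right (pow_le_pow_left₀ (by linarith) ht _) hβ.le
      _ = _ := by rw [mul_pow]; field_simp; ring
  · have : 1 ≤ (Vsk β P.R q - sInf (skValues β)) / ε₀ := by rw [one_le_div hε₀]; linarith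
    refine le_trans (mul_nonpos_of_nonneg_of_nonpos hb (by linarith)) (le_trans ?_ hlev)
    positivity

/-- a size in the window whose mean value nearly minimises -/
lemma window_pick {f0 fw M : ℕ → ℝ} {I ε C A w c ε₀ Z : ℝ} {q N n₀ : ℕ} (hq : 0 < q) (hqN : q ≤ N)
    (hn : n₀ ≤ N) (hε : 0 ≤ ε) (hw : 0 ≤ w) (hA : 0 ≤ A) (hC : 0 ≤ C) (hε₀ : 0 ≤ ε₀)
    (hinc : ∀ k, n₀ ≤ k → M k - (ε + C * w) ≤ fw (k + 1) - fw k)
    (hup : ∀ k : ℕ, f0 k ≤ ((k : ℝ) + 1) * (I + ε) + c)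
    (hclose : ∀ k : ℕ, |fw k - f0 k| ≤ 2 * c + w * (((k : ℝ) + 1) * A))
    (hlow : ((N : ℝ) - n₀) * (I - ε) ≤ f0 N - f0 n₀)
    (hZ : |f0 n₀| + n₀ * |I - ε| + |I| + ε + 5 * c + 2 * A * w ≤ Z)
    (hεq : ε * (48 * q) ≤ ε₀) (hwA : w * (3 * A + C + 1) * (12 * q) ≤ ε₀)
    (hZN : Z * (12 * q) ≤ ε₀ * N) :
    ∃ k ∈ Ico N (N + N / q), M k - I ≤ ε₀ / 2 := by
  set L := N / q
  have hLpos : 0 < L := Nat.div_pos hqN hq
  have hqR : (0:ℝ) < q := Nat.cast_pos.2 hq
  have hLq : (L : ℝ) * q ≤ N := by exact_mod_cast Nat.div_mul_le_self N q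
  have hL2 : (N : ℝ) ≤ 2 * (L * q) := by
    have h1 := Nat.lt_div_mul_add (a := N) hq
    have h2 : q ≤ N / q * q := Nat.le_mul_of_pos_left q hLpos
    exact_mod_cast (show N ≤ 2 * (N / q * q) by omega)
  have hLN : (L:ℝ) ≤ N := le_trans (le_mul_of_one_le_right (Nat.cast_nonneg _) (Nat.one_le_cast.2 hq)) hLq
  refine exists_le_of_sum_le (nonempty_Ico.2 (by omega)) ?_
  have hs : ∑ k ∈ Ico N (N + L), (M k - I) ≤
      ∑ k ∈ Ico N (N + L), (fw (k + 1) - fw k + (ε + C * w - I)) := sum_le_sum fun k hk => by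
    have := hinc k (hn.trans (mem_Ico.1 hk).1)
    linarith
  rw [sum_add_distrib, sum_Ico_sub fw (by omega), sum_const, Nat.card_Ico, nsmul_eq_mul,
    Nat.add_sub_cancel_left] at hs
  rw [sum_const, Nat.card_Ico, Nat.add_sub_cancel_left, nsmul_eq_mul]
  refine hs.trans ?_
  have u1 := (abs_le.1 (hclose (N + L))).2
  have u2 := hup (N + L)
  have u3 := (abs_le.1 (hclose N)).1
  push_cast at u1 u2 ⊢
  have e := neg_abs_le (f0 n₀)
  have e' := mul_le_mul_of_nonneg_left (le_abs_self (I - ε)) (Nat.cast_nonneg (α := ℝ) n₀)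
  have b1 := mul_le_mul_of_nonneg_left hLN hε
  have b2 := mul_le_mul_of_nonneg_left hLN (mul_nonneg hC hw)
  have b3 := mul_le_mul_of_nonneg_left hLN (mul_nonneg hw hA)
  have b4 : 0 ≤ ε * N := mul_nonneg hε (Nat.cast_nonneg _)
  have b5 : 0 ≤ w * N := mul_nonneg hw (Nat.cast_nonneg _)
  have key : fw (N + L) - fw N + (L:ℝ) * (ε + C * w - I) ≤ 4 * ε * N + w * (3 * A + C + 1) * N + Z := by
    linarith [le_abs_self I]
  refine key.trans ?_
  refine le_of_mul_le_mul_right ?_ (show (0:ℝ) < 12 * q by positivity)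
  have c1 := mul_le_mul_of_nonneg_right hεq (Nat.cast_nonneg (α := ℝ) N)
  have c2 := mul_le_mul_of_nonneg_right hwA (Nat.cast_nonneg (α := ℝ) N)
  have c3 := mul_le_mul_of_nonneg_left hL2 hε₀
  linarith

/-- the drop at `k` carried back to `N` -/
lemma carry_back {f0 fw : ℕ → ℝ} {I ε C A w c Z h Sd G : ℝ} {q N n₀ k : ℕ} (hq : 0 < q)
    (hkN : N ≤ k) (hk : k < N + N / q) (hε : 0 ≤ ε) (hw : 0 ≤ w) (hC : 0 ≤ C) (hA : 0 ≤ A) (hh : 0 ≤ h) (hS : h ≤ Sd)
    (hinc : ((k : ℝ) - N) * (I - ε - C * w) ≤ fw k - fw N)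
    (hup : ∀ k : ℕ, f0 k ≤ ((k : ℝ) + 1) * (I + ε) + c)
    (hlow : ((N : ℝ) - n₀) * (I - ε) ≤ f0 N - f0 n₀)
    (hZ : |f0 n₀| + n₀ * |I - ε| + |I| + ε + 5 * c + 2 * A * w ≤ Z) (hc : 0 ≤ c)
    (d1 : w * (((k : ℝ) + 1) * Sd) ≤ f0 k - fw k) (d2 : f0 N - fw N ≤ w * G + 2 * c) :
    w * (N * (h - C / q)) - 4 * ε * N - Z ≤ w * G := by
  have hqR : (0:ℝ) < q := Nat.cast_pos.2 hq
  have hkR : (N:ℝ) ≤ k := Nat.cast_le.2 hkN
  have hd : ((k : ℝ) - N) ≤ N / q := by
    rw [le_div_iff₀ hqR]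
    have hL : ((N / q : ℕ) : ℝ) * q ≤ N := by exact_mod_cast Nat.div_mul_le_self N q
    refine le_trans (mul_le_mul_of_nonneg_right ?_ hqR.le) hL
    rw [sub_le_iff_le_add']; exact_mod_cast hk.le
  have hd2 : (k : ℝ) - N ≤ N := hd.trans (div_le_self (Nat.cast_nonneg _) (Nat.one_le_cast.2 hq))
  have h1 : w * ((N:ℝ) * h) ≤ w * (((k:ℝ) + 1) * Sd) :=
    mul_le_mul_of_nonneg_left (mul_le_mul (by linarith) hS hh (by positivity)) hw
  have h2 := mul_le_mul_of_nonneg_right hd (mul_nonneg hC hw)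
  have h3 := mul_le_mul_of_nonneg_left hd2 hε
  have e0 : (N:ℝ) / q * (C * w) = w * (N * (C / q)) := by ring
  have e := neg_abs_le (f0 n₀)
  have e' := mul_le_mul_of_nonneg_left (le_abs_self (I - ε)) (Nat.cast_nonneg (α := ℝ) n₀)
  have := hup k
  linarith [le_abs_self I, mul_nonneg hA hw]

/-- the resulting bound on the Gibbs mean -/
lemma gibbs_large {β H C w ε Z G : ℝ} {q N : ℕ} (hβ : 0 < β) (hH : 0 ≤ H) (hw : 0 < w) (hN : (1:ℝ) ≤ N)
    (hCq : C / q ≤ H / (64 * β)) (hεH : ε * (256 * β) ≤ w * H) (hZ : Z * (64 * β) ≤ H * w * N)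
    (hG : w * (N * (H * (1 / (8 * β)) - C / q)) - 4 * ε * N - Z ≤ w * G) :
    H / 256 ≤ β / (2 * ((N : ℝ) + 1)) * G := by
  set u := H / (64 * β)
  have hu : H * (1 / (8 * β)) = 8 * u := by simp only [u]; ring
  have hu0 : 0 ≤ u := by positivity
  have e1 : 4 * ε ≤ w * u := by
    rw [mul_div_assoc', le_div_iff₀ (by positivity)]; linarith
  have e2 : Z ≤ w * u * N := by
    rw [mul_div_assoc', div_mul_eq_mul_div, le_div_iff₀ (by positivity)]; linarith
  rw [hu] at hG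
  have h1 := mul_le_mul_of_nonneg_right e1 (Nat.cast_nonneg (α := ℝ) N)
  have h2 := mul_le_mul_of_nonneg_left (mul_le_mul_of_nonneg_left hCq (Nat.cast_nonneg (α := ℝ) N)) hw.le
  have h0 : 0 ≤ w * (u * N) := by positivity
  have h3 : u * N ≤ G := le_of_mul_le_mul_left (by linarith) hw
  refine le_trans ?_ (mul_le_mul_of_nonneg_left h3 (by positivity))
  have e : β / (2 * ((N:ℝ) + 1)) * (u * N) = H / 128 * ((N:ℝ) / ((N:ℝ) + 1)) := by
    simp only [u]; field_simp; ring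
  rw [e]
  have : (1:ℝ) / 2 ≤ (N:ℝ) / ((N:ℝ) + 1) := by
    rw [div_le_div_iff₀ (by norm_num) (by positivity)]; linarith
  have := mul_le_mul_of_nonneg_left this (show 0 ≤ H / 128 by positivity)
  linarith

/-- `diag` is at least `1/(8β)` at a near-minimising size -/
lemma diag_ge {β η ε₀ κ D Dm w : ℝ} (hβ : 0 < β) (hη : η ≤ 1) (hε₀ : 0 < ε₀) (P : Par)
    (hm : ∀ q, Prof P.R q 1 → q P.R = 1 → Vsk β P.R q ≤ sInf (skValues β) + ε₀ → 1 - η ≤ β * top P.R q)
    [NeZero n] (a : ℕ → ℝ) (K j : ℕ) (hpow : (1 / 2 : ℝ) ≤ (1 - η) ^ (j + 2))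
    (hd : |P.diag n β a K (-w) 0 (j + 1) -
      P.mean (n := n) β a K (-w) 0 (fun _ u => lev β P.R (qlev P.R u (spinAt P.R)) (j + 1) P.R)| ≤
      D * (κ + w + 1 / √√(n : ℝ)))
    (hD0 : 0 ≤ D) (hD : D ≤ Dm) (hκ : κ = 1 / (8 * β * (3 * (Dm + 1)))) (hw : 0 ≤ w) (hwκ : w ≤ κ)
    (hn : 1 / √√(n : ℝ) ≤ κ)
    (hM : P.mean (n := n) β a K (-w) 0 (fun _ u => Vsk β P.R (qlev P.R u (spinAt P.R))) - sInf (skValues β) ≤
      ε₀ / 2) :
    1 / (8 * β) ≤ P.diag n β a K (-w) 0 (j + 1) := by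
  have hl := lev_mean_ge (n := n) hβ hη hε₀ P hm a K (-w) j
  set I := sInf (skValues β)
  set M := P.mean (n := n) β a K (-w) 0 (fun _ u => Vsk β P.R (qlev P.R u (spinAt P.R)))
  set b := (1 - η) ^ (j + 2) / β
  have hb : 1 / (2 * β) ≤ b := by
    have := div_le_div_of_nonneg_right hpow hβ.le
    rwa [div_div] at this
  have e : b * (1 + I / ε₀) + -(b / ε₀) * M = b * (1 - (M - I) / ε₀) := by ring
  have h4 : 1 / (4 * β) ≤ b * (1 - (M - I) / ε₀) := by
    have : (M - I) / ε₀ ≤ 1 / 2 := by rw [div_le_iff₀ hε₀]; linarith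
    have hb0 : 0 ≤ b := le_trans (by positivity) hb
    have := mul_le_mul_of_nonneg_left (show (1:ℝ) / 2 ≤ 1 - (M - I) / ε₀ by linarith) hb0
    have e4 : 1 / (4 * β) = 1 / (2 * β) * (1 / 2) := by ring
    linarith
  have hDm : 0 ≤ Dm := hD0.trans hD
  have h3 : D * (κ + w + 1 / √√(n : ℝ)) ≤ 1 / (8 * β) := by
    calc D * (κ + w + 1 / √√(n : ℝ)) ≤ (Dm + 1) * (3 * κ) :=
          mul_le_mul (by linarith) (by linarith)
            (by have := hw.trans hwκ; positivity) (by linarith)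
      _ = 1 / (8 * β) := by rw [hκ]; field_simp
  have := (abs_le.1 hd).1
  have e8 : 1 / (4 * β) = 1 / (8 * β) + 1 / (8 * β) := by ring
  linarith

/-- the drop of the deformed free energy over `w` grows with `∑ a_j`: whatever bounds that drop from above
bounds `n ∑ a_j` -/
theorem secant_ge {β : ℝ} (hβ1 : 1 < β) (K : ℕ) (hH0 : 0 < ∑ j ∈ range K, coeffs j) :
    ∃ w : ℝ, 0 < w ∧ ∀ᶠ N : ℕ in atTop, ∀ G : ℝ,
      (∀ P : Par, P.free (N + 1) β coeffs K 0 - P.free (N + 1) β coeffs K (-w) ≤ w * G + 2 * P.cap) →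
      (∑ j ∈ range K, coeffs j) / 256 ≤ β / (2 * ((N : ℝ) + 1)) * G := by
  have hβ : 0 < β := by linarith
  set a := coeffs
  set H := ∑ j ∈ range K, a j
  set η : ℝ := 1 / (2 * ((K : ℝ) + 2))
  have hη : 0 < η := by positivity
  have hη1 : η ≤ 1 := by rw [div_le_one (by positivity)]; linarith [(Nat.cast_nonneg K : (0:ℝ) ≤ K)]
  have hpow : ∀ j < K, (1 / 2 : ℝ) ≤ (1 - η) ^ (j + 2) := fun j hj => by
    have hb := one_add_mul_le_pow (show (-2:ℝ) ≤ -η by linarith) (j + 2)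
    rw [← sub_eq_add_neg 1 η] at hb
    refine le_trans ?_ hb
    have : ((j : ℝ) + 2) * η ≤ 1 / 2 := by
      rw [mul_one_div, div_le_iff₀ (by positivity)]
      have : (j : ℝ) + 1 ≤ K := by exact_mod_cast hj
      linarith
    push_cast; linarith
  obtain ⟨ε₀, hε₀, R₀, hR₀⟩ := marginal hβ1 hη
  choose D hD0 hD using fun j => diag_close β a K (j + 1)
  set Dm := ∑ j ∈ range K, D j
  have hDm : ∀ j < K, D j ≤ Dm := fun j hj => single_le_sum (fun i _ => hD0 i) (mem_range.2 hj)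
  have hDm0 : 0 ≤ Dm := sum_nonneg fun i _ => hD0 i
  obtain ⟨C, hC, hsite⟩ := site_of hβ.le a K (diag_close β a K 1)
  obtain ⟨A, hA, hfree⟩ := free_close β a K
  obtain ⟨q, hq⟩ := exists_nat_gt (64 * β * C / H)
  have hq0 : 0 < q := by
    have : (0:ℝ) < q := lt_of_le_of_lt (by positivity) hq
    exact_mod_cast this
  have hqR : (0:ℝ) < q := Nat.cast_pos.2 hq0
  have hCq : C / q ≤ H / (64 * β) := by
    rw [div_le_div_iff₀ hqR (by positivity)]
    rw [div_lt_iff₀ hH0] at hq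
    linarith
  obtain ⟨κ, hκe⟩ : ∃ κ, κ = 1 / (8 * β * (3 * (Dm + 1))) := ⟨_, rfl⟩
  have hκ : 0 < κ := by rw [hκe]; positivity
  obtain ⟨w, hwe⟩ : ∃ w, w = min (min κ 1) (ε₀ / (12 * q * (3 * A + C + 1))) := ⟨_, rfl⟩
  have hw : 0 < w := by rw [hwe]; exact lt_min (lt_min hκ one_pos) (by positivity)
  have hwκ : w ≤ κ := by rw [hwe]; exact (min_le_left _ _).trans (min_le_left _ _)
  have hw1 : w ≤ 1 := by rw [hwe]; exact (min_le_left _ _).trans (min_le_right _ _)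
  have hwA : w * (3 * A + C + 1) * (12 * q) ≤ ε₀ := by
    have := min_le_right (min κ 1) (ε₀ / (12 * q * (3 * A + C + 1)))
    rw [← hwe, le_div_iff₀ (by positivity)] at this
    linarith
  obtain ⟨ε, hεe⟩ : ∃ ε, ε = min (ε₀ / (48 * q)) (w * H / (256 * β)) := ⟨_, rfl⟩
  have hε : 0 < ε := by rw [hεe]; exact lt_min (by positivity) (by positivity)
  have hεq : ε * (48 * q) ≤ ε₀ := by rw [hεe]; exact (le_div_iff₀ (by positivity)).1 (min_le_left _ _)
  have hεH : ε * (256 * β) ≤ w * H := by rw [hεe]; exact (le_div_iff₀ (by positivity)).1 (min_le_right _ _)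
  obtain ⟨δ₁, hδ₁, hsiteP⟩ := hsite ε hε
  obtain ⟨P, hPR, hP⟩ := exists_good (lt_min hδ₁ (by positivity : (0:ℝ) < κ ^ 2)) R₀
  have hP2 := hP.mono (min_le_right δ₁ (κ ^ 2))
  obtain ⟨n₀, hn₀⟩ := eventually_atTop.1 (hsiteP P (hP.mono (min_le_left δ₁ (κ ^ 2))))
  obtain ⟨I, hIe⟩ : ∃ I, I = sInf (skValues β) := ⟨_, rfl⟩
  obtain ⟨v, ⟨R, r, hR, hr, hr1, rfl⟩, hv⟩ :=
    exists_lt_of_csInf_lt (skValues_nonempty β) (show sInf (skValues β) < I + ε by linarith)
  set f0 : ℕ → ℝ := fun k => P.free (k + 1) β a K 0 with hf0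
  set fw : ℕ → ℝ := fun k => P.free (k + 1) β a K (-w) with hfw
  set M : ℕ → ℝ := fun k => P.mean (n := k + 1) β a K (-w) 0
    (fun _ w => Vsk β P.R (qlev P.R w (spinAt P.R))) with hM
  have hc : 0 ≤ P.cap := cap_nonneg P
  obtain ⟨Z, hZe⟩ : ∃ Z, Z = |f0 n₀| + n₀ * |I - ε| + |I| + ε + 5 * P.cap + 2 * A * w := ⟨_, rfl⟩
  have hq0' : Tendsto (fun N : ℕ => 1 / √√(N : ℝ)) atTop (nhds 0) := by
    simp only [one_div]
    exact tendsto_inv_atTop_zero.comp
      (tendsto_sqrt_atTop.comp (tendsto_sqrt_atTop.comp tendsto_natCast_atTop_atTop))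
  obtain ⟨N₀, hN₀⟩ := eventually_atTop.1 ((hq0'.eventually_le_const hκ).and
    ((eventually_ge_atTop (max n₀ (max q 1))).and
      (((tendsto_natCast_atTop_atTop (R := ℝ)).eventually_ge_atTop (Z * (12 * q) / ε₀)).and
        ((tendsto_natCast_atTop_atTop (R := ℝ)).eventually_ge_atTop (Z * (64 * β) / (H * w))))))
  refine ⟨w, hw, eventually_atTop.2 ⟨N₀, fun N hN G hGd => ?_⟩⟩
  obtain ⟨hsq, hmax, hZN, hZN'⟩ := hN₀ N hN
  rw [div_le_iff₀ hε₀, mul_comm _ ε₀] at hZN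
  rw [div_le_iff₀ (by positivity), mul_comm _ (H * w)] at hZN'
  have hn0N : n₀ ≤ N := le_of_max_le_left hmax
  have hqN : q ≤ N := (le_max_left _ _).trans (le_of_max_le_right hmax)
  have hN1 : (1:ℝ) ≤ N := by exact_mod_cast (le_max_right q 1).trans (le_of_max_le_right hmax)
  have i0 : ∀ k, n₀ ≤ k → I - ε ≤ f0 (k + 1) - f0 k := fun k hk => by
    have h := hn₀ k hk 0 (by simp)
    have := inf_le_mean hβ.le P (k + 1) a K 0
    rw [abs_zero, mul_zero, add_zero] at h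
    simp only [hf0]
    linarith
  have iw : ∀ k, n₀ ≤ k → M k - (ε + C * w) ≤ fw (k + 1) - fw k := fun k hk => by
    have := hn₀ k hk (-w) (by rw [abs_neg, abs_of_pos hw]; exact hw1)
    rw [abs_neg, abs_of_pos hw] at this
    exact this
  have l0 := telescope i0 le_rfl N hn0N
  have hup : ∀ k : ℕ, f0 k ≤ ((k : ℝ) + 1) * (I + ε) + P.cap := fun k => by
    have h1 := (abs_le.1 (hfree P (k + 1) 0)).2
    have h2 := (sk_upper hβ.le hR hr hr1 (Nat.le_add_left 1 k)).trans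
      (mul_le_mul_of_nonneg_left hv.le (Nat.cast_nonneg _))
    rw [abs_zero, zero_mul, add_zero] at h1
    push_cast at h2
    simp only [hf0]
    linarith
  have hclose : ∀ k : ℕ, |fw k - f0 k| ≤ 2 * P.cap + w * (((k : ℝ) + 1) * A) := fun k => by
    have h1 := hfree P (k + 1) (-w)
    have h2 := hfree P (k + 1) 0
    rw [abs_zero, zero_mul, add_zero, abs_sub_comm] at h2
    rw [abs_neg, abs_of_pos hw] at h1
    push_cast at h1
    exact (abs_sub_le _ _ _).trans ((add_le_add h1 h2).trans_eq (by ring))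
  obtain ⟨k, hk, hMk⟩ := window_pick hq0 hqN hn0N hε.le hw.le hA hC hε₀.le iw hup hclose l0 hZe.ge
    hεq hwA hZN
  obtain ⟨hk1, hk2⟩ := mem_Ico.1 hk
  have hdiag : ∀ j ∈ range K, 1 / (8 * β) ≤ P.diag (k + 1) β a K (-w) 0 (j + 1) := fun j hj => by
    have hd := hD j P (κ ^ 2) (by positivity) hP2 (k + 1) (-w)
      (by rw [abs_neg, abs_of_pos hw]; exact hw1) 0
    rw [sqrt_sq hκ.le, abs_neg, abs_of_pos hw] at hd
    refine diag_ge hβ hη1 hε₀ P (fun q hq h1 hV => hR₀ P.R q hPR hq h1 hV) a K j (hpow j (mem_range.1 hj))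
      hd (hD0 j) (hDm j (mem_range.1 hj)) hκe hw.le hwκ ?_ (by rw [← hIe]; exact hMk)
    refine le_trans ?_ hsq
    gcongr
    exact_mod_cast Nat.le_succ_of_le hk1
  have hsum : H * (1 / (8 * β)) ≤ ∑ j ∈ range K, a j * P.diag (k + 1) β a K (-w) 0 (j + 1) := by
    rw [sum_mul]
    exact sum_le_sum fun j hj => mul_le_mul_of_nonneg_left (hdiag j hj) (by simp only [a, coeffs]; positivity)
  have d1 := free_drop_ge P (k + 1) β a K hw.le
  have d2 := hGd P
  have d3 : ((k : ℝ) - N) * (I - ε - C * w) ≤ fw k - fw N :=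
    telescope (fun i hi => by
      have := iw i hi
      have : I ≤ M i := hIe ▸ inf_le_mean hβ.le P (i + 1) a K (-w)
      linarith) hn0N k hk1
  push_cast at d1
  have hG := carry_back hq0 hk1 hk2 hε.le hw.le hC hA (by positivity) hsum d3 hup l0 hZe.ge hc d1 d2
  exact gibbs_large hβ hH0.le hw hN1 hCq hεH hZN' hG

/-- the Gibbs mean of the test grows with `∑ a_j` -/
theorem gibbs_ge {β : ℝ} (hβ1 : 1 < β) (K : ℕ) (hH0 : 0 < ∑ j ∈ range K, coeffs j) :
    ∀ᶠ N : ℕ in atTop,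
      (∑ j ∈ range K, coeffs j) / 256 ≤ β / (2 * ((N : ℝ) + 1)) * gibbsBil (N + 1) β coeffs K := by
  obtain ⟨w, _, h⟩ := secant_ge hβ1 K hH0
  filter_upwards [h] with N hN using hN _ fun P => free_drop_le P (N + 1) β coeffs K w

/-- drop of the plain free energy under the deformation `-w σ'φσ`, at fixed disorder -/
def dropAt (n : ℕ) (β : ℝ) (a : ℕ → ℝ) (K : ℕ) (w : ℝ) (g : Edge n → ℝ) : ℝ :=
  log (Vale.Agent.P168.MP.avg (wgt β a K 0 0 g)) - log (Vale.Agent.P168.MP.avg (wgt β a K (-w) 0 g))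

lemma integrable_dropAt (n : ℕ) [NeZero n] (β : ℝ) (a : ℕ → ℝ) (K : ℕ) (w : ℝ) :
    Integrable (dropAt n β a K w) (gauss (Edge n)) :=
  (eb_logAvg (n := n) β a K 0 0).integrable.sub (eb_logAvg (n := n) β a K (-w) 0).integrable

/-- the perturbation costs at most `2 cap` in the drop -/
lemma free_drop_le_plain (P : Par) (n : ℕ) [NeZero n] (β : ℝ) (a : ℕ → ℝ) (K : ℕ) (w : ℝ) :
    P.free n β a K 0 - P.free n β a K (-w) ≤ (∫ g, dropAt n β a K w g ∂gauss (Edge n)) + 2 * P.cap := by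
  have hu : ∀ u : P.Grid,
      (∫ g, logZ0 P.R (lin P.R) (P.wp (wgt β a K 0 0 g) u) ∂gauss (Edge n)) -
          ∫ g, logZ0 P.R (lin P.R) (P.wp (wgt β a K (-w) 0 g) u) ∂gauss (Edge n) ≤
        (∫ g, dropAt n β a K w g ∂gauss (Edge n)) + 2 * P.cap := fun u => by
    rw [← integral_sub (eb_logZ0 P β a K 0 0 u).integrable (eb_logZ0 P β a K (-w) 0 u).integrable]
    refine (integral_mono ((eb_logZ0 P β a K 0 0 u).integrable.sub (eb_logZ0 P β a K (-w) 0 u).integrable)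
      ((integrable_dropAt n β a K w).add (integrable_const (2 * P.cap))) fun g => ?_).trans_eq ?_
    · have h2 := abs_le.1 (abs_logZ0_wp_sub_le P (fun x => wgt_pos β a K 0 0 g x) u)
      have h3 := abs_le.1 (abs_logZ0_wp_sub_le P (fun x => wgt_pos β a K (-w) 0 g x) u)
      simp only [Pi.sub_apply, Pi.add_apply, dropAt]
      linarith
    · simp only [Pi.add_apply]
      rw [integral_add (integrable_dropAt n β a K w) (integrable_const _), integral_const, probReal_univ, one_smul]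
  have := P.nonempty_grid
  refine le_trans (le_of_eq ?_) ((Vale.Agent.P168.MP.avg_le_avg hu).trans_eq
    (Vale.Agent.P168.MP.avg_const _))
  exact (Vale.Agent.P168.MP.avg_sub _ _).symm

/-- **the plain drop is of order `w n ∑ a_j`** -/
theorem drop_ge {β : ℝ} (hβ1 : 1 < β) (K : ℕ) (hH0 : 0 < ∑ j ∈ range K, coeffs j) :
    ∃ w : ℝ, 0 < w ∧ ∀ᶠ N : ℕ in atTop,
      (∑ j ∈ range K, coeffs j) / 256 * w ≤
        β / (2 * ((N : ℝ) + 1)) * ∫ g, dropAt (N + 1) β coeffs K w g ∂gauss (Edge (N + 1)) := by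
  obtain ⟨w, hw, h⟩ := secant_ge hβ1 K hH0
  refine ⟨w, hw, ?_⟩
  filter_upwards [h] with N hN
  have := hN ((∫ g, dropAt (N + 1) β coeffs K w g ∂gauss (Edge (N + 1))) / w) fun P => by
    rw [mul_div_cancel₀ _ hw.ne']
    exact free_drop_le_plain P (N + 1) β coeffs K w
  rwa [← mul_div_assoc, le_div_iff₀ hw] at this

/-- the variance of the free energy diverges -/
theorem variance_diverges {β : ℝ} (hβ1 : 1 < β) :
    Tendsto (fun n : ℕ => Var[free (n := n) β; gauss (Edge n)]) atTop atTop := by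
  refine tendsto_atTop.2 fun C₀ => ?_
  obtain ⟨K, hK⟩ := harmonic_large (512 + 262144 * (|C₀| + 1))
  set a := coeffs
  set H := ∑ j ∈ range K, a j
  have hH : 512 + 262144 * (|C₀| + 1) ≤ H := hK
  have hH0 : 0 < H := by linarith [abs_nonneg C₀]
  obtain ⟨N₀, hN₀⟩ := eventually_atTop.1 (gibbs_ge hβ1 K hH0)
  obtain ⟨n₁, hn₁⟩ := eventually_atTop.1 (test_bound β a K (ε := 1) one_pos)
  refine eventually_atTop.2 ⟨max N₀ n₁ + 1, fun m hm => ?_⟩
  obtain ⟨N, rfl⟩ : ∃ N, m = N + 1 := ⟨m - 1, by omega⟩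
  have hS := hN₀ N (le_of_max_le_left (show max N₀ n₁ ≤ N by omega))
  have ht := hn₁ (N + 1) (by omega)
  rw [weight_eq] at ht
  push_cast at ht
  change _ ≤ _ * (H / 2 + 1) at ht
  by_contra hc'
  push Not at hc'
  have h7 : H / 512 ≤ max 0 (β / (2 * ((N : ℝ) + 1)) * gibbsBil (N + 1) β a K - 1) :=
    le_max_of_le_right (by linarith [abs_nonneg C₀])
  have h8 := pow_le_pow_left₀ (by positivity) h7 2
  have h9 : Var[free (n := N + 1) β; gauss (Edge (N + 1))] * (H / 2 + 1) ≤ |C₀| * H :=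
    mul_le_mul (hc'.le.trans (le_abs_self C₀)) (by linarith [abs_nonneg C₀]) (by positivity) (abs_nonneg C₀)
  have h10 := mul_le_mul_of_nonneg_left hH hH0.le
  linarith [h8.trans (ht.trans h9)]

end Vale.Agent.P146.Lower
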