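import Vale.Agent.P146.Lower.Marg.Gap

/-! P146 lower bound: near-minimisers of the functional are marginal at every `β > 1`. -/

open MeasureTheory ProbabilityTheory Real Finset
open Vale.Agent.P168.MP (lin)
open Vale.Agent.P157.Par (Prof dist1)
open Vale.Agent.P146.Lower.Marg

noncomputable section

namespace Vale.Agent.P146.Lower

variable {R : ℕ}

lemma top_eq' (hR : 1 ≤ R) (q : ℕ → ℝ) : top R q = 1 - (∑ i ∈ range R, q i) / R := by
  have : (R:ℝ) ≠ 0 := Nat.cast_ne_zero.2 (by omega)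
  simp only [top, sum_sub_distrib, sum_const, card_range, nsmul_eq_mul, mul_one]
  field_simp

lemma avg_close {f g : ℕ → ℝ} {e : ℝ} (he : 0 ≤ e) (h : ∀ i < R, |f i - g i| ≤ e) :
    |(∑ i ∈ range R, f i) / R - (∑ i ∈ range R, g i) / R| ≤ e := by
  rcases Nat.eq_zero_or_pos R with rfl | hR
  · simpa using he
  have hR0 : (0:ℝ) < R := Nat.cast_pos.2 hR
  rw [← sub_div, abs_div, abs_of_pos hR0, div_le_iff₀ hR0, ← sum_sub_distrib]
  refine (abs_sum_le_sum_abs _ _).trans ((sum_le_sum fun i hi => h i (mem_range.1 hi)).trans_eq ?_)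
  simp [mul_comm]

lemma dist1_le_of {r p : ℕ → ℝ} (hR : 1 ≤ R) {a : ℝ} {l : ℕ} (ha : 0 ≤ a)
    (h : ∀ i ≤ R, i ≠ l → |r i - p i| ≤ a) (hl : l < R) {b : ℝ} (hb : |r l - p l| ≤ b) :
    dist1 R r p ≤ 2 * a + b / R := by
  have hR0 : (0:ℝ) < R := Nat.cast_pos.2 (by omega)
  have h1 : ∑ i ∈ range R, |r i - p i| ≤ R * a + b := by
    rw [← add_sum_erase _ _ (mem_range.2 hl), add_comm (_ * a)]
    refine add_le_add hb ((sum_le_sum fun i hi => h i ?_ (mem_erase.1 hi).1).trans ?_)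
    · exact (mem_range.1 (mem_erase.1 hi).2).le
    · rw [sum_const, card_erase_of_mem (mem_range.2 hl), card_range, nsmul_eq_mul]
      exact mul_le_mul_of_nonneg_right (by exact_mod_cast Nat.sub_le R 1) ha
  have h2 := h R le_rfl (by omega)
  have h3 : (∑ i ∈ range R, |r i - p i|) / R ≤ a + b / R := by
    rw [div_le_iff₀ hR0, add_mul, div_mul_cancel₀ _ hR0.ne']; linarith
  unfold dist1; linarith

lemma integral_upper {a b ρ η E : ℝ} {f : ℝ → ℝ} (hab : a + ρ ≤ b) (hb : b ≤ a + 1) (hρ : 0 ≤ ρ) (hE : 0 ≤ E)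
    (hf : ContinuousOn f (Set.Icc a b)) (h1 : ∀ v ∈ Set.Icc a b, f v ≤ E)
    (h2 : ∀ v ∈ Set.Icc a (a + ρ), f v ≤ -η * (v - a) + E) :
    ∫ v in a..b, f v ≤ -(η * ρ ^ 2 / 2) + 2 * E := by
  have i1 : IntervalIntegrable f volume a (a + ρ) :=
    (hf.mono (Set.Icc_subset_Icc le_rfl hab)).intervalIntegrable_of_Icc (by linarith)
  have i2 : IntervalIntegrable f volume (a + ρ) b :=
    (hf.mono (Set.Icc_subset_Icc (by linarith) le_rfl)).intervalIntegrable_of_Icc hab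
  rw [← intervalIntegral.integral_add_adjacent_intervals i1 i2]
  have hl : Continuous fun v : ℝ => -η * (v - a) + E := by fun_prop
  have e1 : ∫ v in a..(a + ρ), f v ≤ ∫ v in a..(a + ρ), (-η * (v - a) + E) :=
    intervalIntegral.integral_mono_on (by linarith) i1 (hl.intervalIntegrable _ _) h2
  have e2 : ∫ v in (a + ρ)..b, f v ≤ ∫ _ in (a + ρ)..b, E :=
    intervalIntegral.integral_mono_on hab i2 intervalIntegrable_const fun v hv => h1 v ⟨by linarith [hv.1], hv.2⟩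
  have e3 : ∫ v in a..(a + ρ), (-η * (v - a) + E) = -(η * ρ ^ 2 / 2) + ρ * E := by
    rw [intervalIntegral.integral_add (Continuous.intervalIntegrable (by fun_prop) _ _) intervalIntegrable_const,
      intervalIntegral.integral_const_mul, intervalIntegral.integral_comp_sub_right (fun v => v) a,
      integral_id, intervalIntegral.integral_const, smul_eq_mul]
    ring
  rw [e3] at e1
  rw [intervalIntegral.integral_const, smul_eq_mul] at e2
  have hρ1 : ρ ≤ 1 := by linarith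
  have := mul_le_mul_of_nonneg_right hρ1 hE
  have := mul_le_mul_of_nonneg_right (show b - (a + ρ) ≤ 1 by linarith) hE
  linarith

/-- `r` moved down by `a` above level `l` and zero up to it -/
def shift (r : ℕ → ℝ) (l : ℕ) (a : ℝ) : ℕ → ℝ := fun i => if i ≤ l then 0 else r i - a

variable {β η K C e a : ℝ} {r : ℕ → ℝ} {l : ℕ}

lemma prof_shift (hr : Prof R r 1) (hl : l < R) (ha : 0 ≤ a) (h : a ≤ r l) : Prof R (shift r l a) 1 := by
  refine ⟨by simp [shift], fun i hi => ?_, ?_⟩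
  · simp only [shift]
    split_ifs with h1 h2 h2
    · exact le_rfl
    · have := Vale.Agent.P157.Par.Prof.le_of_le hr (show l ≤ i + 1 by omega) hi
      linarith
    · omega
    · linarith [hr.mono i hi]
  · simp only [shift, if_neg (show ¬R ≤ l by omega)]; linarith [hr.top]

lemma shift_off (hr : Prof R r 1) (ha : 0 ≤ a) (hbelow : ∀ i < l, r i ≤ a) (τ : ℝ) {i : ℕ} (hi : i ≤ R)
    (hne : i ≠ l) : |r i - Function.update (shift r l a) l τ i| ≤ a := by
  rw [Function.update_of_ne hne, shift]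
  split_ifs with h
  · rw [sub_zero, abs_of_nonneg (hr.upper hi).1]; exact hbelow i (by omega)
  · rw [sub_sub_cancel, abs_of_nonneg ha]

lemma prof_moved (hr : Prof R r 1) (hl : l < R) (hbelow : ∀ i < l, r i ≤ a) (ha : 0 ≤ a) {v : ℝ}
    (hv : v ∈ Set.Icc a (r l)) : Prof R (Function.update r l v) 1 :=
  prof_update hr hl (fun i hi => (hbelow i hi).trans hv.1) (ha.trans hv.1) (hv.2.trans (hr.mono l hl))

lemma prof_moved_shift (hr : Prof R r 1) (hl : l < R) (ha : 0 ≤ a) (h : a ≤ r l) {τ : ℝ}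
    (hτ : τ ∈ Set.Icc 0 (r l - a)) : Prof R (Function.update (shift r l a) l τ) 1 := by
  refine prof_update (prof_shift hr hl ha h) hl (fun i hi => ?_) hτ.1 ?_
  · simp only [shift, if_pos hi.le]; exact hτ.1
  · simp only [shift, if_neg (show ¬l + 1 ≤ l by omega)]
    linarith [hτ.2, hr.mono l hl]

lemma cont_gap (hK : 0 ≤ K) (hR : 1 ≤ R) (hl : l < R)
    (hlip : ∀ p q : ℕ → ℝ, Prof R p 1 → Prof R q 1 →
      (∀ j ≤ R, |Gm β R p j - Gm β R q j| ≤ K * (|p j - q j| + dist1 R p q)) ∧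
        |wbar β R p - wbar β R q| ≤ 2 * K * dist1 R p q)
    {s : Set ℝ} (hprof : ∀ v ∈ s, Prof R (Function.update r l v) 1) :
    ContinuousOn (fun v => gap β R (Function.update r l v) l) s := by
  have hG : LipschitzOnWith (2 * K).toNNReal (fun v => Gm β R (Function.update r l v) l) s := by
    refine LipschitzOnWith.of_dist_le_mul fun x hx y hy => ?_
    rw [Real.dist_eq, Real.dist_eq, Real.coe_toNNReal _ (by positivity)]
    refine ((hlip _ _ (hprof x hx) (hprof y hy)).1 l hl.le).trans ?_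
    have := dist1_le_of (b := |x - y|) (r := Function.update r l x) (p := Function.update r l y) hR le_rfl
      (fun i _ hne => by rw [Function.update_of_ne hne, Function.update_of_ne hne, sub_self, abs_zero]) hl
      (by rw [Function.update_self, Function.update_self])
    rw [Function.update_self, Function.update_self]
    have : |x - y| / R ≤ |x - y| := div_le_self (abs_nonneg _) (Nat.one_le_cast.2 hR)
    calc K * (|x - y| + dist1 R (Function.update r l x) (Function.update r l y))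
        ≤ K * (2 * |x - y|) := mul_le_mul_of_nonneg_left (by linarith) hK
      _ = 2 * K * |x - y| := by ring
  refine (hG.continuousOn.sub continuousOn_id).congr fun v _ => ?_
  simp [gap_eq]

lemma slope_bound {A τ c : ℝ} (hτ : 0 ≤ τ) (hA : 0 ≤ A) (hC : 0 ≤ C) (hη : 0 ≤ η) (hc : 0 ≤ c)
    (hx : c * (A + C * τ) ≤ 1 - η) : c ^ 2 * τ * (A + C * τ) ^ 2 - τ ≤ -η * τ := by
  have hx0 : 0 ≤ c * (A + C * τ) := by positivity
  have h := mul_le_mul_of_nonneg_left
    ((pow_le_of_le_one hx0 (hx.trans (by linarith)) two_ne_zero).trans hx) hτ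
  linarith

/-- below marginality, the lowest positive level cannot sit at a stationary point -/
lemma move_down_bad (hβ : 1 < β) (hη : 0 < η) (hη1 : η ≤ 1) (hK : 0 ≤ K) (hC : 0 ≤ C) (hR : 1 ≤ R)
    (hlip : ∀ p q : ℕ → ℝ, Prof R p 1 → Prof R q 1 →
      (∀ j ≤ R, |Gm β R p j - Gm β R q j| ≤ K * (|p j - q j| + dist1 R p q)) ∧
        |wbar β R p - wbar β R q| ≤ 2 * K * dist1 R p q)
    (hgap : ∀ (p : ℕ → ℝ) (l : ℕ) (T A : ℝ), l + 1 < R →
      Prof R p 1 → (∀ i ≤ l, p i = 0) → 0 ≤ T → T ≤ p (l + 1) → 0 ≤ A → β * A ≤ 1 →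
      (∀ τ ∈ Set.Icc 0 T, wbar β R (Function.update p l τ) ≤ A) → 1 ≤ β →
      ∀ E : ℝ, 0 ≤ E → Gm β R (Function.update p l T) l + C / R - T ≤ E →
        ∀ τ ∈ Set.Icc 0 T, Gm β R (Function.update p l τ) l - τ ≤ E + 2 * C / R ∧
          Gm β R (Function.update p l τ) l - τ ≤ β ^ 2 * τ * (A + C * τ) ^ 2 - τ + C / R)
    (hr : Prof R r 1) (he : 0 ≤ e) (hwt : |wbar β R r - top R r| ≤ e) (hcon : β * top R r < 1 - η)
    (hl : l + 1 < R) (ha : 0 ≤ a) (hbelow : ∀ i < l, r i ≤ a) (hhi : gap β R r l ≤ e)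
    {ρ₁ : ℝ} (hρ₁ : 0 < ρ₁) (hρb : a + ρ₁ ≤ r l) (hρC : ρ₁ * (4 * β * (C + 1)) ≤ η)
    (hS1 : (a + 1 / (R:ℝ) + e) * (4 * β * (1 + 4 * K)) ≤ η)
    (hS2 : (a + 1 / (R:ℝ) + e) * (8 * (4 + 16 * K + 6 * C)) ≤ η * ρ₁ ^ 2)
    (hint : ∫ v in r l..a, gap β R (Function.update r l v) l ≤ e * |a - r l|) : False := by
  have hlR : l < R := by omega
  have hu := hr.upper hlR.le
  have hal : a ≤ r l := by linarith
  have hβ0 : 0 < β := by linarith
  have hR1 : (1:ℝ) ≤ R := Nat.one_le_cast.2 hR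
  have hi0 : 0 < 1 / (R:ℝ) := by positivity
  obtain ⟨A, hAdef⟩ : ∃ A, A = (1 - η / 2) / β := ⟨_, rfl⟩
  have hA : 0 ≤ A := hAdef ▸ div_nonneg (by linarith) hβ0.le
  have hAβ : β * A = 1 - η / 2 := by rw [hAdef, mul_div_cancel₀ _ hβ0.ne']
  have hw : ∀ τ ∈ Set.Icc 0 (r l - a), wbar β R (Function.update (shift r l a) l τ) ≤ A := fun τ hτ => by
    have hd : dist1 R r (Function.update (shift r l a) l τ) ≤ 2 * a + 1 / R :=
      dist1_le_of hR ha (fun i hi hne => shift_off hr ha hbelow τ hi hne) hlR (by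
        rw [Function.update_self, abs_le]
        constructor <;> linarith [hτ.1, hτ.2, hu.1, hu.2])
    have h1 := (abs_le.1 (hlip r _ hr (prof_moved_shift hr hlR ha hal hτ)).2).1
    have h2 := mul_le_mul_of_nonneg_left hd (by positivity : 0 ≤ 2 * K)
    have h3 := (abs_le.1 hwt).2
    rw [hAdef, le_div_iff₀ hβ0]
    have h4 := mul_le_mul_of_nonneg_left (show wbar β R (Function.update (shift r l a) l τ) ≤
      top R r + e + 4 * K * (a + 1 / R) by
        have : 0 ≤ K * (1 / (R:ℝ)) := by positivity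
        linarith) hβ0.le
    have h5 : 0 ≤ β * K * e := by positivity
    have h6 : 0 ≤ β * (a + 1 / (R:ℝ)) := by positivity
    linarith
  have hcmp : ∀ v ∈ Set.Icc a (r l), |Gm β R (Function.update r l v) l -
      Gm β R (Function.update (shift r l a) l (v - a)) l| ≤ K * (4 * a + 1 / R) := by
    intro v hv
    have hτ : v - a ∈ Set.Icc 0 (r l - a) := ⟨by linarith [hv.1], by linarith [hv.2]⟩
    have hat : |Function.update r l v l - Function.update (shift r l a) l (v - a) l| ≤ a := by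
      rw [Function.update_self, Function.update_self, sub_sub_cancel, abs_of_nonneg ha]
    refine ((hlip _ _ (prof_moved hr hlR hbelow ha hv) (prof_moved_shift hr hlR ha hal hτ)).1 l hlR.le).trans
      (mul_le_mul_of_nonneg_left ?_ hK)
    have := dist1_le_of (b := a) hR ha (fun i hi hne => by
      rw [Function.update_of_ne hne (f := r)]; exact shift_off hr ha hbelow (v - a) hi hne) hlR hat
    have : a / R ≤ a := div_le_self ha hR1
    linarith
  obtain ⟨E, hEdef⟩ : ∃ E, E = e + a + K * (4 * a + 1 / R) + C / R := ⟨_, rfl⟩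
  have hE : 0 ≤ E := by rw [hEdef]; positivity
  have hend : Gm β R (Function.update (shift r l a) l (r l - a)) l + C / R - (r l - a) ≤ E := by
    have h1 := (abs_le.1 (hcmp (r l) ⟨hal, le_rfl⟩)).1
    rw [Function.update_eq_self l r] at h1
    rw [gap_eq] at hhi
    linarith
  have hgs := hgap (shift r l a) l (r l - a) A hl (prof_shift hr hlR ha hal) (fun i hi => by simp [shift, hi])
    (by linarith) (by simp only [shift, if_neg (show ¬l + 1 ≤ l by omega)]; linarith [hr.mono l hlR])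
    hA (by linarith) hw hβ.le E hE hend
  obtain ⟨E', hE'def⟩ : ∃ E', E' = E + 2 * (C / R) + K * (4 * a + 1 / R) := ⟨_, rfl⟩
  have hE' : 0 ≤ E' := by rw [hE'def]; positivity
  have hfb : ∀ v ∈ Set.Icc a (r l), gap β R (Function.update r l v) l ≤
      Gm β R (Function.update (shift r l a) l (v - a)) l - (v - a) + K * (4 * a + 1 / R) := fun v hv => by
    have h1 := (abs_le.1 (hcmp v hv)).2
    simp only [gap_eq, Function.update_self]
    linarith
  have hCR : 0 ≤ C / (R:ℝ) := by positivity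
  have hI := integral_upper (η := η / 4) (E := E') hρb (by linarith [hu.2]) hρ₁.le hE'
    (cont_gap hK hR hlR hlip fun v hv => prof_moved hr hlR hbelow ha hv)
    (fun v hv => by
      refine (hfb v hv).trans ?_
      have := (hgs (v - a) ⟨by linarith [hv.1], by linarith [hv.2]⟩).1
      rw [mul_div_assoc] at this
      linarith)
    (fun v hv => by
      have hvb : v ≤ r l := hv.2.trans hρb
      refine (hfb v ⟨hv.1, hvb⟩).trans ?_
      have h1 := (hgs (v - a) ⟨by linarith [hv.1], by linarith⟩).2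
      have hτ0 : 0 ≤ v - a := by linarith [hv.1]
      have hx : β * (A + C * (v - a)) ≤ 1 - η / 4 := by
        have h2 := mul_le_mul_of_nonneg_right (show v - a ≤ ρ₁ by linarith [hv.2])
          (show (0:ℝ) ≤ 4 * β * (C + 1) by positivity)
        have h4 : 0 ≤ β * (v - a) := by positivity
        linarith
      have := slope_bound hτ0 hA hC (by positivity) hβ0.le hx
      linarith)
  rw [intervalIntegral.integral_symm, abs_of_nonpos (by linarith)] at hint
  have hba : e * (-(a - r l)) ≤ e := mul_le_of_le_one_right he (by linarith [hu.2])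
  rw [hE'def, hEdef, show C / (R:ℝ) = C * (1 / R) by ring] at hI
  have g1 : 0 ≤ K * e := mul_nonneg hK he
  have g2 : 0 ≤ C * e := mul_nonneg hC he
  have g3 : 0 ≤ C * a := mul_nonneg hC ha
  have g4 : 0 ≤ K * (1 / (R:ℝ)) := by positivity
  linarith

lemma small_level {C₂ ρ : ℝ} (hβ0 : 0 ≤ β) (hη : 0 < η) (hη1 : η ≤ 1) (hC₂ : 0 ≤ C₂)
    (hρC : β * C₂ * ρ ≤ η / 4) (heη : β * e ≤ η / 4)
    (hwt : |wbar β R r - top R r| ≤ e) (hcon : β * top R r < 1 - η) {i : ℕ}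
    (h : 0 ≤ wbar β R r + C₂ * r i ∧ Gm β R r i ≤ β ^ 2 * r i * (wbar β R r + C₂ * r i) ^ 2)
    (h0 : 0 ≤ r i) (hgapi : -e ≤ gap β R r i) (hiρ : r i < ρ) : r i ≤ 2 * e / η := by
  have hx : β * (wbar β R r + C₂ * r i) ≤ 1 - η / 2 := by
    have := mul_le_mul_of_nonneg_left (abs_le.1 hwt).2 hβ0
    have := mul_le_mul_of_nonneg_left hiρ.le (mul_nonneg hβ0 hC₂)
    linarith
  have hx2 : (β * (wbar β R r + C₂ * r i)) ^ 2 ≤ 1 - η / 2 :=
    (pow_le_of_le_one (mul_nonneg hβ0 h.1) (hx.trans (by linarith)) two_ne_zero).trans hx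
  have := mul_le_mul_of_nonneg_left hx2 h0
  rw [gap_eq] at hgapi
  rw [le_div_iff₀ hη]
  linarith [h.2]

/-- an `e`-stationary profile is marginal up to `η`, with `e` polynomial in `η` -/
lemma stationary_marginal_poly (hβ : 1 < β) :
    ∃ κ₀ : ℝ, 0 < κ₀ ∧ ∀ η : ℝ, 0 < η → η ≤ 1 → ∀ (R : ℕ) (r : ℕ → ℝ) (e : ℝ), 1 ≤ R → Prof R r 1 → r R = 1 →
      0 ≤ e → e ≤ κ₀ * η ^ 4 → 1 / (R : ℝ) ≤ κ₀ * η ^ 4 → (∀ l < R, -e ≤ gap β R r l) →
      (∀ l < R, r l < 1 → gap β R r l ≤ e) →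
      (∀ l < R, ∀ x : ℝ, (∀ i < l, r i ≤ x) → 0 ≤ x → x ≤ r (l + 1) →
        ∫ v in r l..x, gap β R (Function.update r l v) l ≤ e * |x - r l|) →
      1 - η ≤ β * top R r := by
  obtain ⟨C₂, hC₂, hsmall⟩ := Gm_le_small β
  obtain ⟨K, hK, hlip⟩ := Gm_lip β
  obtain ⟨C, hC, hgap⟩ := gap_shape β
  have hβ0 : 0 < β := by linarith
  obtain ⟨d₁, hd₁, hd₁a, hd₁b⟩ : ∃ d₁ : ℝ, 0 < d₁ ∧ d₁ * (8 * β * (C₂ + 1)) ≤ 1 ∧ d₁ * (4 * β * (C + 1)) ≤ 1 :=
    ⟨min (1 / (8 * β * (C₂ + 1))) (1 / (4 * β * (C + 1))), lt_min (by positivity) (by positivity),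
      (le_div_iff₀ (by positivity)).1 (min_le_left _ _), (le_div_iff₀ (by positivity)).1 (min_le_right _ _)⟩
  obtain ⟨σ₀, hσ₀, hσ₀a, hσ₀b, hσ₀c⟩ : ∃ σ₀ : ℝ, 0 < σ₀ ∧ σ₀ ≤ d₁ ∧ σ₀ * (4 * β * (1 + 4 * K)) ≤ 1 ∧
      σ₀ * (8 * (4 + 16 * K + 6 * C)) ≤ d₁ ^ 2 :=
    ⟨min d₁ (min (1 / (4 * β * (1 + 4 * K))) (d₁ ^ 2 / (8 * (4 + 16 * K + 6 * C)))),
      lt_min hd₁ (lt_min (by positivity) (by positivity)), min_le_left _ _,
      (le_div_iff₀ (by positivity)).1 ((min_le_right _ _).trans (min_le_left _ _)),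
      (le_div_iff₀ (by positivity)).1 ((min_le_right _ _).trans (min_le_right _ _))⟩
  obtain ⟨κ₀, hκ₀, hκ₀a, hκ₀b⟩ : ∃ κ₀ : ℝ, 0 < κ₀ ∧ κ₀ ≤ exp (-(β ^ 2)) / 2 ∧ κ₀ * 4 ≤ σ₀ :=
    ⟨min (exp (-(β ^ 2)) / 2) (σ₀ / 4), lt_min (by positivity) (by positivity), min_le_left _ _,
      (le_div_iff₀ (by norm_num)).1 (min_le_right _ _)⟩
  refine ⟨κ₀, hκ₀, fun η hη hη1 => ?_⟩
  set κ := κ₀ * η ^ 4 with hκdef
  have hκ : 0 < κ := by positivity
  have hη3 : η ^ 3 ≤ η := pow_le_of_le_one hη.le hη1 (by norm_num)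
  obtain ⟨ρ, hρ, hρle, hd₁ρ⟩ : ∃ ρ : ℝ, 0 < ρ ∧ ρ * (4 * β * (C₂ + 1)) ≤ η ∧ d₁ * η ≤ ρ / 2 := by
    refine ⟨η / (4 * β * (C₂ + 1)), by positivity, (div_mul_cancel₀ _ (by positivity)).le, ?_⟩
    rw [div_div, le_div_iff₀ (by positivity)]
    linarith [mul_le_mul_of_nonneg_right hd₁a hη.le]
  obtain ⟨ρ₁, hρ₁, hρ₁ρ, hρ₁le, hρ₁eq⟩ : ∃ ρ₁ : ℝ, 0 < ρ₁ ∧ ρ₁ ≤ ρ / 2 ∧ ρ₁ * (4 * β * (C + 1)) ≤ η ∧
      ρ₁ = d₁ * η :=
    ⟨d₁ * η, by positivity, hd₁ρ, by linarith [mul_le_mul_of_nonneg_right hd₁b hη.le], rfl⟩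
  obtain ⟨σ, hσ, hσρ, hσ1, hσ2, hκσ⟩ : ∃ σ : ℝ, 0 < σ ∧ σ ≤ ρ / 2 ∧ σ * (4 * β * (1 + 4 * K)) ≤ η ∧
      σ * (8 * (4 + 16 * K + 6 * C)) ≤ η * ρ₁ ^ 2 ∧ κ * (2 + 2 / η) ≤ σ := by
    refine ⟨σ₀ * η ^ 3, by positivity, (mul_le_mul hσ₀a hη3 (by positivity) hd₁.le).trans hd₁ρ,
      by linarith [mul_le_mul_of_nonneg_right hσ₀b (pow_nonneg hη.le 3)], ?_, ?_⟩
    · rw [hρ₁eq]; linarith [mul_le_mul_of_nonneg_right hσ₀c (pow_nonneg hη.le 3)]
    · have h := mul_le_mul_of_nonneg_left (show 2 * η + 2 ≤ 4 by linarith) (show 0 ≤ κ₀ * η ^ 3 by positivity)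
      calc κ * (2 + 2 / η) = κ₀ * η ^ 3 * (2 * η + 2) := by rw [hκdef]; field_simp
        _ ≤ κ₀ * η ^ 3 * 4 := h
        _ ≤ σ₀ * η ^ 3 := by linarith [mul_le_mul_of_nonneg_right hκ₀b (pow_nonneg hη.le 3)]
  have hκ1 : κ ≤ exp (-(β ^ 2)) / 2 :=
    (mul_le_of_le_one_right hκ₀.le (pow_le_one₀ hη.le hη1)).trans hκ₀a
  intro R r e hR hr hr1 he heκ hRκ hlo hhi hint
  have hR0 : (0:ℝ) < R := Nat.cast_pos.2 (by omega)
  have h2e : 2 * e / η ≤ κ * (2 / η) := by
    rw [mul_comm κ, mul_div_right_comm]; exact mul_le_mul_of_nonneg_left heκ (by positivity)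
  have hση : σ ≤ η := by
    refine le_trans (le_mul_of_one_le_right hσ.le ?_) hσ1
    linarith [mul_nonneg hβ0.le hK]
  have heη : β * e ≤ η / 4 := by
    have h1 : e ≤ σ := heκ.trans (le_trans (le_mul_of_one_le_right hκ.le
      (by linarith [show 0 ≤ 2 / η by positivity])) hκσ)
    have h2 := mul_le_mul_of_nonneg_left h1 hβ0.le
    have h3 : 0 ≤ σ * (β * K) := by positivity
    linarith
  by_contra hcon
  push Not at hcon
  have hlt : ∀ i < R, r i < 1 := fun i hi => by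
    refine lt_of_le_of_ne (hr.upper hi.le).2 fun h => ?_
    have h1 := hlo i hi
    rw [gap_eq, h] at h1
    have h2 := Gm_le_exp (β := β) hr hi.le
    rw [h, mul_one] at h2
    linarith [exp_pos (-(β ^ 2))]
  have hgapabs : ∀ i < R, |gap β R r i| ≤ e := fun i hi => abs_le.2 ⟨hlo i hi, hhi i hi (hlt i hi)⟩
  have hwt : |wbar β R r - top R r| ≤ e := by
    rw [wbar_eq hR hr, top_eq' hR, show ∀ x y : ℝ, 1 - x - (1 - y) = -(x - y) from fun x y => by ring, abs_neg]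
    exact avg_close he fun i hi => hgapabs i hi
  have hρC : β * C₂ * ρ ≤ η / 4 := by linarith [mul_nonneg hρ.le hβ0.le]
  classical
  have hex : ∃ i, i = R ∨ ρ ≤ r i := ⟨R, Or.inl rfl⟩
  obtain ⟨l, hldef⟩ : ∃ l, l = Nat.find hex := ⟨_, rfl⟩
  have hlR : l ≤ R := hldef ▸ Nat.find_le (Or.inl rfl)
  obtain ⟨a, ha, ha2, hbelow⟩ : ∃ a, 0 ≤ a ∧ a ≤ 2 * e / η ∧ ∀ i < l, r i ≤ a := by
    rcases Nat.eq_zero_or_pos l with h | h
    · exact ⟨0, le_rfl, by positivity, fun i hi => by omega⟩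
    · have hlt' := Nat.find_min hex (show l - 1 < Nat.find hex by omega)
      push Not at hlt'
      refine ⟨r (l - 1), (hr.upper (by omega)).1, ?_, fun i hi =>
        Vale.Agent.P157.Par.Prof.le_of_le hr (by omega) (by omega)⟩
      exact small_level hβ0.le hη hη1 hC₂ hρC heη hwt hcon (hsmall R r hR hr _ (by omega))
        (hr.upper (by omega)).1 (hlo _ (by omega)) hlt'.2
  have hSσ : a + 1 / (R:ℝ) + e ≤ σ := by linarith
  rcases Nat.lt_or_ge (l + 1) R with hl | hl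
  · have hlR' : l < R := by omega
    have hb : ρ ≤ r l := hldef ▸ (Nat.find_spec hex).resolve_left (by omega)
    have haρ : a ≤ ρ / 2 := by linarith [show 0 ≤ 1 / (R:ℝ) by positivity]
    exact move_down_bad hβ hη hη1 hK hC hR (fun p q => hlip R p q hR) (fun p l T A => hgap R p l T A) hr he hwt
      hcon hl ha hbelow (hhi l hlR' (hlt l hlR')) hρ₁ (by linarith) hρ₁le
      ((mul_le_mul_of_nonneg_right hSσ (by positivity)).trans hσ1)
      ((mul_le_mul_of_nonneg_right hSσ (by positivity)).trans hσ2)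
      (hint l hlR' a hbelow ha (by linarith [hr.mono l hlR']))
  · have h1 : (∑ i ∈ range R, r i) / R ≤ a + 1 / R := by
      rw [div_le_iff₀ hR0, add_mul, div_mul_cancel₀ _ hR0.ne']
      calc ∑ i ∈ range R, r i ≤ ∑ i ∈ range R, (a + if i = R - 1 then 1 else 0) := sum_le_sum fun i hi => by
            have hi' := mem_range.1 hi
            split_ifs with h
            · linarith [(hr.upper hi'.le).2]
            · linarith [hbelow i (by omega)]
        _ = _ := by rw [sum_add_distrib, sum_ite_eq', if_pos (mem_range.2 (by omega))]; simp [mul_comm]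
    have h2 : 1 - η ≤ top R r := by rw [top_eq' hR]; linarith
    have h3 := mul_le_mul_of_nonneg_left h2 hβ0.le
    have h4 := le_mul_of_one_le_left (show 0 ≤ 1 - η by linarith) hβ.le
    linarith

/-- an `e`-stationary profile is marginal up to `η` -/
lemma stationary_marginal (hβ : 1 < β) (hη : 0 < η) (hη1 : η ≤ 1) :
    ∃ κ : ℝ, 0 < κ ∧ ∀ (R : ℕ) (r : ℕ → ℝ) (e : ℝ), 1 ≤ R → Prof R r 1 → r R = 1 → 0 ≤ e → e ≤ κ →
      1 / (R : ℝ) ≤ κ → (∀ l < R, -e ≤ gap β R r l) → (∀ l < R, r l < 1 → gap β R r l ≤ e) →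
      (∀ l < R, ∀ x : ℝ, (∀ i < l, r i ≤ x) → 0 ≤ x → x ≤ r (l + 1) →
        ∫ v in r l..x, gap β R (Function.update r l v) l ≤ e * |x - r l|) →
      1 - η ≤ β * top R r := by
  obtain ⟨κ₀, hκ₀, h⟩ := stationary_marginal_poly hβ
  exact ⟨κ₀ * η ^ 4, by positivity, h η hη hη1⟩

/-- **Marginality**: near-minimisers have `β top ≥ 1 - η` -/
theorem marginal {β : ℝ} (hβ : 1 < β) {η : ℝ} (hη : 0 < η) :
    ∃ ε : ℝ, 0 < ε ∧ ∃ R₀ : ℕ, ∀ (R : ℕ) (q : ℕ → ℝ), R₀ ≤ R → Prof R q 1 → q R = 1 →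
      Vsk β R q ≤ sInf (skValues β) + ε → 1 - η ≤ β * top R q := by
  obtain ⟨κ, hκ, hst⟩ := stationary_marginal hβ (η := min η 1 / 2) (by positivity)
    (by linarith [min_le_right η 1, le_min hη.le zero_le_one])
  have hβ0 : 0 < β := by linarith
  set s := min (κ / 4) (η / (2 * β))
  have hs : 0 < s := lt_min (by positivity) (by positivity)
  obtain ⟨R₀, hR₀⟩ := exists_nat_gt (1 / κ)
  refine ⟨s ^ 2, by positivity, max R₀ 1, fun R q hR hq hq1 hv => ?_⟩
  have hR1 : 1 ≤ R := le_of_max_le_right hR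
  obtain ⟨r, hr, hr1, hd, hlo, hhi, hint⟩ := first_order hβ.le (by positivity : (0:ℝ) < s ^ 2) hR1 hq hq1 hv
  rw [sqrt_sq hs.le] at hd hlo hhi hint
  have hRκ : 1 / (R:ℝ) ≤ κ := by
    rw [div_le_iff₀ (Nat.cast_pos.2 (by omega))]
    rw [div_lt_iff₀ hκ] at hR₀
    have : (R₀:ℝ) ≤ R := by exact_mod_cast le_of_max_le_left hR
    nlinarith
  have h := hst R r (4 * s) hR1 hr hr1 (by positivity)
    (by linarith [min_le_left (κ / 4) (η / (2 * β))]) hRκ hlo hhi hint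
  have htop : top R r - s ≤ top R q := by
    rw [top_eq' hR1, top_eq' hR1]
    have : (∑ i ∈ range R, q i) / R - (∑ i ∈ range R, r i) / R ≤ s := by
      rw [← sub_div, ← sum_sub_distrib]
      refine le_trans ?_ hd
      refine le_add_of_le_of_nonneg ?_ (abs_nonneg _)
      exact div_le_div_of_nonneg_right (sum_le_sum fun i _ => le_abs_self _) (Nat.cast_nonneg R)
    linarith
  have h2 := mul_le_mul_of_nonneg_left htop hβ0.le
  have h3 := mul_le_mul_of_nonneg_left (min_le_right (κ / 4) (η / (2 * β))) hβ0.le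
  rw [show β * (η / (2 * β)) = η / 2 by field_simp] at h3
  linarith [min_le_left η 1]

end Vale.Agent.P146.Lower
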