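import Vale.Agent.P146.Lower.RecMat
import Vale.Agent.P146.Lower.Cheb
import Vale.Agent.P157.Par.Interp

/-! P146 lower bound, recursion: derivatives of replica expectations in one coupling. -/

open MeasureTheory Finset Real Matrix
open Vale.Agent.P150 (gauss)
open Vale.Agent.P168.MP (lin ET spinAt att sp Valid Supp allBatch Mark Ok)
open Vale.Agent.P157.Par (qlev ovK ov devOf)

noncomputable section

namespace Vale.Agent.P146.Lower.Rec

set_option linter.unusedSectionVars false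

variable {n : ℕ}

/-- derivative of `U_j r` -/
def dvec (g : Edge n → ℝ) (e : Edge n) (j : ℕ) (r : Fin n → ℝ) (c : Fin n) : ℝ :=
  ∑ m ∈ range j, Fe e (cheb (Wm g) m c) (cheb (Wm g) (j - 1 - m) *ᵥ r) / √(n : ℝ)

/-- derivative of `σ' U_j τ` -/
def dbil (g : Edge n → ℝ) (e : Edge n) (j : ℕ) (x y : Cfg n) : ℝ :=
  ∑ m ∈ range j, Fe e (sv x ᵥ* cheb (Wm g) m) (cheb (Wm g) (j - 1 - m) *ᵥ sv y) / √(n : ℝ)

lemma hd_mulVec (g : Edge n → ℝ) (e : Edge n) (j : ℕ) (r : Fin n → ℝ) (c : Fin n) :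
    HasDerivAt (fun t => (cheb (Wm (Function.update g e t)) j *ᵥ r) c) (dvec g e j r c) (g e) := by
  simp only [Matrix.mulVec, dotProduct]
  refine (HasDerivAt.fun_sum fun i _ => (hasDerivAt_cheb g e j c i).mul_const (r i)).congr_deriv ?_
  simp only [Matrix.sum_apply, sum_div, sum_mul]
  rw [sum_comm]
  refine sum_congr rfl fun m _ => ?_
  have h := congrFun (Matrix.mulVec_mulVec r (cheb (Wm g) m * (Matrix.single e.1.1 e.1.2 (1:ℝ) +
    Matrix.single e.1.2 e.1.1 1)) (cheb (Wm g) (j - 1 - m))) c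
  simp only [Matrix.mulVec, dotProduct] at h
  simp only [div_mul_eq_mul_div]
  rw [← sum_div]
  refine congrArg (· / √(n:ℝ)) (h.symm.trans ?_)
  simp only [Fe, Matrix.mul_apply, Matrix.add_apply, Matrix.single_apply, Matrix.mulVec, dotProduct,
    mul_add, add_mul, sum_add_distrib, mul_ite, mul_one, mul_zero, ite_mul, zero_mul, ite_and,
    sum_ite_eq, mem_univ, if_true]

lemma hd_bil (g : Edge n → ℝ) (e : Edge n) (j : ℕ) (x y : Cfg n) :
    HasDerivAt (fun t => bil (cheb (Wm (Function.update g e t)) j) x y) (dbil g e j x y) (g e) := by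
  simp only [bil_eq, dotProduct]
  refine (HasDerivAt.fun_sum fun c _ => (hd_mulVec g e j (sv y) c).const_mul (sv x c)).congr_deriv ?_
  simp only [dvec, dbil, mul_sum]
  rw [sum_comm]
  refine sum_congr rfl fun m _ => ?_
  simp only [Fe, Matrix.vecMul, dotProduct, mul_div_assoc', ← sum_div, sum_mul, ← sum_add_distrib]
  exact congrArg (· / √(n:ℝ)) (sum_congr rfl fun c _ => by ring)

lemma bil_chebSum (a : ℕ → ℝ) (K : ℕ) (A : Matrix (Fin n) (Fin n) ℝ) (x y : Cfg n) :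
    bil (chebSum a K A) x y = ∑ i ∈ range K, a i * bil (cheb A (i + 1)) x y := by
  simp only [bil_eq, chebSum, Matrix.sum_mulVec, dotProduct_sum, Matrix.smul_mulVec, dotProduct_smul,
    smul_eq_mul]

lemma eb_mulVec {A : (Edge n → ℝ) → Matrix (Fin n) (Fin n) ℝ} (h : ∀ a b, EB fun g => A g a b)
    (r : Fin n → ℝ) (c : Fin n) : EB fun g => (A g *ᵥ r) c :=
  EB.sum univ fun i _ => (h c i).mul (EB.const (r i))

lemma eb_vecMul {A : (Edge n → ℝ) → Matrix (Fin n) (Fin n) ℝ} (h : ∀ a b, EB fun g => A g a b)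
    (r : Fin n → ℝ) (c : Fin n) : EB fun g => (r ᵥ* A g) c :=
  EB.sum univ fun i _ => (EB.const (r i)).mul (h i c)

lemma eb_Fe {p r : (Edge n → ℝ) → Fin n → ℝ} (hp : ∀ c, EB fun g => p g c) (hr : ∀ c, EB fun g => r g c)
    (e : Edge n) : EB fun g => Fe e (p g) (r g) :=
  ((hp _).mul (hr _)).add ((hp _).mul (hr _))

lemma eb_div {F : (Edge n → ℝ) → ℝ} (h : EB F) (c : ℝ) : EB fun g => F g / c := by
  simp only [div_eq_mul_inv]; exact h.mul (EB.const _)

lemma eb_dvec (e : Edge n) (j : ℕ) (r : Fin n → ℝ) (c : Fin n) :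
    EB fun g : Edge n → ℝ => dvec g e j r c :=
  EB.sum _ fun m _ => eb_div (eb_Fe (fun b => eb_cheb m c b) (eb_mulVec (eb_cheb _) r) e) _

lemma eb_dbil (e : Edge n) (j : ℕ) (x y : Cfg n) : EB fun g : Edge n → ℝ => dbil g e j x y :=
  EB.sum _ fun m _ => eb_div (eb_Fe (eb_vecMul (eb_cheb m) _) (eb_mulVec (eb_cheb _) _) e) _

lemma deriv_line {F F' : (Edge n → ℝ) → ℝ} {e : Edge n}
    (h : ∀ g, HasDerivAt (fun s => F (Function.update g e s)) (F' g) (g e)) (z : Edge n → ℝ) (t : ℝ) :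
    HasDerivAt (fun s => F (Function.update z e s)) (F' (Function.update z e t)) t := by
  simpa using h (Function.update z e t)

/-- the data of a perturbed system at a point of the grid -/
structure Dat (n : ℕ) where
  P : Par
  β : ℝ
  a : ℕ → ℝ
  K : ℕ
  lam : ℝ
  v : Cfg n → ℝ
  u : P.Grid

variable [NeZero n] (D : Dat n)

/-- the levels of the perturbation -/
abbrev Dat.R : ℕ := D.P.R

/-- the weight -/
def Dat.w (g : Edge n → ℝ) : List (Mark n D.P.S (allBatch D.P.R 2)) → ℝ :=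
  D.P.wp (wgt D.β D.a D.K D.lam D.v g) D.u

/-- expectation over two replicas splitting at level `l` -/
def Dat.E2 (g : Edge n → ℝ) (l : ℕ) (h : Cfg n → Cfg n → ℝ) : ℝ :=
  ET D.R (lin D.R) (D.w g) [(0, l), (0, 0)] fun ps =>
    h (spinAt D.R (ps.getD 0 [])) (spinAt D.R (ps.getD 1 []))

/-- signed sum over a third replica -/
def Dat.D3 (g : Edge n → ℝ) (l : ℕ) (h : Cfg n → Cfg n → Cfg n → ℝ) : ℝ :=
  ((att D.R (lin D.R) [(0, l), (0, 0)]).map fun c => c.2 *
    ET D.R (lin D.R) (D.w g) (c.1 :: [(0, l), (0, 0)]) fun ps =>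
      h (spinAt D.R (ps.getD 0 [])) (spinAt D.R (ps.getD 1 [])) (spinAt D.R (ps.getD 2 []))).sum

/-- mean overlaps -/
def Dat.q (g : Edge n → ℝ) : ℕ → ℝ := qlev D.R (D.w g) (spinAt D.R)

/-- deviation of the overlap from its mean -/
def Dat.dev (g : Edge n → ℝ) (s : ℕ) : ℝ := D.E2 g s fun x y => |ov x y - D.q g s|

/-- level values of `σ' U_j τ / n` -/
def Dat.t (g : Edge n → ℝ) (j l : ℕ) : ℝ := D.E2 g l fun x y => bil (cheb (Wm g) j) x y / n

/-- logarithmic derivative of the weight -/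
def Dat.xi (g : Edge n → ℝ) (e : Edge n) (z : Cfg n) : ℝ :=
  D.β * (bond z e / √(n : ℝ)) + D.lam * ∑ i ∈ range D.K, D.a i * dbil g e (i + 1) z z

/-- product of mean overlaps -/
def Dat.prod (g : Edge n → ℝ) (ss : List ℕ) : ℝ := (ss.map (D.q g)).prod

/-- derivative of a product of mean overlaps -/
def Dat.dprod (g : Edge n → ℝ) (e : Edge n) : List ℕ → ℝ
  | [] => 0
  | s :: ss => D.D3 g s (fun x y z => (ov x y - D.q g s) * D.xi g e z) * D.prod g ss +
      D.q g s * Dat.dprod g e ss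

lemma Dat.w_pos (g : Edge n → ℝ) (p : List (Mark n D.P.S (allBatch D.P.R 2))) : 0 < D.w g p :=
  wp_pos D.P (wgt_pos D.β D.a D.K D.lam D.v g) D.u p

lemma hd_w (g : Edge n → ℝ) (e : Edge n) (p : List (Mark n D.P.S (allBatch D.P.R 2))) :
    HasDerivAt (fun t => D.w (Function.update g e t) p) (D.w g p * D.xi g e (spinAt D.R p)) (g e) := by
  set x := spinAt D.R p
  have h : HasDerivAt (fun t => wgt D.β D.a D.K D.lam D.v (Function.update g e t) x)
      (wgt D.β D.a D.K D.lam D.v g x * D.xi g e x) (g e) := by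
    simp only [wgt, bil_chebSum]
    refine ((((Vale.Agent.P146.hasDerivAt_energy g e x (g e)).const_mul D.β).add
      ((HasDerivAt.fun_sum fun i _ => (hd_bil g e (i + 1) x x).const_mul (D.a i)).const_mul D.lam)).add_const
        (D.v x)).exp.congr_deriv ?_
    simp only [Pi.add_apply, Function.update_eq_self, Dat.xi]
  unfold Dat.w Par.wp Vale.Agent.P168.MP.pw
  refine (h.mul_const _).congr_deriv ?_
  ring

lemma Dat.E2_one (g : Edge n → ℝ) (l : ℕ) (c : ℝ) : D.E2 g l (fun _ _ => c) = c :=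
  Vale.Agent.P168.MP.ET_const (D.w_pos g) _ c

/-- derivative of an expectation over two replicas -/
lemma hd_E2 (g : Edge n → ℝ) (e : Edge n) {l : ℕ} (hl : l ≤ D.R) {f : ℝ → Cfg n → Cfg n → ℝ}
    {f' : Cfg n → Cfg n → ℝ} (hf : ∀ x y, HasDerivAt (fun t => f t x y) (f' x y) (g e)) :
    HasDerivAt (fun t => D.E2 (Function.update g e t) l (f t))
      (D.D3 g l (fun x y z => f (g e) x y * D.xi g e z) + D.E2 g l f') (g e) := by
  have hT : Valid D.R [(0, l), (0, 0)] := Vale.Agent.P157.Par.valid_pair hl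
  have he : D.w (Function.update g e (g e)) = D.w g := by rw [Function.update_eq_self]
  have h := Vale.Agent.P168.MP.hasDerivAt_ET (w := fun t => D.w (Function.update g e t)) (s := g e)
    (g := fun p => D.xi g e (spinAt D.R p))
    (by rw [he]; exact ok_wp D.P (wgt_pos D.β D.a D.K D.lam D.v g) D.u)
    (fun p => by rw [he]; exact hd_w D g e p) hT
    (F := fun t ps => f t (spinAt D.R (ps.getD 0 [])) (spinAt D.R (ps.getD 1 [])))
    (F' := fun ps => f' (spinAt D.R (ps.getD 0 [])) (spinAt D.R (ps.getD 1 []))) fun ps _ => hf _ _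
  simp only [he] at h
  refine h.congr_deriv ?_
  refine congrArg₂ (· + ·) (congrArg List.sum (List.map_congr_left fun c hc => congrArg (c.2 * ·) ?_)) rfl
  refine Vale.Agent.P168.MP.ET_congr (Vale.Agent.P168.MP.att_valid hT hc) fun ps hs => ?_
  obtain ⟨p0, p1, p2, rfl⟩ := List.length_eq_three.1 (show ps.length = 3 from hs.1)
  simp

lemma Dat.D3_add (g : Edge n → ℝ) (l : ℕ) (h h' : Cfg n → Cfg n → Cfg n → ℝ) :
    D.D3 g l (fun x y z => h x y z + h' x y z) = D.D3 g l h + D.D3 g l h' := by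
  simp only [Dat.D3, Vale.Agent.P168.MP.ET_add, mul_add, List.sum_map_add]

lemma Dat.D3_const_mul (g : Edge n → ℝ) (l : ℕ) (c : ℝ) (h : Cfg n → Cfg n → Cfg n → ℝ) :
    D.D3 g l (fun x y z => c * h x y z) = c * D.D3 g l h := by
  simp only [Dat.D3, Vale.Agent.P168.MP.ET_const_mul, ← List.sum_map_mul_left]
  exact congrArg List.sum (List.map_congr_left fun _ _ => mul_left_comm _ _ _)

lemma Dat.D3_sub (g : Edge n → ℝ) (l : ℕ) (h h' : Cfg n → Cfg n → Cfg n → ℝ) :
    D.D3 g l (fun x y z => h x y z - h' x y z) = D.D3 g l h - D.D3 g l h' := by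
  have e := D.D3_add g l (fun x y z => h x y z - h' x y z) h'
  simp only [sub_add_cancel] at e
  linarith

lemma Dat.D3_sum {ι : Type*} [Fintype ι] (g : Edge n → ℝ) (l : ℕ) (h : ι → Cfg n → Cfg n → Cfg n → ℝ) :
    D.D3 g l (fun x y z => ∑ i, h i x y z) = ∑ i, D.D3 g l (h i) := by
  simp only [Dat.D3, Vale.Agent.P168.MP.ET_sum, mul_sum]
  exact Vale.Agent.P168.MP.list_sum_map_finset_sum _ _ _

lemma Dat.E2_sum {ι : Type*} [Fintype ι] (g : Edge n → ℝ) (l : ℕ) (h : ι → Cfg n → Cfg n → ℝ) :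
    D.E2 g l (fun x y => ∑ i, h i x y) = ∑ i, D.E2 g l (h i) :=
  Vale.Agent.P168.MP.ET_sum _ _ _

lemma Dat.E2_const_mul (g : Edge n → ℝ) (l : ℕ) (c : ℝ) (h : Cfg n → Cfg n → ℝ) :
    D.E2 g l (fun x y => c * h x y) = c * D.E2 g l h :=
  Vale.Agent.P168.MP.ET_const_mul _ _ _

lemma hd_q (g : Edge n → ℝ) (e : Edge n) {s : ℕ} (hs : s ≤ D.R) :
    HasDerivAt (fun t => D.q (Function.update g e t) s)
      (D.D3 g s fun x y z => (ov x y - D.q g s) * D.xi g e z) (g e) := by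
  have h1 := hd_E2 D g e hs (f := fun _ x y => ov x y) (f' := fun _ _ => 0) fun _ _ => hasDerivAt_const _ _
  have h2 := hd_E2 D g e hs (f := fun _ _ _ => (1:ℝ)) (f' := fun _ _ => 0) fun _ _ => hasDerivAt_const _ _
  simp only [D.E2_one, one_mul, add_zero] at h1 h2
  have h0 := h2.unique (hasDerivAt_const _ _)
  refine (h1 : HasDerivAt (fun t => D.q (Function.update g e t) s) _ _).congr_deriv ?_
  simp only [sub_mul, D.D3_sub, D.D3_const_mul, h0, mul_zero, sub_zero]

lemma hd_prod (g : Edge n → ℝ) (e : Edge n) : ∀ {ss : List ℕ}, (∀ s ∈ ss, s ≤ D.R) →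
    HasDerivAt (fun t => D.prod (Function.update g e t) ss) (D.dprod g e ss) (g e)
  | [], _ => by simpa [Dat.prod, Dat.dprod] using hasDerivAt_const (g e) (1:ℝ)
  | s :: ss, h => by
    have hp := hd_prod g e (ss := ss) fun t ht => h t (List.mem_cons_of_mem _ ht)
    simp only [Dat.prod, List.map_cons, List.prod_cons, Dat.dprod]
    refine ((hd_q D g e (h s List.mem_cons_self)).mul hp).congr_deriv ?_
    simp only [Dat.prod, Function.update_eq_self]

lemma Dat.q_abs_le (g : Edge n → ℝ) (s : ℕ) : |D.q g s| ≤ 1 :=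
  Vale.Agent.P157.Par.abs_qlev_le (D.w_pos g) s

lemma Dat.prod_abs_le (g : Edge n → ℝ) : ∀ ss : List ℕ, |D.prod g ss| ≤ 1
  | [] => by simp [Dat.prod]
  | s :: ss => by
    simp only [Dat.prod, List.map_cons, List.prod_cons, abs_mul]
    exact mul_le_one₀ (D.q_abs_le g s) (abs_nonneg _) (Dat.prod_abs_le g ss)

lemma eb_E2 {f : (Edge n → ℝ) → Cfg n → Cfg n → ℝ} (hf : ∀ x y, EB fun g => f g x y) (l : ℕ) :
    EB fun g => D.E2 g l (f g) :=
  eb_ET D.P D.β D.a D.K D.lam D.v D.u (fun _ => (hf _ _).1)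
    (EB.sum univ fun x _ => EB.sum univ fun y _ => EB.abs' (hf x y)) fun g ps =>
    (single_le_sum (f := fun y => |f g (spinAt D.R (ps.getD 0 [])) y|) (fun _ _ => abs_nonneg _)
      (mem_univ (spinAt D.R (ps.getD 1 [])))).trans
      (single_le_sum (f := fun x => ∑ y, |f g x y|) (fun _ _ => sum_nonneg fun _ _ => abs_nonneg _)
        (mem_univ (spinAt D.R (ps.getD 0 []))))

lemma eb_D3 {f : (Edge n → ℝ) → Cfg n → Cfg n → Cfg n → ℝ} (hf : ∀ x y z, EB fun g => f g x y z) (l : ℕ) :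
    EB fun g => D.D3 g l (f g) :=
  eb_list _ fun c => (EB.const c.2).mul <|
    eb_ET D.P D.β D.a D.K D.lam D.v D.u (fun _ => (hf _ _ _).1)
    (EB.sum univ fun x _ => EB.sum univ fun y _ => EB.sum univ fun z _ => EB.abs' (hf x y z)) fun g ps =>
    (single_le_sum (f := fun z => |f g (spinAt D.R (ps.getD 0 [])) (spinAt D.R (ps.getD 1 [])) z|)
      (fun _ _ => abs_nonneg _) (mem_univ (spinAt D.R (ps.getD 2 [])))).trans <|
    (single_le_sum (f := fun y => ∑ z, |f g (spinAt D.R (ps.getD 0 [])) y z|)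
      (fun _ _ => sum_nonneg fun _ _ => abs_nonneg _) (mem_univ (spinAt D.R (ps.getD 1 [])))).trans
      (single_le_sum (f := fun x => ∑ y, ∑ z, |f g x y z|)
        (fun _ _ => sum_nonneg fun _ _ => sum_nonneg fun _ _ => abs_nonneg _)
        (mem_univ (spinAt D.R (ps.getD 0 []))))

lemma eb_q (s : ℕ) : EB fun g => D.q g s := eb_E2 D (f := fun _ x y => ov x y) (fun _ _ => EB.const _) s

lemma eb_xi (e : Edge n) (z : Cfg n) : EB fun g => D.xi g e z :=
  (EB.const _).add ((EB.const _).mul (EB.sum _ fun _ _ => (EB.const _).mul (eb_dbil e _ z z)))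

lemma eb_prod : ∀ ss : List ℕ, EB fun g => D.prod g ss
  | [] => EB.const 1
  | s :: ss => by
    simp only [Dat.prod, List.map_cons, List.prod_cons]
    exact (eb_q D s).mul (eb_prod ss)

lemma eb_dprod (e : Edge n) : ∀ ss : List ℕ, EB fun g => D.dprod g e ss
  | [] => EB.const 0
  | s :: ss => by
    simp only [Dat.dprod]
    exact ((eb_D3 D (fun _ _ z => ((EB.const _).sub (eb_q D s)).mul (eb_xi D e z)) s).mul (eb_prod D ss)).add
      ((eb_q D s).mul (eb_dprod e ss))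

lemma eb_t (j l : ℕ) : EB fun g => D.t g j l :=
  eb_E2 D (fun x y => eb_div (eb_bil (eb_cheb j) x y) _) l

lemma eb_dev (s : ℕ) : EB fun g => D.dev g s :=
  eb_E2 D (fun _ _ => EB.abs' ((EB.const _).sub (eb_q D s))) s

lemma eb_conv {R : ℕ} {q r : (Edge n → ℝ) → ℕ → ℝ} (hq : ∀ s, EB fun g => q g s) (hr : ∀ s, EB fun g => r g s)
    (l : ℕ) : EB fun g => conv R (q g) (r g) l :=
  eb_list _ fun _ => (EB.const _).mul ((hq _).mul (hr _))

lemma eb_lev : ∀ (j l : ℕ), EB fun g => lev D.β D.R (D.q g) j l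
  | 0, l => eb_q D l
  | j + 1, l => (EB.const _).mul (eb_conv (eb_q D) (eb_lev j) l)

lemma sum_abs_att (l : ℕ) : ((att D.R (lin D.R) [(0, l), (0, 0)]).map fun c => |c.2|).sum ≤ 6 :=
  (Vale.Agent.P157.Par.att_abs_sum_le _).trans_eq (by norm_num)

/-- a pair inside three replicas -/
lemma Dat.E_pair (g : Edge n → ℝ) {l : ℕ} (hl : l ≤ D.R) {c : (ℕ × ℕ) × ℝ}
    (hc : c ∈ att D.R (lin D.R) [(0, l), (0, 0)]) {i j : ℕ} (hi : i < 3) (hj : j < 3)
    (h : Cfg n → Cfg n → ℝ) :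
    ET D.R (lin D.R) (D.w g) (c.1 :: [(0, l), (0, 0)])
        (fun ps => h (spinAt D.R (ps.getD i [])) (spinAt D.R (ps.getD j []))) =
      D.E2 g (sp D.R (c.1 :: [(0, l), (0, 0)]) i j) h :=
  Vale.Agent.P157.Par.ET_two (D.w_pos g)
    (Vale.Agent.P168.MP.att_valid (Vale.Agent.P157.Par.valid_pair hl) hc) hi hj
    fun p p' => h (spinAt D.R p) (spinAt D.R p')

/-- bound by a function of the first two replicas -/
lemma Dat.abs_D3_le (g : Edge n → ℝ) {l : ℕ} (hl : l ≤ D.R) {h : Cfg n → Cfg n → Cfg n → ℝ}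
    {k : Cfg n → Cfg n → ℝ} {M : ℝ} (hh : ∀ x y z, |h x y z| ≤ M * k x y) :
    |D.D3 g l h| ≤ 6 * (M * D.E2 g l k) := by
  have h0 : 0 ≤ M * D.E2 g l k := by
    rw [← D.E2_const_mul]
    exact Vale.Agent.P168.MP.ET_nonneg (D.w_pos g) fun ps =>
      (abs_nonneg _).trans (hh _ _ (default : Cfg n))
  refine (Vale.Agent.P157.Par.abs_list_sum _ _).trans ((Vale.Agent.P157.Par.list_sum_le
    (g := fun c => |c.2| * (M * D.E2 g l k)) fun c hc => ?_).trans ?_)
  · rw [abs_mul]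
    refine mul_le_mul_of_nonneg_left ((Vale.Agent.P168.MP.ET_abs_le (D.w_pos g) _ _).trans
      ((Vale.Agent.P168.MP.ET_mono (D.w_pos g) fun ps => hh _ _ _).trans_eq ?_)) (abs_nonneg _)
    rw [Vale.Agent.P168.MP.ET_const_mul, D.E_pair g hl hc (i := 0) (j := 1) (by norm_num) (by norm_num) k]
    congr 2
    rw [Vale.Agent.P168.MP.sp_old D.R c.1 (by simp) (by simp)]
    simp [sp, min_eq_left hl]
  · rw [List.sum_map_mul_right]
    exact mul_le_mul_of_nonneg_right (sum_abs_att D l) h0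

end Vale.Agent.P146.Lower.Rec
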