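import Vale.Agent.P146.Lower.Basic

/-! P146 lower bound, recursion: edge sums of bilinear forms, norm bounds, integral inequalities. -/

open MeasureTheory Finset Real Matrix
open Vale.Agent.P150 (gauss)

noncomputable section

namespace Vale.Agent.P146.Lower.Rec

variable {n : ℕ}

/-- a configuration as a vector -/
def sv (x : Cfg n) : Fin n → ℝ := fun i => spin (x i)

/-- Euclidean norm -/
def nr (x : Fin n → ℝ) : ℝ := ‖(WithLp.toLp 2 x : EuclideanSpace ℝ (Fin n))‖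

/-- the symmetric edge form -/
def Fe (e : Edge n) (p r : Fin n → ℝ) : ℝ := p e.1.1 * r e.1.2 + p e.1.2 * r e.1.1

/-- the envelope -/
def Y (g : Edge n → ℝ) : ℝ := opn g + 2

lemma bil_eq (A : Matrix (Fin n) (Fin n) ℝ) (x y : Cfg n) : bil A x y = sv x ⬝ᵥ (A *ᵥ sv y) := by
  simp only [bil, sv, dotProduct, Matrix.mulVec, mul_sum, mul_assoc]

lemma sum_all_split (h : Fin n → Fin n → ℝ) :
    ∑ a, ∑ b, h a b = ∑ e : Edge n, (h e.1.1 e.1.2 + h e.1.2 e.1.1) + ∑ a, h a a := by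
  have hs : ∀ f : Fin n → Fin n → ℝ, ∑ e : Edge n, f e.1.1 e.1.2 = ∑ a, ∑ b, if a < b then f a b else 0 := by
    intro f
    rw [← Fintype.sum_prod_type' (f := fun a b => if a < b then f a b else 0), ← sum_filter]
    exact (sum_subtype _ (by simp) fun p : Fin n × Fin n => f p.1 p.2).symm
  rw [sum_add_distrib, hs, hs fun a b => h b a,
    sum_comm (f := fun a b => if a < b then h b a else 0),
    show ∑ a, h a a = ∑ a, ∑ b, if a = b then h a b else 0 from sum_congr rfl fun a _ => by simp,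
    ← sum_add_distrib, ← sum_add_distrib]
  refine sum_congr rfl fun a _ => ?_
  rw [← sum_add_distrib, ← sum_add_distrib]
  refine sum_congr rfl fun b _ => ?_
  rcases lt_trichotomy a b with h' | h' | h'
  · simp [h', h'.ne, h'.asymm]
  · simp [h']
  · simp [h', h'.ne', h'.asymm]

/-- product of two edge forms over all edges -/
lemma sum_Fe_Fe (p r p' r' : Fin n → ℝ) :
    ∑ e : Edge n, Fe e p r * Fe e p' r' =
      (p ⬝ᵥ p') * (r ⬝ᵥ r') + (p ⬝ᵥ r') * (r ⬝ᵥ p') - 2 * ∑ a, p a * r a * (p' a * r' a) := by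
  have h := sum_all_split fun a b => p a * r b * (p' a * r' b + p' b * r' a)
  have e1 : ∀ e : Edge n, p e.1.1 * r e.1.2 * (p' e.1.1 * r' e.1.2 + p' e.1.2 * r' e.1.1) +
      p e.1.2 * r e.1.1 * (p' e.1.2 * r' e.1.1 + p' e.1.1 * r' e.1.2) = Fe e p r * Fe e p' r' := fun e => by
    simp only [Fe]; ring
  have e2 : ∑ a, ∑ b, p a * r b * (p' a * r' b + p' b * r' a) =
      (p ⬝ᵥ p') * (r ⬝ᵥ r') + (p ⬝ᵥ r') * (r ⬝ᵥ p') := by
    simp only [dotProduct]
    rw [sum_mul_sum, sum_mul_sum, ← sum_add_distrib]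
    simp only [← sum_add_distrib]
    exact sum_congr rfl fun a _ => sum_congr rfl fun b _ => by ring
  simp only [e1] at h
  rw [e2] at h
  rw [h, mul_sum]
  have e3 : ∑ a, p a * r a * (p' a * r' a + p' a * r' a) = ∑ a, 2 * (p a * r a * (p' a * r' a)) :=
    sum_congr rfl fun a _ => by ring
  linarith

/-- the edge form against the derivative of `V r` -/
lemma sum_edge_trace (V : Matrix (Fin n) (Fin n) ℝ) (x r : Fin n → ℝ) :
    ∑ e : Edge n, (x e.1.1 * Fe e (V e.1.2) r + x e.1.2 * Fe e (V e.1.1) r) =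
      r ⬝ᵥ (V *ᵥ x) + V.trace * (x ⬝ᵥ r) - 2 * ∑ a, x a * V a a * r a := by
  have h := sum_all_split fun a b => x a * V b a * r b + x a * V b b * r a
  have e1 : ∀ e : Edge n, x e.1.1 * V e.1.2 e.1.1 * r e.1.2 + x e.1.1 * V e.1.2 e.1.2 * r e.1.1 +
      (x e.1.2 * V e.1.1 e.1.2 * r e.1.1 + x e.1.2 * V e.1.1 e.1.1 * r e.1.2) =
      x e.1.1 * Fe e (V e.1.2) r + x e.1.2 * Fe e (V e.1.1) r := fun e => by
    simp only [Fe]; ring
  have e2 : ∑ a, ∑ b, (x a * V b a * r b + x a * V b b * r a) =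
      r ⬝ᵥ (V *ᵥ x) + V.trace * (x ⬝ᵥ r) := by
    simp only [sum_add_distrib]
    congr 1
    · rw [sum_comm]
      simp only [dotProduct, Matrix.mulVec, mul_sum]
      exact sum_congr rfl fun a _ => sum_congr rfl fun b _ => by ring
    · simp only [Matrix.trace, Matrix.diag, dotProduct]
      rw [sum_mul_sum]
      conv_rhs => rw [sum_comm]
      exact sum_congr rfl fun a _ => sum_congr rfl fun b _ => by ring
  simp only [e1] at h
  rw [e2] at h
  rw [h, mul_sum]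
  have e3 : ∑ a, (x a * V a a * r a + x a * V a a * r a) = ∑ a, 2 * (x a * V a a * r a) :=
    sum_congr rfl fun a _ => by ring
  linarith

lemma cpl_edge (g : Edge n → ℝ) (e : Edge n) : cpl g e.1.1 e.1.2 = g e ∧ cpl g e.1.2 e.1.1 = g e := by
  constructor <;> simp [cpl, e.2, e.2.not_gt]

lemma cpl_self (g : Edge n → ℝ) (a : Fin n) : cpl g a a = 0 := by simp [cpl]

/-- a bilinear form of the coupling matrix as a linear form in the disorder -/
lemma dot_Wm (g : Edge n → ℝ) (x r : Fin n → ℝ) :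
    x ⬝ᵥ (Wm g *ᵥ r) = ∑ e, g e * (Fe e x r / √(n : ℝ)) := by
  simp only [dotProduct, Matrix.mulVec, mul_sum, Wm]
  rw [sum_all_split fun a b => x a * (cpl g a b / √(n : ℝ) * r b)]
  simp only [cpl_self, zero_div, zero_mul, mul_zero, sum_const_zero, add_zero]
  refine sum_congr rfl fun e _ => ?_
  rw [(cpl_edge g e).1, (cpl_edge g e).2, Fe]
  ring

/-! ### norms -/

lemma nr_nonneg (x : Fin n → ℝ) : 0 ≤ nr x := norm_nonneg _

lemma nr_sub_le (x y : Fin n → ℝ) : nr (x - y) ≤ nr x + nr y := norm_sub_le _ _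

lemma nr_sq (x : Fin n → ℝ) : nr x ^ 2 = x ⬝ᵥ x := by
  rw [nr, EuclideanSpace.norm_sq_eq]
  simp [dotProduct, sq]

lemma abs_dot_le (x y : Fin n → ℝ) : |x ⬝ᵥ y| ≤ nr x * nr y := by
  refine abs_le_of_sq_le_sq ?_ (mul_nonneg (nr_nonneg _) (nr_nonneg _))
  rw [mul_pow, nr_sq, nr_sq]
  simp only [dotProduct, ← sq]
  exact sum_mul_sq_le_sq_mul_sq univ x y

lemma nr_sv (x : Cfg n) : nr (sv x) = √(n : ℝ) := by
  rw [← Real.sqrt_sq (nr_nonneg _), nr_sq]
  congr 1
  have h : ∀ b : Bool, spin b * spin b = 1 := fun b => by cases b <;> simp [spin]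
  simp [dotProduct, sv, h]

lemma nr_Wm (g : Edge n → ℝ) (x : Fin n → ℝ) : nr (Wm g *ᵥ x) ≤ opn g * nr x := by
  have h := (Matrix.toEuclideanCLM (n := Fin n) (𝕜 := ℝ) (Wm g)).le_opNorm (WithLp.toLp 2 x)
  rwa [Matrix.toEuclideanCLM_toLp] at h

lemma two_le_Y (g : Edge n → ℝ) : 2 ≤ Y g := le_add_of_nonneg_left (norm_nonneg _)

lemma one_le_Y (g : Edge n → ℝ) : 1 ≤ Y g := one_le_two.trans (two_le_Y g)

lemma Y_pos (g : Edge n → ℝ) : 0 < Y g := two_pos.trans_le (two_le_Y g)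

lemma Y_pow_le (g : Edge n → ℝ) {i j : ℕ} (h : i ≤ j) : Y g ^ i ≤ Y g ^ j :=
  pow_le_pow_right₀ (one_le_Y g) h

lemma nr_cheb (g : Edge n → ℝ) : ∀ (j : ℕ) (x : Fin n → ℝ), nr (cheb (Wm g) j *ᵥ x) ≤ Y g ^ j * nr x
  | 0, x => by simp [cheb]
  | 1, x => by
    simp only [cheb, pow_one]
    exact (nr_Wm g x).trans (mul_le_mul_of_nonneg_right (le_add_of_nonneg_right zero_le_two) (nr_nonneg _))
  | j + 2, x => by
    have h0 := nr_cheb g j x
    have h1 := nr_cheb g (j + 1) x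
    simp only [cheb, Matrix.sub_mulVec, ← Matrix.mulVec_mulVec]
    refine (nr_sub_le _ _).trans ?_
    have hY := two_le_Y g
    have ho : opn g = Y g - 2 := by simp [Y]
    have h2 := (nr_Wm g (cheb (Wm g) (j + 1) *ᵥ x)).trans (mul_le_mul_of_nonneg_left h1 (norm_nonneg _ : 0 ≤ opn g))
    rw [ho] at h2
    have h3 : 0 ≤ Y g ^ j * nr x := mul_nonneg (pow_nonneg (Y_pos g).le _) (nr_nonneg _)
    have h4 := mul_le_mul_of_nonneg_right hY h3
    simp only [pow_succ] at h1 h2 ⊢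
    nlinarith

lemma nr_vecMul_cheb (g : Edge n → ℝ) (j : ℕ) (x : Fin n → ℝ) :
    nr (x ᵥ* cheb (Wm g) j) ≤ Y g ^ j * nr x := by
  set v := x ᵥ* cheb (Wm g) j
  rcases (nr_nonneg v).eq_or_lt with h | h
  · rw [← h]; exact mul_nonneg (pow_nonneg (Y_pos g).le _) (nr_nonneg _)
  refine le_of_mul_le_mul_right ?_ h
  calc nr v * nr v = x ⬝ᵥ (cheb (Wm g) j *ᵥ v) := by rw [← sq, nr_sq, Matrix.dotProduct_mulVec]
    _ ≤ nr x * (Y g ^ j * nr v) := (le_abs_self _).trans ((abs_dot_le _ _).trans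
        (mul_le_mul_of_nonneg_left (nr_cheb g j v) (nr_nonneg _)))
    _ = Y g ^ j * nr x * nr v := by ring

lemma abs_bil_cheb (g : Edge n → ℝ) (j : ℕ) (x y : Cfg n) :
    |bil (cheb (Wm g) j) x y| ≤ n * Y g ^ j := by
  rw [bil_eq]
  refine (abs_dot_le _ _).trans ((mul_le_mul_of_nonneg_left (nr_cheb g j _) (nr_nonneg _)).trans_eq ?_)
  rw [nr_sv, nr_sv, mul_left_comm, Real.mul_self_sqrt (Nat.cast_nonneg _), mul_comm]

lemma abs_diag_cheb (g : Edge n → ℝ) (j : ℕ) (a : Fin n) : |cheb (Wm g) j a a| ≤ Y g ^ j := by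
  have h1 : nr (Pi.single a (1 : ℝ)) = 1 := by
    rw [← Real.sqrt_sq (nr_nonneg _), nr_sq]; simp
  have h := (abs_dot_le (Pi.single a (1 : ℝ)) (cheb (Wm g) j *ᵥ Pi.single a 1)).trans
    (mul_le_mul_of_nonneg_left (nr_cheb g j _) (nr_nonneg _))
  simpa [h1, Matrix.mulVec, dotProduct, Pi.single_apply] using h

lemma abs_trace_le (g : Edge n → ℝ) (j : ℕ) : |(cheb (Wm g) j).trace| ≤ n * Y g ^ j :=
  (abs_sum_le_sum_abs _ _).trans ((sum_le_sum fun a _ => abs_diag_cheb g j a).trans_eq (by simp))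

lemma abs_sum_mul_mul_le (p r p' r' : Fin n → ℝ) :
    |∑ a, p a * r a * (p' a * r' a)| ≤ nr p * nr r * (nr p' * nr r') := by
  have hc : ∀ (v : Fin n → ℝ) a, |v a| ≤ nr v := fun v a => by
    refine abs_le_of_sq_le_sq ?_ (nr_nonneg _)
    rw [nr_sq, sq]
    exact single_le_sum (f := fun i => v i * v i) (fun i _ => mul_self_nonneg _) (mem_univ a)
  refine (abs_sum_le_sum_abs _ _).trans ((sum_le_sum (g := fun a => nr r * nr r' * (|p a| * |p' a|))
    fun a _ => ?_).trans ?_)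
  · rw [abs_mul, abs_mul, abs_mul]
    calc |p a| * |r a| * (|p' a| * |r' a|) = |r a| * |r' a| * (|p a| * |p' a|) := by ring
      _ ≤ _ := mul_le_mul_of_nonneg_right (mul_le_mul (hc r a) (hc r' a) (abs_nonneg _) (nr_nonneg _))
          (mul_nonneg (abs_nonneg _) (abs_nonneg _))
  · rw [← mul_sum]
    have h := (le_abs_self _).trans (abs_dot_le (fun a => |p a|) fun a => |p' a|)
    have e : ∀ v : Fin n → ℝ, nr (fun a => |v a|) = nr v := fun v => by
      rw [← Real.sqrt_sq (nr_nonneg _), nr_sq, ← Real.sqrt_sq (nr_nonneg v), nr_sq]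
      simp [dotProduct, abs_mul_abs_self]
    rw [e, e] at h
    exact (mul_le_mul_of_nonneg_left h (mul_nonneg (nr_nonneg _) (nr_nonneg _))).trans_eq (by ring)

lemma abs_sum_Fe_Fe_le (p r p' r' : Fin n → ℝ) :
    |∑ e : Edge n, Fe e p r * Fe e p' r'| ≤ 4 * (nr p * nr r * (nr p' * nr r')) := by
  rw [sum_Fe_Fe]
  have h1 : |(p ⬝ᵥ p') * (r ⬝ᵥ r')| ≤ nr p * nr r * (nr p' * nr r') := by
    rw [abs_mul, mul_mul_mul_comm (nr p)]
    exact mul_le_mul (abs_dot_le _ _) (abs_dot_le _ _) (abs_nonneg _) (mul_nonneg (nr_nonneg _) (nr_nonneg _))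
  have h2 : |(p ⬝ᵥ r') * (r ⬝ᵥ p')| ≤ nr p * nr r * (nr p' * nr r') := by
    rw [abs_mul, show nr p * nr r * (nr p' * nr r') = (nr p * nr r') * (nr r * nr p') by ring]
    exact mul_le_mul (abs_dot_le _ _) (abs_dot_le _ _) (abs_nonneg _) (mul_nonneg (nr_nonneg _) (nr_nonneg _))
  have h3 := abs_sum_mul_mul_le p r p' r'
  rw [abs_le] at h1 h2 h3 ⊢
  constructor <;> linarith [h1.1, h1.2, h2.1, h2.2, h3.1, h3.2]

/-! ### continuity and growth of the envelope -/

lemma opn_le_entries (g : Edge n → ℝ) : opn g ≤ ∑ a, ∑ b, |Wm g a b| := by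
  refine ContinuousLinearMap.opNorm_le_bound _ (sum_nonneg fun a _ => sum_nonneg fun b _ => abs_nonneg _)
    fun v => ?_
  obtain ⟨x, rfl⟩ : ∃ x : Fin n → ℝ, WithLp.toLp 2 x = v := ⟨v.ofLp, rfl⟩
  rw [Matrix.toEuclideanCLM_toLp]
  show nr (Wm g *ᵥ x) ≤ _ * nr x
  have hc : ∀ b, |x b| ≤ nr x := fun b => by
    refine abs_le_of_sq_le_sq ?_ (nr_nonneg _)
    rw [nr_sq, sq]
    exact single_le_sum (f := fun i => x i * x i) (fun i _ => mul_self_nonneg _) (mem_univ b)
  have hva : ∀ a, |(Wm g *ᵥ x) a| ≤ (∑ b, |Wm g a b|) * nr x := fun a => by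
    show |∑ b, Wm g a b * x b| ≤ _
    refine (abs_sum_le_sum_abs _ _).trans ?_
    rw [sum_mul]
    exact sum_le_sum fun b _ => (abs_mul _ _).trans_le (mul_le_mul_of_nonneg_left (hc b) (abs_nonneg _))
  set v := Wm g *ᵥ x
  set c := ∑ a, ∑ b, |Wm g a b|
  rcases (nr_nonneg v).eq_or_lt with h | h
  · rw [← h]; exact mul_nonneg (sum_nonneg fun a _ => sum_nonneg fun b _ => abs_nonneg _) (nr_nonneg _)
  refine le_of_mul_le_mul_right ?_ h
  calc nr v * nr v = v ⬝ᵥ v := by rw [← sq, nr_sq]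
    _ ≤ ∑ a, (∑ b, |Wm g a b|) * (nr x * nr v) := sum_le_sum fun a _ => by
        refine (le_abs_self _).trans ?_
        rw [abs_mul, ← mul_assoc]
        refine mul_le_mul (hva a) ?_ (abs_nonneg _)
          (mul_nonneg (sum_nonneg fun b _ => abs_nonneg _) (nr_nonneg _))
        refine abs_le_of_sq_le_sq ?_ (nr_nonneg _)
        rw [nr_sq, sq]
        exact single_le_sum (f := fun i => v i * v i) (fun i _ => mul_self_nonneg _) (mem_univ a)
    _ = c * nr x * nr v := by rw [← sum_mul, mul_assoc]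

lemma continuous_opn : Continuous (opn (n := n)) := by
  have h : Continuous fun A : Matrix (Fin n) (Fin n) ℝ => Matrix.toEuclideanCLM (n := Fin n) (𝕜 := ℝ) A :=
    (Matrix.toEuclideanCLM (n := Fin n) (𝕜 := ℝ)).toAlgEquiv.toLinearMap.continuous_of_finiteDimensional
  refine (h.comp ?_).norm
  exact continuous_pi fun a => continuous_pi fun b => ((eb_cpl a b).1).div_const _

lemma eb_Y : EB fun g : Edge n → ℝ => Y g := by
  have h : EB fun g : Edge n → ℝ => ∑ a, ∑ b, |Wm g a b| := eb_abs_entries fun a b => by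
    simp only [Wm, div_eq_mul_inv]; exact (eb_cpl a b).mul (EB.const _)
  refine EB.of_le (h.add (EB.const 2)) (continuous_opn.add continuous_const) fun g => ?_
  rw [abs_of_pos (Y_pos g)]
  exact add_le_add (opn_le_entries g) le_rfl

lemma eb_pow {S : Type*} [Fintype S] {F : (S → ℝ) → ℝ} (h : EB F) : ∀ k : ℕ, EB fun z => F z ^ k
  | 0 => by simpa using EB.const (S := S) 1
  | k + 1 => by simp only [pow_succ]; exact (eb_pow h k).mul h

lemma eb_list {S α : Type*} [Fintype S] (L : List α) {F : α → (S → ℝ) → ℝ} (h : ∀ a, EB (F a)) :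
    EB fun z => (L.map fun a => F a z).sum := by
  induction L with
  | nil => simpa using EB.const (S := S) 0
  | cons a L ih => simp only [List.map_cons, List.sum_cons]; exact (h a).add ih

/-- Cauchy-Schwarz -/
lemma integral_mul_le_sqrt {S : Type*} [Fintype S] {f h : (S → ℝ) → ℝ} (hf : EB f) (hh : EB h) :
    ∫ z, f z * h z ∂gauss S ≤ √(∫ z, f z ^ 2 ∂gauss S) * √(∫ z, h z ^ 2 ∂gauss S) := by
  have i1 := (eb_pow hf 2).integrable
  have i2 := (hf.mul hh).integrable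
  have i3 := (eb_pow hh 2).integrable
  set A := ∫ z, f z ^ 2 ∂gauss S
  set B := ∫ z, f z * h z ∂gauss S
  set C := ∫ z, h z ^ 2 ∂gauss S
  have key : ∀ t : ℝ, 0 ≤ A * (t * t) + 2 * B * t + C := fun t => by
    have h0 : 0 ≤ ∫ z, (t * f z + h z) ^ 2 ∂gauss S := integral_nonneg fun z => sq_nonneg _
    have e : (fun z => (t * f z + h z) ^ 2) = fun z => t * t * f z ^ 2 + 2 * t * (f z * h z) + h z ^ 2 := by
      funext z; ring
    have i12 : Integrable (fun z => t * t * f z ^ 2 + 2 * t * (f z * h z)) (gauss S) :=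
      (i1.const_mul _).add (i2.const_mul _)
    rw [e, integral_add i12 i3,
      integral_add (i1.const_mul _) (i2.const_mul _), integral_const_mul, integral_const_mul] at h0
    linarith
  have hd := discrim_le_zero key
  rw [discrim] at hd
  rw [← Real.sqrt_mul (integral_nonneg fun z => sq_nonneg _)]
  exact (le_abs_self B).trans (Real.abs_le_sqrt (by nlinarith))

end Vale.Agent.P146.Lower.Rec
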