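import Vale.Agent.P146.Lower.Basic

/-! P146 lower bound: the couplings of one more site, and the change of the Chebyshev bilinear forms. -/

open MeasureTheory Finset Real Matrix
open Vale.Agent.P150 (gauss dot)

noncomputable section

namespace Vale.Agent.P146.Lower

variable {n N : ℕ}

/-- old and new edges -/
def edgeMap : Edge N ⊕ Fin N → Edge (N + 1)
  | .inl e => ⟨(e.1.1.castSucc, e.1.2.castSucc), Fin.castSucc_lt_castSucc_iff.2 e.2⟩
  | .inr i => ⟨(i.castSucc, Fin.last N), Fin.castSucc_lt_last i⟩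

lemma edgeMap_bij : Function.Bijective (edgeMap (N := N)) := by
  refine ⟨?_, ?_⟩
  · rintro (e | i) (e' | i') h <;> simp only [edgeMap, Subtype.mk.injEq, Prod.mk.injEq] at h
    · exact congrArg Sum.inl (Subtype.ext (Prod.ext (Fin.castSucc_injective _ h.1)
        (Fin.castSucc_injective _ h.2)))
    · exact absurd h.2 (Fin.castSucc_lt_last _).ne
    · exact absurd h.2.symm (Fin.castSucc_lt_last _).ne
    · exact congrArg Sum.inr (Fin.castSucc_injective _ h.1)
  · rintro ⟨⟨a, b⟩, h⟩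
    induction a using Fin.lastCases with
    | last => exact absurd h (not_lt.2 (Fin.le_last _))
    | cast a =>
      induction b using Fin.lastCases with
      | last => exact ⟨.inr a, rfl⟩
      | cast b => exact ⟨.inl ⟨(a, b), Fin.castSucc_lt_castSucc_iff.1 h⟩, rfl⟩

/-- the edges of one more site -/
def edgeEquiv (N : ℕ) : Edge N ⊕ Fin N ≃ Edge (N + 1) := Equiv.ofBijective edgeMap edgeMap_bij

/-- couplings of the larger system -/
def join (g : Edge N → ℝ) (z : Fin N → ℝ) : Edge (N + 1) → ℝ :=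
  fun e => Sum.elim g z ((edgeEquiv N).symm e)

lemma join_apply (g : Edge N → ℝ) (z : Fin N → ℝ) (x : Edge N ⊕ Fin N) :
    join g z (edgeMap x) = Sum.elim g z x := by
  rw [join]; exact congrArg _ ((edgeEquiv N).symm_apply_apply x)

lemma measurePreserving_join :
    MeasurePreserving (fun p : (Edge N → ℝ) × (Fin N → ℝ) => join p.1 p.2)
      ((gauss (Edge N)).prod (gauss (Fin N))) (gauss (Edge (N + 1))) := by
  have h1 := measurePreserving_sumPiEquivProdPi_symm fun _ : Edge N ⊕ Fin N => (ProbabilityTheory.gaussianReal 0 1)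
  have h2 := measurePreserving_piCongrLeft (α := fun _ : Edge (N + 1) => ℝ) (fun _ => (ProbabilityTheory.gaussianReal 0 1))
    (edgeEquiv N)
  have h := h2.comp h1
  refine cast ?_ h
  show MeasurePreserving _ _ _ = MeasurePreserving _ _ _
  congr 1
  funext p e
  obtain ⟨x, rfl⟩ := (edgeEquiv N).surjective e
  simp only [Function.comp_apply, MeasurableEquiv.piCongrLeft_apply_apply, join, Equiv.symm_apply_apply]
  cases x <;> rfl

lemma cpl_self (g : Edge n → ℝ) (a : Fin n) : cpl g a a = 0 := by simp [cpl]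

lemma cpl_join (g : Edge N → ℝ) (z : Fin N → ℝ) (a b : Fin N) :
    cpl (join g z) a.castSucc b.castSucc = cpl g a b ∧
    cpl (join g z) a.castSucc (Fin.last N) = z a ∧ cpl (join g z) (Fin.last N) a.castSucc = z a := by
  refine ⟨?_, ?_, ?_⟩
  · unfold cpl
    simp only [Fin.castSucc_lt_castSucc_iff]
    split_ifs with h h'
    · exact join_apply g z (.inl ⟨(a, b), h⟩)
    · exact join_apply g z (.inl ⟨(b, a), h'⟩)
    · rfl
  · unfold cpl
    rw [dif_pos (Fin.castSucc_lt_last a)]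
    exact join_apply g z (.inr a)
  · unfold cpl
    rw [dif_neg (not_lt.2 (Fin.le_last _)), dif_pos (Fin.castSucc_lt_last a)]
    exact join_apply g z (.inr a)

/-- a configuration as a vector -/
def spv (x : Cfg n) : Fin n → ℝ := fun i => spin (x i)

/-- the couplings of the new spin -/
def uv (z : Fin N → ℝ) : Fin N → ℝ := fun i => z i / √((N : ℝ) + 1)

/-- the scale of the old couplings -/
def cs (N : ℕ) : ℝ := √(N : ℝ) / √((N : ℝ) + 1)

lemma energy_join [NeZero N] (g : Edge N → ℝ) (z : Fin N → ℝ) (τ : Cfg (N + 1)) :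
    energy (join g z) τ = cs N * energy g (fun i => τ i.castSucc) +
      spin (τ (Fin.last N)) * (uv z ⬝ᵥ spv fun i => τ i.castSucc) := by
  have hN : √(N:ℝ) ≠ 0 := (Real.sqrt_pos.2 (by exact_mod_cast NeZero.pos N)).ne'
  unfold energy
  rw [← (edgeEquiv N).sum_comp, Fintype.sum_sum_type]
  simp only [edgeEquiv, Equiv.ofBijective_apply, join_apply, Sum.elim_inl, Sum.elim_inr]
  simp only [bond, edgeMap, cs, uv, spv, dotProduct, Nat.cast_add, Nat.cast_one, mul_add, mul_sum]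
  congr 1
  · exact sum_congr rfl fun e _ => by field_simp
  · exact sum_congr rfl fun i _ => by ring

lemma mulVec_join [NeZero N] (g : Edge N → ℝ) (z : Fin N → ℝ) (v : Fin (N + 1) → ℝ) :
    (fun i : Fin N => (Wm (join g z) *ᵥ v) i.castSucc) =
        cs N • (Wm g *ᵥ fun i => v i.castSucc) + v (Fin.last N) • uv z ∧
      (Wm (join g z) *ᵥ v) (Fin.last N) = uv z ⬝ᵥ fun i => v i.castSucc := by
  have hN : √(N:ℝ) ≠ 0 := (Real.sqrt_pos.2 (by exact_mod_cast NeZero.pos N)).ne'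
  constructor
  · funext a
    simp only [mulVec, dotProduct, Pi.add_apply, Pi.smul_apply, smul_eq_mul, Fin.sum_univ_castSucc, Wm,
      (cpl_join g z a a).2.1, fun b => (cpl_join g z a b).1, cs, uv, Nat.cast_add, Nat.cast_one, mul_sum]
    congr 1
    · exact sum_congr rfl fun i _ => by field_simp
    · ring
  · simp only [mulVec, dotProduct, Fin.sum_univ_castSucc, Wm, cpl_self, fun b => (cpl_join g z b b).2.2,
      uv, Nat.cast_add, Nat.cast_one, zero_div, zero_mul, add_zero]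

lemma bil_eq (A : Matrix (Fin n) (Fin n) ℝ) (x y : Cfg n) : bil A x y = spv x ⬝ᵥ (A *ᵥ spv y) := by
  simp only [bil, spv, dotProduct, mulVec, mul_sum, mul_assoc]

lemma energy_bil (g : Edge n → ℝ) (x : Cfg n) : bil (Wm g) x x = 2 * energy g x := by
  classical
  set T := fun p : Fin n × Fin n => spin (x p.1) * Wm g p.1 p.2 * spin (x p.2)
  have hsym : ∀ p, T p.swap = T p := fun p => by
    have : cpl g p.2 p.1 = cpl g p.1 p.2 := by
      unfold cpl
      rcases lt_trichotomy p.1 p.2 with h | h | h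
      · rw [dif_pos h, dif_neg (not_lt.2 h.le), dif_pos h]
      · simp [h]
      · rw [dif_pos h, dif_neg (not_lt.2 h.le), dif_pos h]
    simp only [T, Wm, Prod.fst_swap, Prod.snd_swap, this]; ring
  have hd : ∀ p : Fin n × Fin n, ¬p.1 < p.2 → ¬p.2 < p.1 → T p = 0 := fun p h h' => by
    simp [T, Wm, cpl, h, h']
  have h1 : ∑ p, T p = 2 * ∑ p ∈ univ.filter (fun p : Fin n × Fin n => p.1 < p.2), T p := by
    rw [← sum_filter_add_sum_filter_not univ (fun p : Fin n × Fin n => p.1 < p.2), two_mul]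
    congr 1
    rw [← sum_filter_add_sum_filter_not (univ.filter fun p : Fin n × Fin n => ¬p.1 < p.2)
      (fun p => p.2 < p.1), sum_eq_zero (s := filter (fun p => ¬p.2 < p.1) _)
      (fun p hp => hd p (mem_filter.1 (mem_filter.1 hp).1).2 (mem_filter.1 hp).2), add_zero]
    refine sum_nbij' Prod.swap Prod.swap ?_ ?_ (fun _ _ => Prod.swap_swap _) (fun _ _ => Prod.swap_swap _)
      (fun p _ => (hsym p).symm) <;> intro p hp <;>
      simp only [mem_filter, mem_univ, true_and, Prod.fst_swap, Prod.snd_swap] at hp ⊢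
    · exact hp.2
    · exact ⟨not_lt.2 hp.le, hp⟩
  have h2 : ∑ p ∈ univ.filter (fun p : Fin n × Fin n => p.1 < p.2), T p = energy g x := by
    rw [sum_subtype (p := fun p : Fin n × Fin n => p.1 < p.2) _ (fun p => by simp), energy, mul_sum]
    exact sum_congr rfl fun e _ => by simp only [T, Wm, cpl, dif_pos e.2, bond]; ring
  rw [← h2, ← h1, Fintype.sum_prod_type]
  rfl

/-- Euclidean length -/
def nrm (v : Fin n → ℝ) : ℝ := ‖(WithLp.toLp 2 v : EuclideanSpace ℝ (Fin n))‖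

lemma nrm_nonneg (v : Fin n → ℝ) : 0 ≤ nrm v := norm_nonneg _

lemma nrm_add_le (v w : Fin n → ℝ) : nrm (v + w) ≤ nrm v + nrm w := by
  simp only [nrm, WithLp.toLp_add]; exact norm_add_le _ _

lemma nrm_sub_le (v w : Fin n → ℝ) : nrm (v - w) ≤ nrm v + nrm w := by
  simp only [nrm, WithLp.toLp_sub]; exact norm_sub_le _ _

lemma nrm_smul (c : ℝ) (v : Fin n → ℝ) : nrm (c • v) = |c| * nrm v := by
  simp only [nrm, WithLp.toLp_smul, norm_smul, Real.norm_eq_abs]

lemma nrm_sq (v : Fin n → ℝ) : nrm v ^ 2 = ∑ i, v i ^ 2 := EuclideanSpace.real_norm_sq_eq _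

lemma abs_dot_le_nrm (v w : Fin n → ℝ) : |v ⬝ᵥ w| ≤ nrm v * nrm w := by
  have h := abs_real_inner_le_norm (WithLp.toLp 2 w : EuclideanSpace ℝ (Fin n)) (WithLp.toLp 2 v)
  rw [EuclideanSpace.inner_toLp_toLp, star_trivial, mul_comm] at h
  exact h

lemma nrm_mulVec_le (g : Edge n → ℝ) (v : Fin n → ℝ) : nrm (Wm g *ᵥ v) ≤ opn g * nrm v := by
  rw [nrm, ← Matrix.toEuclideanCLM_toLp (𝕜 := ℝ)]
  exact ContinuousLinearMap.le_opNorm _ _

lemma nrm_spv (x : Cfg n) : nrm (spv x) = √(n : ℝ) := by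
  rw [← Real.sqrt_sq (nrm_nonneg (spv x)), nrm_sq]
  congr 1
  have h : ∀ i, spv x i ^ 2 = 1 := fun i => by cases h : x i <;> simp [spv, spin, h]
  simp [h]

lemma opn_nonneg (g : Edge n → ℝ) : 0 ≤ opn g := norm_nonneg _

/-- the Chebyshev iterates of a configuration -/
def chv (A : Matrix (Fin n) (Fin n) ℝ) (j : ℕ) (v : Fin n → ℝ) : Fin n → ℝ := cheb A j *ᵥ v

lemma chv_step (A : Matrix (Fin n) (Fin n) ℝ) (j : ℕ) (v : Fin n → ℝ) :
    chv A (j + 2) v = A *ᵥ chv A (j + 1) v - chv A j v := by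
  simp [chv, cheb, Matrix.sub_mulVec, Matrix.mulVec_mulVec]

lemma nrm_chv_le' (g : Edge n → ℝ) {A : Matrix (Fin n) (Fin n) ℝ}
    (hA : ∀ v, nrm (A *ᵥ v) ≤ opn g * nrm v) (x : Cfg n) (j : ℕ) :
    nrm (chv A j (spv x)) ≤ √(n : ℝ) * (opn g + 2) ^ j := by
  have hL := opn_nonneg g
  induction j using Nat.twoStepInduction with
  | zero => simp [chv, cheb, nrm_spv]
  | one =>
    simp only [chv, cheb, pow_one]
    refine (hA _).trans ?_
    rw [nrm_spv, mul_comm]
    exact mul_le_mul_of_nonneg_left (by linarith) (Real.sqrt_nonneg _)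
  | more j h1 h2 =>
    rw [chv_step]
    refine (nrm_sub_le _ _).trans ?_
    refine (add_le_add ((hA _).trans (mul_le_mul_of_nonneg_left h2 hL)) h1).trans ?_
    have : 0 ≤ √(n:ℝ) * (opn g + 2) ^ j := by positivity
    calc opn g * (√(n:ℝ) * (opn g + 2) ^ (j + 1)) + √(n:ℝ) * (opn g + 2) ^ j
        = √(n:ℝ) * (opn g + 2) ^ j * (opn g * (opn g + 2) + 1) := by ring
      _ ≤ √(n:ℝ) * (opn g + 2) ^ j * (opn g + 2) ^ 2 := by gcongr; nlinarith
      _ = _ := by ring

lemma nrm_chv_le (g : Edge n → ℝ) (x : Cfg n) (j : ℕ) :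
    nrm (chv (Wm g) j (spv x)) ≤ √(n : ℝ) * (opn g + 2) ^ j :=
  nrm_chv_le' g (nrm_mulVec_le g) x j

lemma Wm_symm (g : Edge n → ℝ) : (Wm g)ᵀ = Wm g := by
  ext i j
  simp only [Matrix.transpose_apply, Wm, cpl]
  rcases lt_trichotomy i j with h | h | h
  · simp [h, not_lt.2 h.le]
  · simp [h]
  · simp [h, not_lt.2 h.le]

lemma dot_mulVec_comm (g : Edge n → ℝ) (x y : Fin n → ℝ) : x ⬝ᵥ (Wm g *ᵥ y) = (Wm g *ᵥ x) ⬝ᵥ y := by
  rw [Matrix.dotProduct_mulVec, ← Matrix.mulVec_transpose, Wm_symm]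

/-- the iterates of the scaled couplings -/
def chc (g : Edge N → ℝ) (i : ℕ) (σ : Cfg N) : Fin N → ℝ := chv (cs N • Wm g) i (spv σ)

lemma one_sub_cs (N : ℕ) : 0 ≤ cs N ∧ cs N ≤ 1 ∧ (1 - cs N) * √(N : ℝ) ≤ 1 ∧
    (1 - cs N) * N ≤ 1 / 2 := by
  set a := √(N:ℝ)
  set b := √((N:ℝ) + 1)
  have ha : 0 ≤ a := Real.sqrt_nonneg _
  have hb : 1 ≤ b := Real.one_le_sqrt.2 (by linarith [Nat.cast_nonneg (α := ℝ) N])
  have hab : a ≤ b := Real.sqrt_le_sqrt (by linarith)
  have h2 : a ^ 2 = N := Real.sq_sqrt (Nat.cast_nonneg _)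
  have h3 : b ^ 2 = (N:ℝ) + 1 := Real.sq_sqrt (by positivity)
  have hsum : 0 < b + a := by linarith
  have e : 1 - cs N = 1 / (b * (b + a)) := by
    show 1 - a / b = _
    field_simp
    linear_combination h3 - h2
  refine ⟨div_nonneg ha (by linarith), (div_le_one (by linarith)).2 hab, ?_, ?_⟩
  · show (1 - cs N) * a ≤ 1
    rw [e, one_div_mul_eq_div, div_le_one (by positivity)]
    calc a ≤ 1 * (b + a) := by linarith
      _ ≤ b * (b + a) := mul_le_mul_of_nonneg_right hb hsum.le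
  · rw [e, one_div_mul_eq_div, div_le_iff₀ (by positivity), ← h2]
    nlinarith [mul_le_mul hab hab ha (by linarith : (0:ℝ) ≤ b), mul_le_mul_of_nonneg_right hab ha]

/-- size of the fields of the new spin -/
def gsum (K : ℕ) (g : Edge N → ℝ) (z : Fin N → ℝ) (σ : Cfg N) : ℝ :=
  1 + ∑ i ∈ range K, (|uv z ⬝ᵥ chv (Wm g) i (spv σ)| + |uv z ⬝ᵥ chc g i σ|)

/-- size of the couplings -/
def bigL (g : Edge N → ℝ) (z : Fin N → ℝ) : ℝ := opn g + 2 * nrm (uv z) + 4

lemma one_le_gsum (K : ℕ) (g : Edge N → ℝ) (z : Fin N → ℝ) (σ : Cfg N) : 1 ≤ gsum K g z σ :=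
  le_add_of_nonneg_right (sum_nonneg fun _ _ => add_nonneg (abs_nonneg _) (abs_nonneg _))

lemma abs_fields_le {K : ℕ} (g : Edge N → ℝ) (z : Fin N → ℝ) (σ : Cfg N) {i : ℕ} (hi : i < K) :
    |uv z ⬝ᵥ chv (Wm g) i (spv σ)| ≤ gsum K g z σ - 1 ∧ |uv z ⬝ᵥ chc g i σ| ≤ gsum K g z σ - 1 := by
  have h := single_le_sum (f := fun i => |uv z ⬝ᵥ chv (Wm g) i (spv σ)| + |uv z ⬝ᵥ chc g i σ|)
    (fun _ _ => add_nonneg (abs_nonneg _) (abs_nonneg _)) (mem_range.2 hi)
  simp only [gsum, add_sub_cancel_left]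
  exact ⟨(le_add_of_nonneg_right (abs_nonneg _)).trans h, (le_add_of_nonneg_left (abs_nonneg _)).trans h⟩

lemma chv_join_le [NeZero N] (g : Edge N → ℝ) (z : Fin N → ℝ) (τ : Cfg (N + 1)) (K : ℕ) :
    ∀ j, j ≤ K →
      nrm ((fun i : Fin N => chv (Wm (join g z)) j (spv τ) i.castSucc) -
          chv (Wm g) j (spv fun i => τ i.castSucc)) + |chv (Wm (join g z)) j (spv τ) (Fin.last N)| ≤
        bigL g z ^ (2 * j) * gsum K g z (fun i => τ i.castSucc) := by
  set σ : Cfg N := fun i => τ i.castSucc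
  set L := opn g
  set Λ := bigL g z with hΛdef
  set G := gsum K g z σ
  set U := nrm (uv z)
  set c := cs N
  set a := fun j => chv (Wm g) j (spv σ)
  set V := fun j => chv (Wm (join g z)) j (spv τ)
  have hL : 0 ≤ L := opn_nonneg g
  have hU : 0 ≤ U := nrm_nonneg _
  have hΛ : 4 ≤ Λ := by simp only [hΛdef, bigL]; linarith
  have hG : 1 ≤ G := one_le_gsum _ _ _ _
  have hu : ∀ i < K, |uv z ⬝ᵥ a i| ≤ G - 1 := fun i hi => (abs_fields_le g z σ hi).1
  obtain ⟨hc0, hc1, hcN, -⟩ := one_sub_cs N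
  have hsp : |spv τ (Fin.last N)| = 1 := by cases h : τ (Fin.last N) <;> simp [spv, spin, h]
  have hres : (fun i : Fin N => spv τ i.castSucc) = spv σ := rfl
  intro j
  induction j using Nat.twoStepInduction with
  | zero =>
    intro _
    simp only [chv, cheb, Matrix.one_mulVec, hres, sub_self, Nat.mul_zero, pow_zero, one_mul, hsp]
    simpa [nrm] using hG
  | one =>
    intro hK
    obtain ⟨e1, e2⟩ := mulVec_join g z (spv τ)
    simp only [chv, cheb, e1, e2, hres]
    rw [show c • (Wm g *ᵥ spv σ) + spv τ (Fin.last N) • uv z - Wm g *ᵥ spv σ =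
      (c - 1) • (Wm g *ᵥ spv σ) + spv τ (Fin.last N) • uv z from by rw [sub_smul, one_smul]; abel]
    have h0 := hu 0 (by omega)
    simp only [a, chv, cheb, Matrix.one_mulVec] at h0
    refine (add_le_add (nrm_add_le _ _) h0).trans ?_
    rw [nrm_smul, nrm_smul, hsp, one_mul, abs_sub_comm, abs_of_nonneg (sub_nonneg.2 hc1)]
    have h1 : (1 - c) * nrm (Wm g *ᵥ spv σ) ≤ L := by
      calc (1 - c) * nrm (Wm g *ᵥ spv σ) ≤ (1 - c) * (L * √(N:ℝ)) :=
            mul_le_mul_of_nonneg_left ((nrm_mulVec_le g _).trans_eq (by rw [nrm_spv])) (sub_nonneg.2 hc1)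
        _ = ((1 - c) * √(N:ℝ)) * L := by ring
        _ ≤ L := mul_le_of_le_one_left hL hcN
    have h2 : Λ * G ≤ Λ ^ (2 * 1) * G := mul_le_mul_of_nonneg_right (le_self_pow₀ (by linarith) (by norm_num)) (by linarith)
    have h3 : L + U + (G - 1) ≤ Λ * G := by
      have : L + U + 1 ≤ Λ := by simp only [hΛdef, bigL]; linarith
      have := mul_le_mul_of_nonneg_right this (show (0:ℝ) ≤ G by linarith)
      nlinarith [mul_nonneg (show 0 ≤ L + U by linarith) (show 0 ≤ G - 1 by linarith)]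
    linarith
  | more j ih0 ih1 =>
    intro hK
    have i0 := ih0 (by omega)
    have i1 := ih1 (by omega)
    obtain ⟨e1, e2⟩ := mulVec_join g z (V (j + 1))
    set ε0 := (fun i : Fin N => V j i.castSucc) - a j
    set ε1 := (fun i : Fin N => V (j + 1) i.castSucc) - a (j + 1)
    set r1 := V (j + 1) (Fin.last N)
    have f1 : (fun i : Fin N => V (j + 2) i.castSucc) - a (j + 2) =
        (c • (Wm g *ᵥ ε1) + (c - 1) • (Wm g *ᵥ a (j + 1)) + r1 • uv z) - ε0 := by
      have hV : (fun i : Fin N => V (j + 2) i.castSucc) =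
          (fun i : Fin N => (Wm (join g z) *ᵥ V (j + 1)) i.castSucc) - fun i : Fin N => V j i.castSucc := by
        funext i; simp [V, chv_step]
      rw [hV, e1, show a (j + 2) = Wm g *ᵥ a (j + 1) - a j from chv_step _ _ _]
      simp only [ε1, ε0, Matrix.mulVec_sub, smul_sub, sub_smul, one_smul]
      abel
    have f2 : V (j + 2) (Fin.last N) = uv z ⬝ᵥ a (j + 1) + uv z ⬝ᵥ ε1 - V j (Fin.last N) := by
      rw [show V (j + 2) = Wm (join g z) *ᵥ V (j + 1) - V j from chv_step _ _ _, Pi.sub_apply, e2]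
      simp only [ε1, dotProduct_sub]
      ring
    show nrm ((fun i : Fin N => V (j + 2) i.castSucc) - a (j + 2)) + |V (j + 2) (Fin.last N)| ≤ _
    rw [f1, f2]
    set X := Λ ^ (2 * (j + 1)) * G
    have b1 : nrm (c • (Wm g *ᵥ ε1) + (c - 1) • (Wm g *ᵥ a (j + 1)) + r1 • uv z) ≤
        L * nrm ε1 + L * (L + 2) ^ (j + 1) + |r1| * U := by
      refine (nrm_add_le _ _).trans (add_le_add ((nrm_add_le _ _).trans (add_le_add ?_ ?_)) (nrm_smul _ _).le)
      · rw [nrm_smul, abs_of_nonneg hc0]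
        exact (mul_le_of_le_one_left (nrm_nonneg _) hc1).trans (nrm_mulVec_le g _)
      · rw [nrm_smul, abs_sub_comm, abs_of_nonneg (sub_nonneg.2 hc1)]
        calc (1 - c) * nrm (Wm g *ᵥ a (j + 1)) ≤ (1 - c) * (L * (√(N:ℝ) * (L + 2) ^ (j + 1))) :=
              mul_le_mul_of_nonneg_left ((nrm_mulVec_le g _).trans
                (mul_le_mul_of_nonneg_left (nrm_chv_le g σ _) hL)) (sub_nonneg.2 hc1)
          _ = ((1 - c) * √(N:ℝ)) * (L * (L + 2) ^ (j + 1)) := by ring
          _ ≤ _ := mul_le_of_le_one_left (by positivity) hcN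
    have hL2 : L + 2 ≤ Λ := by simp only [hΛdef, bigL]; linarith
    have b2 : L * (L + 2) ^ (j + 1) ≤ Λ * X := by
      refine mul_le_mul (by linarith) ?_ (by positivity) (by linarith)
      calc (L + 2) ^ (j + 1) ≤ Λ ^ (j + 1) := pow_le_pow_left₀ (by linarith) hL2 _
        _ ≤ Λ ^ (2 * (j + 1)) := pow_le_pow_right₀ (by linarith) (by omega)
        _ ≤ _ := le_mul_of_one_le_right (by positivity) hG
    have b3 : Λ ^ (2 * j) * G ≤ X :=
      mul_le_mul_of_nonneg_right (pow_le_pow_right₀ (by linarith) (by omega)) (by linarith)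
    have b4 : G ≤ X := le_mul_of_one_le_left (by linarith) (one_le_pow₀ (by linarith))
    have b5 : (L + 2 * U) * (nrm ε1 + |r1|) ≤ (L + 2 * U) * X :=
      mul_le_mul_of_nonneg_left i1 (by positivity)
    have b6 : (L + 2 * U) * X = Λ * X - 4 * X := by simp only [hΛdef, bigL, L, U]; ring
    have b7 : 4 * (Λ * X) ≤ Λ ^ (2 * (j + 2)) * G := by
      rw [show Λ ^ (2 * (j + 2)) * G = Λ * (Λ * X) from by simp only [X]; ring]
      exact mul_le_mul_of_nonneg_right hΛ (mul_nonneg (by linarith) (by linarith))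
    have hdot := abs_dot_le_nrm (uv z) ε1
    have huj := hu (j + 1) (by omega)
    have t1 := abs_sub (uv z ⬝ᵥ a (j + 1) + uv z ⬝ᵥ ε1) (V j (Fin.last N))
    have t2 := abs_add_le (uv z ⬝ᵥ a (j + 1)) (uv z ⬝ᵥ ε1)
    have t3 := nrm_sub_le (c • (Wm g *ᵥ ε1) + (c - 1) • (Wm g *ᵥ a (j + 1)) + r1 • uv z) ε0
    have p1 := mul_nonneg hL (abs_nonneg r1)
    have p2 := mul_nonneg hU (nrm_nonneg ε1)
    have p3 := mul_nonneg hU (abs_nonneg r1)
    have p4 : 0 ≤ Λ * X := mul_nonneg (by linarith) (by linarith)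
    linarith

/-- the old configuration reads only linear forms of the new couplings -/
lemma dot_err_le [NeZero N] (g : Edge N → ℝ) (z : Fin N → ℝ) (τ : Cfg (N + 1)) (K : ℕ) :
    ∀ j m, m + j ≤ K →
      |chc g m (fun i => τ i.castSucc) ⬝ᵥ ((fun i : Fin N => chv (Wm (join g z)) j (spv τ) i.castSucc) -
          chv (Wm g) j (spv fun i => τ i.castSucc))| ≤
        3 ^ j * (2 * (bigL g z ^ (2 * K) * gsum K g z (fun i => τ i.castSucc) ^ 2)) := by
  set σ : Cfg N := fun i => τ i.castSucc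
  set L := opn g
  set Λ := bigL g z with hΛdef
  set G := gsum K g z σ
  set c := cs N
  set B := 2 * (Λ ^ (2 * K) * G ^ 2)
  set a := fun j => chv (Wm g) j (spv σ)
  set V := fun j => chv (Wm (join g z)) j (spv τ)
  have hL : 0 ≤ L := opn_nonneg g
  have hΛ : 1 ≤ Λ := by simp only [hΛdef, bigL]; linarith [nrm_nonneg (uv z)]
  have hG : 1 ≤ G := one_le_gsum _ _ _ _
  have hB : 0 ≤ B := by positivity
  obtain ⟨hc0, hc1, -, hcN⟩ := one_sub_cs N
  have hq : ∀ m, nrm (chc g m σ) ≤ √(N:ℝ) * (L + 2) ^ m := fun m => by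
    refine nrm_chv_le' g (fun v => ?_) σ m
    rw [Matrix.smul_mulVec, nrm_smul, abs_of_nonneg hc0]
    exact (mul_le_of_le_one_left (nrm_nonneg _) hc1).trans (nrm_mulVec_le g v)
  have src : ∀ m i, m + i + 1 ≤ K →
      |V i (Fin.last N) * (chc g m σ ⬝ᵥ uv z) + (c - 1) * (chc g m σ ⬝ᵥ (Wm g *ᵥ a i))| ≤ B := by
    intro m i hmi
    refine (abs_add_le _ _).trans ?_
    refine le_trans ?_ (two_mul (Λ ^ (2 * K) * G ^ 2)).ge
    refine add_le_add ?_ ?_
    · have h1 : |V i (Fin.last N)| ≤ Λ ^ (2 * K) * G := by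
        refine le_trans (le_trans (le_add_of_nonneg_left (nrm_nonneg _)) (chv_join_le g z τ K i (by omega))) ?_
        exact mul_le_mul_of_nonneg_right (pow_le_pow_right₀ hΛ (by omega)) (by linarith)
      have h2 : |chc g m σ ⬝ᵥ uv z| ≤ G := by
        rw [dotProduct_comm]; linarith [(abs_fields_le g z σ (show m < K by omega)).2]
      rw [abs_mul, show Λ ^ (2 * K) * G ^ 2 = (Λ ^ (2 * K) * G) * G by ring]
      exact mul_le_mul h1 h2 (abs_nonneg _) (by positivity)
    · rw [abs_mul, abs_sub_comm, abs_of_nonneg (sub_nonneg.2 hc1)]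
      have hpow : (L + 2) ^ (m + i + 1) ≤ Λ ^ (2 * K) :=
        (pow_le_pow_left₀ (by linarith) (by simp only [hΛdef, bigL]; linarith [nrm_nonneg (uv z)]) _).trans
          (pow_le_pow_right₀ hΛ (by omega))
      calc (1 - c) * |chc g m σ ⬝ᵥ (Wm g *ᵥ a i)|
          ≤ (1 - c) * ((√(N:ℝ) * (L + 2) ^ m) * ((L + 2) * (√(N:ℝ) * (L + 2) ^ i))) := by
            refine mul_le_mul_of_nonneg_left ((abs_dot_le_nrm _ _).trans (mul_le_mul (hq m)
              ((nrm_mulVec_le g _).trans (mul_le_mul (by linarith) (nrm_chv_le g σ i) (nrm_nonneg _)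
                (by linarith))) (nrm_nonneg _) (by positivity))) (sub_nonneg.2 hc1)
        _ = ((1 - c) * N) * (L + 2) ^ (m + i + 1) := by
            linear_combination ((1 - c) * (L + 2) ^ (m + i + 1)) * Real.mul_self_sqrt (Nat.cast_nonneg (α := ℝ) N)
        _ ≤ 1 * Λ ^ (2 * K) := mul_le_mul (by linarith) hpow (by positivity) zero_le_one
        _ ≤ Λ ^ (2 * K) * G ^ 2 := by rw [one_mul]; exact le_mul_of_one_le_right (by positivity) (one_le_pow₀ hG)
  intro j
  induction j using Nat.twoStepInduction with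
  | zero =>
    intro m _
    have h0 : (fun i : Fin N => chv (Wm (join g z)) 0 (spv τ) i.castSucc) - chv (Wm g) 0 (spv σ) = 0 := by
      simp only [chv, cheb, Matrix.one_mulVec]
      exact sub_eq_zero.2 rfl
    rw [h0, dotProduct_zero, abs_zero]
    positivity
  | one =>
    intro m hm
    have e1 := (mulVec_join g z (spv τ)).1
    have h := src m 0 (by omega)
    simp only [V, a, chv, cheb, Matrix.one_mulVec] at h
    simp only [chv, cheb, e1, dotProduct_sub, dotProduct_add, dotProduct_smul, smul_eq_mul]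
    refine le_trans (le_of_eq (congrArg abs ?_)) (h.trans (le_mul_of_one_le_left hB (by norm_num)))
    show c * (chc g m σ ⬝ᵥ (Wm g *ᵥ spv σ)) + _ - _ = _
    ring
  | more j ih0 ih1 =>
    intro m hm
    set ε0 := (fun i : Fin N => V j i.castSucc) - a j
    set ε1 := (fun i : Fin N => V (j + 1) i.castSucc) - a (j + 1)
    have f1 : (fun i : Fin N => V (j + 2) i.castSucc) - a (j + 2) =
        (c • (Wm g *ᵥ ε1) + (c - 1) • (Wm g *ᵥ a (j + 1)) + V (j + 1) (Fin.last N) • uv z) - ε0 := by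
      have hV : (fun i : Fin N => V (j + 2) i.castSucc) =
          (fun i : Fin N => (Wm (join g z) *ᵥ V (j + 1)) i.castSucc) - fun i : Fin N => V j i.castSucc := by
        funext i; simp [V, chv_step]
      rw [hV, (mulVec_join g z _).1, show a (j + 2) = Wm g *ᵥ a (j + 1) - a j from chv_step _ _ _]
      simp only [ε1, ε0, Matrix.mulVec_sub, smul_sub, sub_smul, one_smul]
      abel
    have hmove : |c * (chc g m σ ⬝ᵥ (Wm g *ᵥ ε1))| ≤ 2 * (3 ^ (j + 1) * B) := by
      rw [dot_mulVec_comm, ← smul_eq_mul, ← smul_dotProduct, ← Matrix.smul_mulVec]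
      have h1 : 0 ≤ (3:ℝ) ^ (j + 1) * B := by positivity
      match m, hm with
      | 0, hm =>
        have e : (c • Wm g) *ᵥ chc g 0 σ = chc g 1 σ := by simp [chc, chv, cheb, c]
        rw [e]
        exact (ih1 1 (by omega)).trans (by linarith)
      | m + 1, hm =>
        have e : (c • Wm g) *ᵥ chc g (m + 1) σ = chc g (m + 2) σ + chc g m σ := by
          simp [chc, chv_step, c]
        rw [e, add_dotProduct]
        exact (abs_add_le _ _).trans ((add_le_add (ih1 (m + 2) (by omega)) (ih1 m (by omega))).trans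
          (two_mul _).ge)
    have h0 : |chc g m σ ⬝ᵥ ε0| ≤ 3 ^ j * B := ih0 m (by omega)
    have hs := src m (j + 1) (by omega)
    show |chc g m σ ⬝ᵥ ((fun i : Fin N => V (j + 2) i.castSucc) - a (j + 2))| ≤ _
    rw [f1, dotProduct_sub, dotProduct_add, dotProduct_add, dotProduct_smul, dotProduct_smul, dotProduct_smul]
    simp only [smul_eq_mul]
    set A := c * (chc g m σ ⬝ᵥ (Wm g *ᵥ ε1))
    set X := (c - 1) * (chc g m σ ⬝ᵥ (Wm g *ᵥ a (j + 1)))
    set Y := V (j + 1) (Fin.last N) * (chc g m σ ⬝ᵥ uv z)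
    have hB1 : B ≤ 3 ^ j * B := le_mul_of_one_le_left hB (one_le_pow₀ (by norm_num))
    have he : (3:ℝ) ^ (j + 2) * B = 9 * (3 ^ j * B) := by ring
    have he' : (3:ℝ) ^ (j + 1) * B = 3 * (3 ^ j * B) := by ring
    have t1 := abs_sub (A + X + Y) (chc g m σ ⬝ᵥ ε0)
    have t2 := abs_add_le A (Y + X)
    rw [show A + (Y + X) = A + X + Y by ring] at t2
    have hp : 0 ≤ 3 ^ j * B := by positivity
    linarith

/-- the Chebyshev forms move by the squares of the fields of the new spin -/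
lemma bil_chebSum_join [NeZero N] (g : Edge N → ℝ) (z : Fin N → ℝ) (a : ℕ → ℝ) (K : ℕ) (τ : Cfg (N + 1)) :
    |bil (chebSum a K (Wm (join g z))) τ τ -
        bil (chebSum a K (Wm g)) (fun i => τ i.castSucc) (fun i => τ i.castSucc)| ≤
      (∑ j ∈ range K, |a j|) * (3 ^ (K + 1) * (bigL g z ^ (2 * K) * gsum K g z (fun i => τ i.castSucc) ^ 2)) := by
  set σ : Cfg N := fun i => τ i.castSucc
  have e : ∀ {m : ℕ} (A : Matrix (Fin m) (Fin m) ℝ) (x : Cfg m),
      bil (chebSum a K A) x x = ∑ j ∈ range K, a j * (spv x ⬝ᵥ chv A (j + 1) (spv x)) := fun A x => by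
    simp only [bil_eq, chebSum, Matrix.sum_mulVec, dotProduct_sum, Matrix.smul_mulVec, dotProduct_smul,
      smul_eq_mul, chv]
  rw [e, e, ← sum_sub_distrib, sum_mul]
  refine (abs_sum_le_sum_abs _ _).trans (sum_le_sum fun j hj => ?_)
  rw [← mul_sub, abs_mul]
  refine mul_le_mul_of_nonneg_left ?_ (abs_nonneg _)
  have hjK : j + 1 ≤ K := mem_range.1 hj
  set V := chv (Wm (join g z)) (j + 1) (spv τ)
  set b := chv (Wm g) (j + 1) (spv σ)
  have e2 : spv τ ⬝ᵥ V - spv σ ⬝ᵥ b =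
      chc g 0 σ ⬝ᵥ ((fun i : Fin N => V i.castSucc) - b) + spin (τ (Fin.last N)) * V (Fin.last N) := by
    simp only [chc, chv, cheb, Matrix.one_mulVec, dotProduct_sub]
    simp only [dotProduct, Fin.sum_univ_castSucc, spv, σ]
    ring
  have hL : (1:ℝ) ≤ bigL g z := by
    simp only [bigL]; linarith [opn_nonneg g, nrm_nonneg (uv z)]
  have hG := one_le_gsum K g z σ
  have hs : |spin (τ (Fin.last N))| = 1 := abs_spin _
  have hd : |chc g 0 σ ⬝ᵥ ((fun i : Fin N => V i.castSucc) - b)| ≤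
      3 ^ (j + 1) * (2 * (bigL g z ^ (2 * K) * gsum K g z σ ^ 2)) := dot_err_le g z τ K (j + 1) 0 (by omega)
  have hr : |V (Fin.last N)| ≤ bigL g z ^ (2 * K) * gsum K g z σ ^ 2 := by
    refine le_trans (le_trans (le_add_of_nonneg_left (nrm_nonneg _)) (chv_join_le g z τ K (j + 1) hjK)) ?_
    exact mul_le_mul (pow_le_pow_right₀ hL (by omega)) (le_self_pow₀ hG (by norm_num)) (by linarith) (by positivity)
  rw [e2]
  refine (abs_add_le _ _).trans ?_
  rw [abs_mul, hs, one_mul]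
  set X := bigL g z ^ (2 * K) * gsum K g z σ ^ 2
  have hX : 0 ≤ X := by positivity
  have h3 : (3:ℝ) ^ (j + 1) * X ≤ 3 ^ K * X :=
    mul_le_mul_of_nonneg_right (pow_le_pow_right₀ (by norm_num) hjK) hX
  have h4 : X ≤ 3 ^ K * X := le_mul_of_one_le_left hX (one_le_pow₀ (by norm_num))
  rw [show (3:ℝ) ^ (K + 1) * X = 3 * (3 ^ K * X) by ring]
  linarith

end Vale.Agent.P146.Lower
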