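import Vale.Agent.P146.Lower.SiteSplit
import Vale.Agent.P146.Lower.Alg
import Vale.Agent.P157.Par.Site
import Vale.Agent.P157.Par.Shift
import Vale.Agent.P157.Par.SiteInt

/-! P146 lower bound: what the cosh tilt of the new spin can move. -/

open MeasureTheory ProbabilityTheory Finset Real
open Vale.Agent.P150 (gauss dot l1)
open Vale.Agent.P168.MP (lin ET nest ok_lin)
open Vale.Agent.P157.Par (qlev adev devOf ovK cv Prof dist1 Phi)

noncomputable section

namespace Vale.Agent.P146.Lower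

variable {N : ℕ}

/-- coefficients of the field of the new spin -/
def cvec (β : ℝ) (σ : Cfg N) : Fin N → ℝ := fun i => β * spin (σ i) / √((N : ℝ) + 1)

lemma dot_cvec (β : ℝ) (σ : Cfg N) (z : Fin N → ℝ) :
    dot (cvec β σ) z = β * dotProduct (uv z) (spv σ) := by
  simp only [dot, cvec, uv, spv, dotProduct, mul_sum]
  exact sum_congr rfl fun i _ => by ring

lemma cv_cvec [NeZero N] (β : ℝ) (σ τ : Cfg N) :
    dot (cvec β σ) (cvec β τ) = β ^ 2 * (N / ((N:ℝ) + 1)) * Vale.Agent.P157.Par.ov σ τ := by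
  have hN : (N:ℝ) ≠ 0 := Nat.cast_ne_zero.2 (NeZero.ne N)
  simp only [dot, cvec, Vale.Agent.P157.Par.ov, Vale.Agent.P168.MP.avg, Fintype.card_fin, sum_div, mul_sum]
  refine sum_congr rfl fun i _ => ?_
  rw [div_mul_div_comm, Real.mul_self_sqrt (by positivity)]
  change _ = β ^ 2 * (N / ((N:ℝ) + 1)) * (spin (σ i) * spin (τ i) / N)
  field_simp

lemma cvec_self_le [NeZero N] (β : ℝ) (σ : Cfg N) : dot (cvec β σ) (cvec β σ) ≤ β ^ 2 := by
  rw [cv_cvec, Vale.Agent.P157.Par.ov_self, mul_one]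
  exact mul_le_of_le_one_right (sq_nonneg β) ((div_le_one (by positivity)).2 (by linarith))

lemma abs_le_of_dot {b : Fin N → ℝ} {V : ℝ} (h : dot b b ≤ V) (i : Fin N) : |b i| ≤ √V := by
  rw [← Real.sqrt_sq (abs_nonneg _), sq_abs, sq]
  exact Real.sqrt_le_sqrt ((single_le_sum (f := fun k => b k * b k) (fun k _ => mul_self_nonneg _)
    (mem_univ i)).trans h)

lemma cosh_dot_le {b : Fin N → ℝ} {V : ℝ} (h : dot b b ≤ V) (z : Fin N → ℝ) :
    cosh (dot b z) ≤ exp (√V * l1 z) := by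
  have h' := abs_le.1 (Vale.Agent.P150.abs_dot_le (abs_le_of_dot h) z)
  rw [cosh_eq]
  linarith [exp_le_exp.2 h'.2, exp_le_exp.2 (show -dot b z ≤ √V * l1 z by linarith)]

lemma pow_four_le_cosh (y : ℝ) : y ^ 4 ≤ 48 * cosh y := by
  have h1 := Real.pow_div_factorial_le_exp |y| (abs_nonneg y) 4
  have h2 := exp_pos (-|y|)
  rw [← cosh_abs y, cosh_eq]
  norm_num [Nat.factorial, Even.pow_abs (show Even 4 by decide)] at h1
  linarith

/-- moments of a Gaussian variable -/
def gmom (p : ℕ) : ℝ := ∫ t, t ^ (2 * p) ∂gaussianReal 0 1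

/-- moments of the new row -/
lemma nrm_uv_pow [NeZero N] (p : ℕ) : Integrable (fun z : Fin N → ℝ => nrm (uv z) ^ p) (gauss (Fin N)) ∧
    ∫ z : Fin N → ℝ, nrm (uv z) ^ p ∂gauss (Fin N) ≤ 1 + gmom p := by
  set F := fun z : Fin N → ℝ => 1 + (∑ i, z i ^ (2 * p)) / N
  have hN : (0:ℝ) < N := Nat.cast_pos.2 (NeZero.pos N)
  have hi : ∀ i : Fin N, EB (fun z : Fin N → ℝ => z i ^ (2 * p)) := fun i => by
    simpa using EB.prod (range (2 * p)) fun _ _ => EB.proj (S := Fin N) i
  have hE : ∀ i : Fin N, ∫ z : Fin N → ℝ, z i ^ (2 * p) ∂gauss (Fin N) = gmom p := fun i => by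
    have h := measurePreserving_eval (fun _ : Fin N => gaussianReal 0 1) i
    simp only [gmom, gauss]
    conv_rhs => rw [← h.map_eq]
    exact (integral_map h.measurable.aemeasurable (continuous_pow (2 * p)).aestronglyMeasurable).symm
  have hF : Integrable F (gauss (Fin N)) :=
    (integrable_const 1).add ((integrable_finsetSum _ fun i _ => (hi i).integrable).div_const _)
  have hle : ∀ z : Fin N → ℝ, nrm (uv z) ^ p ≤ F z := fun z => by
    set x := nrm (uv z)
    have hx : 0 ≤ x := nrm_nonneg _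
    have h1 : x ^ p ≤ 1 + (x ^ 2) ^ p := by
      rcases le_total x 1 with h | h
      · linarith [pow_le_one₀ (n := p) hx h, pow_nonneg (sq_nonneg x) p]
      · linarith [pow_le_pow_left₀ hx (le_self_pow₀ h two_ne_zero) p]
    have h2 : x ^ 2 ≤ ∑ i, (1 / (N:ℝ)) * z i ^ 2 := by
      rw [nrm_sq]
      refine sum_le_sum fun i _ => ?_
      rw [uv, div_pow, Real.sq_sqrt (by positivity), one_div_mul_eq_div]
      exact div_le_div_of_nonneg_left (sq_nonneg _) hN (by linarith)
    refine h1.trans (add_le_add le_rfl ((pow_le_pow_left₀ (sq_nonneg x) h2 p).trans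
      ((Real.pow_arith_mean_le_arith_mean_pow univ _ _ (fun i _ => by positivity) (by simp [hN.ne'])
        (fun i _ => sq_nonneg _) p).trans_eq ?_)))
    rw [sum_div]
    exact sum_congr rfl fun i _ => by rw [← pow_mul]; ring
  have hc : Continuous fun z : Fin N → ℝ => nrm (uv z) ^ p := by unfold nrm uv; fun_prop
  have hI := hF.mono' hc.aestronglyMeasurable (Filter.Eventually.of_forall fun z => by
    rw [Real.norm_eq_abs, abs_of_nonneg (pow_nonneg (nrm_nonneg _) _)]; exact hle z)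
  refine ⟨hI, (integral_mono hI hF hle).trans (le_of_eq ?_)⟩
  simp only [F]
  rw [integral_add (integrable_const _) ((integrable_finsetSum _ fun i _ => (hi i).integrable).div_const _),
    integral_div, integral_finsetSum _ fun i _ => (hi i).integrable]
  simp [hE, mul_div_cancel_left₀ _ hN.ne']

/-- the factor of the new spin on paths -/
def yF {Ω : Type} (β : ℝ) (rd : List Ω → Cfg N) (z : Fin N → ℝ) : List Ω → ℝ :=
  Vale.Agent.P157.Par.fac (fun x => log (cosh x)) (fun p => cvec β (rd p)) z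

variable {Ω : Type}

lemma yF_eq (β : ℝ) (rd : List Ω → Cfg N) (z : Fin N → ℝ) (p : List Ω) :
    yF β rd z p = cosh (dot (cvec β (rd p)) z) := exp_log (cosh_pos _)

lemma one_le_yF (β : ℝ) (rd : List Ω → Cfg N) (z : Fin N → ℝ) (p : List Ω) : 1 ≤ yF β rd z p := by
  rw [yF_eq]; exact one_le_cosh _

lemma yF_pos (β : ℝ) (rd : List Ω → Cfg N) (z : Fin N → ℝ) (p : List Ω) : 0 < yF β rd z p :=
  one_pos.trans_le (one_le_yF β rd z p)

lemma continuous_yF (β : ℝ) (rd : List Ω → Cfg N) (p : List Ω) : Continuous fun z => yF β rd z p := by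
  simp only [yF, Vale.Agent.P157.Par.fac]
  exact continuous_exp.comp (Vale.Agent.P157.Par.sm_logcosh.cont0.comp
    (Vale.Agent.P157.Par.continuous_dot_left _))

variable [Fintype Ω] [Nonempty Ω] [NeZero N] {R : ℕ} {w : List Ω → ℝ}

lemma log_nest_yF_bound (hR : 1 ≤ R) (hw : ∀ p, 0 < w p) (β : ℝ) (rd : List Ω → Cfg N) (z : Fin N → ℝ) :
    |log (nest (lin R) w (yF β rd z) R [])| ≤ √(β ^ 2) * l1 z := by
  refine Vale.Agent.P157.Par.abs_log_nest_le (ok_lin hR hw) fun p => ⟨?_, ?_⟩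
  · refine le_trans (exp_le_one_iff.2 ?_) (one_le_yF β rd z p)
    exact neg_nonpos.2 (mul_nonneg (Real.sqrt_nonneg _) (Vale.Agent.P150.l1_nonneg z))
  · rw [yF_eq]; exact cosh_dot_le (cvec_self_le β _) z

/-- the field of the new spin is worth the functional of the profile, up to the deviations -/
theorem value_yF (β : ℝ) : ∃ C : ℝ, 0 ≤ C ∧ ∀ {Ω : Type} [Fintype Ω] [Nonempty Ω] {N : ℕ} [NeZero N]
    {R : ℕ} (_ : 1 ≤ R) {w : List Ω → ℝ} (_ : ∀ p, 0 < w p) (rd : List Ω → Cfg N),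
      Phi cosh R (lin R) (fun l => β ^ 2 * qlev R w rd l) -
          C * (adev R w (ovK rd) (qlev R w rd) + 2 / ((N:ℝ) + 1)) ≤
        ∫ z, log (nest (lin R) w (yF β rd z) R []) ∂gauss (Fin N) := by
  obtain ⟨K, hK, hV⟩ := Vale.Agent.P157.Par.value_close Vale.Agent.P157.Par.sm_logcosh (β ^ 2)
  refine ⟨K * β ^ 2, by positivity, fun {Ω} _ _ {N} _ {R} hR {w} hw rd => ?_⟩
  obtain ⟨hq, -⟩ := Vale.Agent.P157.Par.qlev_prof (R := R) (rd := rd) hw
  set q := qlev R w rd
  have h := hV hR hw (a := fun p => cvec β (rd p)) (fun p => cvec_self_le β _)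
    (q := fun l => β ^ 2 * q l) (by simpa using hq.scale (sq_nonneg β))
  rw [Vale.Agent.P157.Par.cosh_eq_exp] at h
  have hN : (0:ℝ) < (N:ℝ) + 1 := by positivity
  have hd : ∀ l, devOf R w (cv fun p => cvec β (rd p)) (fun l => β ^ 2 * q l) l ≤
      β ^ 2 * devOf R w (ovK rd) q l + β ^ 2 * (1 / ((N:ℝ) + 1)) := fun l => by
    refine (Vale.Agent.P168.MP.ET_mono hw (G := fun ps => β ^ 2 *
      |ovK rd (ps.getD 0 []) (ps.getD 1 []) - q l| + β ^ 2 * (1 / ((N:ℝ) + 1))) fun ps => ?_).trans_eq ?_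
    · have hov := Vale.Agent.P157.Par.abs_ov_le (rd (ps.getD 0 [])) (rd (ps.getD 1 []))
      simp only [cv, cv_cvec, ovK]
      set o := Vale.Agent.P157.Par.ov (rd (ps.getD 0 [])) (rd (ps.getD 1 []))
      rw [show β ^ 2 * (N / ((N:ℝ) + 1)) * o - β ^ 2 * q l =
        β ^ 2 * ((o - q l) - o * (1 / ((N:ℝ) + 1))) by field_simp; ring, abs_mul,
        abs_of_nonneg (sq_nonneg β), ← mul_add]
      refine mul_le_mul_of_nonneg_left ((abs_sub _ _).trans (add_le_add le_rfl ?_)) (sq_nonneg β)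
      rw [abs_mul, abs_of_pos (div_pos one_pos hN)]
      exact mul_le_of_le_one_left (div_pos one_pos hN).le hov
    · rw [Vale.Agent.P168.MP.ET_add, Vale.Agent.P168.MP.ET_const_mul, Vale.Agent.P168.MP.ET_const hw]
      rfl
  have hR' : (0:ℝ) < R := Nat.cast_pos.2 hR
  have hA : adev R w (cv fun p => cvec β (rd p)) (fun l => β ^ 2 * q l) ≤
      β ^ 2 * (adev R w (ovK rd) q + 2 / ((N:ℝ) + 1)) := by
    unfold adev
    refine (add_le_add (div_le_div_of_nonneg_right (sum_le_sum fun l _ => hd l) hR'.le) (hd R)).trans_eq ?_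
    rw [sum_add_distrib, ← mul_sum, sum_const, card_range, nsmul_eq_mul]
    field_simp
    ring
  have := (abs_le.1 h).1
  have h' := mul_le_mul_of_nonneg_left hA hK
  rw [← mul_assoc] at h'
  change _ ≤ ∫ z, log (nest (lin R) w (Vale.Agent.P157.Par.fac (fun x => log (cosh x)) (fun p => cvec β (rd p)) z) R []) ∂_
  linarith

/-- deviations under the tilt, averaged over the field -/
lemma tilt_adev (hR : 1 ≤ R) (hw : ∀ p, 0 < w p) (β : ℝ) (rd : List Ω → Cfg N) (q : ℕ → ℝ) :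
    Integrable (fun z => adev R (fun p => w p * yF β rd z p) (ovK rd) q) (gauss (Fin N)) ∧
      ∫ z, adev R (fun p => w p * yF β rd z p) (ovK rd) q ∂gauss (Fin N) ≤
        exp (2 * β ^ 2) * adev R w (ovK rd) q := by
  have hwY : ∀ z p, 0 < w p * yF β rd z p := fun z p => mul_pos (hw p) (yF_pos β rd z p)
  have h : ∀ l ≤ R, Integrable (fun z => devOf R (fun p => w p * yF β rd z p) (ovK rd) q l) (gauss (Fin N)) ∧
      ∫ z, devOf R (fun p => w p * yF β rd z p) (ovK rd) q l ∂gauss (Fin N) ≤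
        exp (2 * β ^ 2) * devOf R w (ovK rd) q l := fun l hl => by
    set H := fun ps : List (List Ω) => |ovK rd (ps.getD 0 []) (ps.getD 1 []) - q l|
    set Q := fun p z => cosh (dot (cvec β (rd p)) z) ^ 2
    have hQ := fun p => Vale.Agent.P157.Par.integrable_cosh_sq (cvec β (rd p))
    obtain ⟨hi, he⟩ := Vale.Agent.P157.Par.integral_ET (μ := gauss (Fin N)) (R := R) (m := lin R) (w := w)
      [(0, l), (0, 0)] (F := fun z ps => H ps * ((Q (ps.getD 0 []) z + Q (ps.getD 1 []) z) / 2))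
      fun ps => (((hQ _).1.add (hQ _).1).div_const 2).const_mul _
    have hle : ∀ z, devOf R (fun p => w p * yF β rd z p) (ovK rd) q l ≤
        ET R (lin R) w [(0, l), (0, 0)] fun ps => H ps * ((Q (ps.getD 0 []) z + Q (ps.getD 1 []) z) / 2) := fun z => by
      refine (Vale.Agent.P157.Par.ET_mul_le hR hw one_pos (one_le_yF β rd z)
        (Vale.Agent.P157.Par.pair_valid hl) fun ps => abs_nonneg _).trans
        (Vale.Agent.P168.MP.ET_mono_on hw (Vale.Agent.P157.Par.pair_valid hl) fun ps hs => ?_)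
      obtain ⟨p, p', rfl⟩ := List.length_eq_two.1 (show ps.length = 2 from hs.1)
      simp only [H, Q, List.map_cons, List.map_nil, List.prod_cons, List.prod_nil, mul_one, div_one, yF_eq,
        List.getD_cons_zero, List.getD_cons_succ]
      refine mul_le_mul_of_nonneg_left ?_ (abs_nonneg _)
      linarith [two_mul_le_add_sq (cosh (dot (cvec β (rd p)) z)) (cosh (dot (cvec β (rd p')) z))]
    have hI : Integrable (fun z => devOf R (fun p => w p * yF β rd z p) (ovK rd) q l) (gauss (Fin N)) := by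
      refine hi.mono' (Continuous.aestronglyMeasurable (Vale.Agent.P157.Par.continuous_ET
        (fun p => continuous_const.mul (continuous_yF β rd p)) hwY R _ fun ps => continuous_const))
        (Filter.Eventually.of_forall fun z => ?_)
      rw [Real.norm_eq_abs, abs_of_nonneg (Vale.Agent.P157.Par.devOf_nn (hwY z) l)]
      exact hle z
    refine ⟨hI, (integral_mono hI hi hle).trans ?_⟩
    rw [he, devOf, ← Vale.Agent.P168.MP.ET_const_mul]
    refine Vale.Agent.P168.MP.ET_mono hw fun ps => ?_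
    rw [integral_const_mul, integral_div, integral_add (hQ _).1 (hQ _).1, mul_comm (exp _)]
    refine mul_le_mul_of_nonneg_left ?_ (abs_nonneg _)
    have := cvec_self_le β (rd (ps.getD 0 []))
    have := cvec_self_le β (rd (ps.getD 1 []))
    linarith [(hQ (ps.getD 0 [])).2, (hQ (ps.getD 1 [])).2,
      exp_le_exp.2 (show 2 * dot (cvec β (rd (ps.getD 0 []))) (cvec β (rd (ps.getD 0 []))) ≤ 2 * β ^ 2 by linarith),
      exp_le_exp.2 (show 2 * dot (cvec β (rd (ps.getD 1 []))) (cvec β (rd (ps.getD 1 []))) ≤ 2 * β ^ 2 by linarith)]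
  obtain ⟨hi, he⟩ := Vale.Agent.P157.Par.integrable_adev_of hR (μ := gauss (Fin N))
    (w := fun z p => w p * yF β rd z p) (C := fun _ => ovK rd) (q := fun _ => q) fun l hl => (h l hl).1
  refine ⟨hi, he.trans_le ?_⟩
  unfold adev
  rw [mul_add, ← mul_div_assoc, mul_sum]
  exact add_le_add (div_le_div_of_nonneg_right (sum_le_sum fun l hl => (h l (mem_range.1 hl).le).2)
    (Nat.cast_nonneg _)) (h R le_rfl).2

/-- fourth powers of linear forms under the tilt -/
lemma tilt_quart (hR : 1 ≤ R) (hw : ∀ p, 0 < w p) (β : ℝ) (rd : List Ω → Cfg N) {b : List Ω → Fin N → ℝ}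
    (hb : ∀ p, dot (b p) (b p) ≤ 1) :
    Integrable (fun z => ET R (lin R) (fun p => w p * yF β rd z p) [(0, 0)]
        fun ps => dot (b (ps.getD 0 [])) z ^ 4) (gauss (Fin N)) ∧
      ∫ z, ET R (lin R) (fun p => w p * yF β rd z p) [(0, 0)] (fun ps => dot (b (ps.getD 0 [])) z ^ 4)
          ∂gauss (Fin N) ≤ 24 * (exp 2 + exp (2 * β ^ 2)) := by
  have hwY : ∀ z p, 0 < w p * yF β rd z p := fun z p => mul_pos (hw p) (yF_pos β rd z p)
  set Q := fun (p : List Ω) (z : Fin N → ℝ) =>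
    24 * (cosh (dot (b p) z) ^ 2 + cosh (dot (cvec β (rd p)) z) ^ 2)
  have h1 := fun p => Vale.Agent.P157.Par.integrable_cosh_sq (b p)
  have h2 := fun p => Vale.Agent.P157.Par.integrable_cosh_sq (cvec β (rd p))
  obtain ⟨hi, he⟩ := Vale.Agent.P157.Par.integral_ET_one (μ := gauss (Fin N)) (R := R) (m := lin R) (w := w)
    (fun z p => Q p z) fun p => ((h1 p).1.add (h2 p).1).const_mul 24
  have hle : ∀ z, ET R (lin R) (fun p => w p * yF β rd z p) [(0, 0)] (fun ps => dot (b (ps.getD 0 [])) z ^ 4) ≤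
      ET R (lin R) w [(0, 0)] fun ps => Q (ps.getD 0 []) z := fun z => by
    refine (Vale.Agent.P157.Par.ET_one_tilt hR hw one_pos (one_le_yF β rd z)
      (H := fun p => dot (b p) z ^ 4) fun p => Even.pow_nonneg (by decide) _).trans (Vale.Agent.P168.MP.ET_mono hw fun ps => ?_)
    set y := dot (b (ps.getD 0 [])) z
    rw [div_one, yF_eq]
    set t := cosh (dot (cvec β (rd (ps.getD 0 []))) z)
    refine (mul_le_mul_of_nonneg_right (pow_four_le_cosh y) (cosh_pos _).le).trans ?_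
    show 48 * cosh y * t ≤ 24 * (cosh y ^ 2 + t ^ 2)
    linarith [two_mul_le_add_sq (cosh y) t]
  have hI : Integrable (fun z => ET R (lin R) (fun p => w p * yF β rd z p) [(0, 0)]
      fun ps => dot (b (ps.getD 0 [])) z ^ 4) (gauss (Fin N)) := by
    refine hi.mono' (Continuous.aestronglyMeasurable (Vale.Agent.P157.Par.continuous_ET
      (fun p => continuous_const.mul (continuous_yF β rd p)) hwY R _
      fun ps => (Vale.Agent.P157.Par.continuous_dot_left _).pow 4)) (Filter.Eventually.of_forall fun z => ?_)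
    rw [Real.norm_eq_abs, abs_of_nonneg (Vale.Agent.P168.MP.ET_nonneg (hwY z) fun ps => Even.pow_nonneg (by decide) _)]
    exact hle z
  refine ⟨hI, (integral_mono hI hi hle).trans ?_⟩
  rw [he, ← Vale.Agent.P168.MP.ET_const (R := R) (m := lin R) hw [(0, 0)] (24 * (exp 2 + exp (2 * β ^ 2)))]
  refine Vale.Agent.P168.MP.ET_mono hw fun ps => ?_
  simp only [Q, integral_const_mul, integral_add (h1 _).1 (h2 _).1]
  have := hb (ps.getD 0 [])
  have := cvec_self_le β (rd (ps.getD 0 []))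
  refine mul_le_mul_of_nonneg_left (add_le_add ((h1 _).2.trans (exp_le_exp.2 ?_))
    ((h2 _).2.trans (exp_le_exp.2 ?_))) (by norm_num) <;> linarith

/-- the quadratic part of the functional -/
def s2 (R : ℕ) (q : ℕ → ℝ) : ℝ := ∑ l ∈ range (R + 1), Vale.Agent.P157.Par.coef R l * q l ^ 2

lemma s2_eq (hR : 1 ≤ R) (q : ℕ → ℝ) : s2 R q = q R ^ 2 - (∑ l ∈ range R, q l ^ 2) / R := by
  rw [s2, sum_range_succ, Vale.Agent.P157.Par.coef_top hR, one_mul, sum_div, sub_eq_add_neg, add_comm,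
    ← sum_neg_distrib]
  refine congrArg _ (sum_congr rfl fun l hl => ?_)
  rw [Vale.Agent.P157.Par.coef_lt (mem_range.1 hl)]
  ring

lemma lev_one (hR : 1 ≤ R) (β : ℝ) (q : ℕ → ℝ) : lev β R q 1 R = β * s2 R q := by
  show β * conv R q q R = _
  rw [conv_eq hR q q le_rfl, dlev_top hR, s2_eq hR]
  have : (R:ℝ) ≠ 0 := Nat.cast_ne_zero.2 (by omega)
  simp only [pow_two]
  field_simp
  ring

lemma s2_mem (hR : 1 ≤ R) {q : ℕ → ℝ} (hq : Prof R q 1) (h1 : q R = 1) : 0 ≤ s2 R q ∧ s2 R q ≤ 1 := by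
  rw [s2_eq hR, h1, one_pow]
  have h : ∑ l ∈ range R, q l ^ 2 ≤ R := by
    refine (sum_le_sum (g := fun _ => (1:ℝ)) fun l hl => ?_).trans_eq (by simp)
    obtain ⟨a, b⟩ := hq.upper (mem_range.1 hl).le
    exact pow_le_one₀ a b
  have hR' : (0:ℝ) < R := Nat.cast_pos.2 hR
  have h0 : 0 ≤ (∑ l ∈ range R, q l ^ 2) / R := by positivity
  exact ⟨sub_nonneg.2 ((div_le_one hR').2 h), by linarith⟩

lemma s2_lip (hR : 1 ≤ R) {q q' : ℕ → ℝ} (hq : Prof R q 1) (hq' : Prof R q' 1) :
    |s2 R q - s2 R q'| ≤ 2 * dist1 R q q' := by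
  have h : ∀ l ≤ R, |q l ^ 2 - q' l ^ 2| ≤ 2 * |q l - q' l| := fun l hl => by
    rw [sq_sub_sq, abs_mul]
    obtain ⟨a, b⟩ := hq.upper hl
    obtain ⟨c, d⟩ := hq'.upper hl
    exact mul_le_mul_of_nonneg_right (abs_le.2 ⟨by linarith, by linarith⟩) (abs_nonneg _)
  rw [s2_eq hR, s2_eq hR, dist1, show q R ^ 2 - (∑ l ∈ range R, q l ^ 2) / (R:ℝ) -
    (q' R ^ 2 - (∑ l ∈ range R, q' l ^ 2) / (R:ℝ)) =
    (q R ^ 2 - q' R ^ 2) - (∑ l ∈ range R, (q l ^ 2 - q' l ^ 2)) / R by
      rw [sum_sub_distrib]; ring]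
  refine (abs_sub _ _).trans ?_
  rw [abs_div, Nat.abs_cast, mul_add, ← mul_div_assoc, mul_sum, add_comm]
  exact add_le_add (div_le_div_of_nonneg_right ((abs_sum_le_sum_abs _ _).trans
    (sum_le_sum fun l hl => h l (mem_range.1 hl).le)) (Nat.cast_nonneg _)) (h R le_rfl)

omit [NeZero N] in
/-- the level values move by at most the deviation -/
lemma dist1_qlev_le {w' : List Ω → ℝ} (hw' : ∀ p, 0 < w' p) (rd : List Ω → Cfg N) (q : ℕ → ℝ) :
    dist1 R (qlev R w' rd) q ≤ adev R w' (ovK rd) q := by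
  have h : ∀ l, |qlev R w' rd l - q l| ≤ devOf R w' (ovK rd) q l := fun l => by
    rw [← Vale.Agent.P168.MP.ET_const (R := R) (m := lin R) hw' [(0, l), (0, 0)] (q l)]
    unfold qlev
    rw [← Vale.Agent.P168.MP.ET_sub]
    exact Vale.Agent.P168.MP.ET_abs_le hw' _ _
  exact add_le_add (div_le_div_of_nonneg_right (sum_le_sum fun l _ => h l) (Nat.cast_nonneg _)) (h R)

end Vale.Agent.P146.Lower
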