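import Vale.Agent.P146.Calc

/-! P146 lower bound, test field: Gaussian divergence of a polynomial vector field and its second moment. -/

open MeasureTheory ProbabilityTheory Finset Function
open Vale.Agent.P150 (gauss)

noncomputable section

namespace Vale.Agent.P146.Lower.Test

set_option linter.unusedSectionVars false

variable {S : Type*} [Fintype S] [DecidableEq S]

/-- polynomial functions of the coordinates -/
inductive Poly : ((S → ℝ) → ℝ) → Prop
  | const (c : ℝ) : Poly fun _ => c
  | coord (e : S) : Poly fun z => z e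
  | add {F G : (S → ℝ) → ℝ} : Poly F → Poly G → Poly fun z => F z + G z
  | mul {F G : (S → ℝ) → ℝ} : Poly F → Poly G → Poly fun z => F z * G z

/-- partial derivative -/
def pd (e : S) (F : (S → ℝ) → ℝ) (z : S → ℝ) : ℝ := deriv (fun t => F (update z e t)) (z e)

lemma pd_eq {e : S} {F F' : (S → ℝ) → ℝ}
    (h : ∀ z t, HasDerivAt (fun s => F (update z e s)) (F' (update z e t)) t) : pd e F = F' :=
  funext fun z => by simpa [pd] using (h z (z e)).deriv

lemma hasDerivAt_coord (a b : S) (z : S → ℝ) (t : ℝ) :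
    HasDerivAt (fun s => update z a s b) (if b = a then (1 : ℝ) else 0) t := by
  simpa [Pi.single_apply] using (hasDerivAt_pi.1 (hasDerivAt_update z a t)) b

lemma Poly.exists_pd {F : (S → ℝ) → ℝ} (hF : Poly F) (e : S) : ∃ F', Poly F' ∧
    ∀ z t, HasDerivAt (fun s => F (update z e s)) (F' (update z e t)) t := by
  induction hF with
  | const c => exact ⟨_, .const 0, fun z t => hasDerivAt_const t c⟩
  | coord b => exact ⟨_, .const (if b = e then 1 else 0), fun z t => hasDerivAt_coord e b z t⟩
  | add _ _ i1 i2 =>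
    obtain ⟨F', hF', dF⟩ := i1; obtain ⟨G', hG', dG⟩ := i2
    exact ⟨_, hF'.add hG', fun z t => (dF z t).fun_add (dG z t)⟩
  | @mul F G hF hG i1 i2 =>
    obtain ⟨F', hF', dF⟩ := i1; obtain ⟨G', hG', dG⟩ := i2
    exact ⟨_, (hF'.mul hG).add (hF.mul hG'), fun z t => (dF z t).fun_mul (dG z t)⟩

lemma Poly.hasDerivAt {F : (S → ℝ) → ℝ} (hF : Poly F) (e : S) (z : S → ℝ) (t : ℝ) :
    HasDerivAt (fun s => F (update z e s)) (pd e F (update z e t)) t := by
  obtain ⟨F', -, h⟩ := hF.exists_pd e
  rw [pd_eq h]; exact h z t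

lemma Poly.pd {F : (S → ℝ) → ℝ} (hF : Poly F) (e : S) : Poly (Test.pd e F) := by
  obtain ⟨F', hF', h⟩ := hF.exists_pd e
  rwa [pd_eq h]

lemma pd_const (e : S) (c : ℝ) : pd e (fun _ => c) = fun _ => 0 :=
  pd_eq fun _ t => hasDerivAt_const t c

lemma pd_coord (e c : S) : pd e (fun z => z c) = fun _ => if c = e then 1 else 0 :=
  pd_eq fun z t => hasDerivAt_coord e c z t

lemma pd_add {F G : (S → ℝ) → ℝ} (hF : Poly F) (hG : Poly G) (e : S) :
    pd e (fun z => F z + G z) = fun z => pd e F z + pd e G z :=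
  pd_eq fun z t => (hF.hasDerivAt e z t).fun_add (hG.hasDerivAt e z t)

lemma pd_mul {F G : (S → ℝ) → ℝ} (hF : Poly F) (hG : Poly G) (e : S) :
    pd e (fun z => F z * G z) = fun z => pd e F z * G z + F z * pd e G z :=
  pd_eq fun z t => (hF.hasDerivAt e z t).fun_mul (hG.hasDerivAt e z t)

lemma pd_comm {F : (S → ℝ) → ℝ} (hF : Poly F) (a b : S) : pd a (pd b F) = pd b (pd a F) := by
  induction hF with
  | const c => simp only [pd_const]
  | coord c =>
    rw [pd_coord, pd_coord, pd_const, pd_const]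
  | @add F G hF hG i1 i2 =>
    rw [pd_add hF hG, pd_add hF hG, pd_add (hF.pd b) (hG.pd b), pd_add (hF.pd a) (hG.pd a), i1, i2]
  | @mul F G hF hG i1 i2 =>
    rw [pd_mul hF hG, pd_mul hF hG, pd_add ((hF.pd b).mul hG) (hF.mul (hG.pd b)),
      pd_add ((hF.pd a).mul hG) (hF.mul (hG.pd a)), pd_mul (hF.pd b) hG, pd_mul hF (hG.pd b),
      pd_mul (hF.pd a) hG, pd_mul hF (hG.pd a), i1, i2]
    funext z; ring

lemma Poly.eb {F : (S → ℝ) → ℝ} (hF : Poly F) : EB F := by
  induction hF with
  | const c => exact EB.const c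
  | coord e => exact EB.proj e
  | add _ _ h1 h2 => exact h1.add h2
  | mul _ _ h1 h2 => exact h1.mul h2

lemma Poly.sub {F G : (S → ℝ) → ℝ} (hF : Poly F) (hG : Poly G) : Poly fun z => F z - G z := by
  have := hF.add ((Poly.const (-1)).mul hG)
  simpa [sub_eq_add_neg] using this

lemma Poly.sum {α : Type*} (A : Finset α) {F : α → (S → ℝ) → ℝ} (h : ∀ i ∈ A, Poly (F i)) :
    Poly fun z => ∑ i ∈ A, F i z := by
  classical
  induction A using Finset.induction with
  | empty => simpa using Poly.const (S := S) 0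
  | insert a A ha ih =>
    simp only [Finset.sum_insert ha]
    exact (h a (mem_insert_self _ _)).add (ih fun i hi => h i (mem_insert_of_mem hi))

/-- integration by parts against `z_e P - ∂_e P` -/
lemma ibp_delta {P G G' : (S → ℝ) → ℝ} (e : S) (hP : Poly P) (hG : EB G) (hG' : EB G')
    (hd : ∀ z t, HasDerivAt (fun s => G (update z e s)) (G' (update z e t)) t) :
    ∫ z, (z e * P z - pd e P z) * G z ∂gauss S = ∫ z, P z * G' z ∂gauss S := by
  have a1 := (hP.pd e).eb.mul hG
  have a2 := hP.eb.mul hG'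
  have h := EB.ibp e (hP.eb.mul hG) (a1.add a2) fun z t => (hP.hasDerivAt e z t).fun_mul (hd z t)
  have i0 := ((EB.proj e).mul (hP.eb.mul hG)).integrable
  have e1 : (fun z : S → ℝ => (z e * P z - pd e P z) * G z) =
      fun z => z e * (P z * G z) - pd e P z * G z := funext fun z => by ring
  rw [e1, integral_sub i0 a1.integrable, h, integral_add a1.integrable a2.integrable, add_sub_cancel_left]

/-- the Gaussian divergence -/
def dvg (V : S → (S → ℝ) → ℝ) (z : S → ℝ) : ℝ := ∑ e, (z e * V e z - pd e (V e) z)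

variable {V : S → (S → ℝ) → ℝ}

lemma poly_dvg (hV : ∀ e, Poly (V e)) : Poly (dvg V) :=
  Poly.sum _ fun e _ => ((Poly.coord e).mul (hV e)).sub ((hV e).pd e)

lemma integral_dvg_mul (hV : ∀ e, Poly (V e)) {G : (S → ℝ) → ℝ} {G' : S → (S → ℝ) → ℝ} (hG : EB G)
    (hG' : ∀ e, EB (G' e)) (hd : ∀ e z t, HasDerivAt (fun s => G (update z e s)) (G' e (update z e t)) t) :
    ∫ z, dvg V z * G z ∂gauss S = ∑ e, ∫ z, V e z * G' e z ∂gauss S := by
  have i : ∀ e, EB fun z : S → ℝ => (z e * V e z - pd e (V e) z) * G z := fun e =>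
    (((EB.proj e).mul (hV e).eb).sub ((hV e).pd e).eb).mul hG
  simp only [dvg, Finset.sum_mul]
  rw [integral_finsetSum _ fun e _ => (i e).integrable]
  exact sum_congr rfl fun e _ => ibp_delta e (hV e) hG (hG' e) (hd e)

lemma integral_dvg (hV : ∀ e, Poly (V e)) : ∫ z, dvg V z ∂gauss S = 0 := by
  have := integral_dvg_mul hV (G := fun _ => (1 : ℝ)) (G' := fun _ _ => 0) (EB.const 1)
    (fun _ => EB.const 0) fun e z t => hasDerivAt_const t (1 : ℝ)
  simpa using this

lemma integral_dvg_sq (hV : ∀ e, Poly (V e)) :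
    ∫ z, dvg V z ^ 2 ∂gauss S = ∑ e, ∑ f, ∫ z,
      ((if f = e then V e z * V f z else 0) + pd f (V e) z * pd e (V f) z) ∂gauss S := by
  set G' : S → (S → ℝ) → ℝ := fun e z => ∑ f,
    ((if f = e then 1 else 0) * V f z + z f * pd e (V f) z - pd e (pd f (V f)) z) with hG'
  have hd : ∀ e z t, HasDerivAt (fun s => dvg V (update z e s)) (G' e (update z e t)) t := fun e z t =>
    HasDerivAt.fun_sum fun f _ => ((hasDerivAt_coord e f z t).fun_mul ((hV f).hasDerivAt e z t)).fun_sub
      (((hV f).pd f).hasDerivAt e z t)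
  have p1 : ∀ e f, Poly fun z : S → ℝ =>
      (if f = e then 1 else 0) * V f z + z f * pd e (V f) z - pd e (pd f (V f)) z := fun e f =>
    (((Poly.const _).mul (hV f)).add ((Poly.coord f).mul ((hV f).pd e))).sub (((hV f).pd f).pd e)
  simp only [sq]
  rw [integral_dvg_mul hV (poly_dvg hV).eb (fun e => (Poly.sum _ fun f _ => p1 e f).eb) hd]
  refine sum_congr rfl fun e _ => ?_
  simp only [Finset.mul_sum]
  rw [integral_finsetSum _ fun f _ => ((hV e).eb.mul (p1 e f).eb).integrable]
  refine sum_congr rfl fun f _ => ?_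
  set W := pd e (V f) with hW
  have pW : Poly W := (hV f).pd e
  have hP := (hV e).mul pW
  have b1 := ((hV e).pd f).mul pW
  have b2 := (hV e).mul (pW.pd f)
  have h := EB.ibp f hP.eb (b1.add b2).eb fun z t => ((hV e).hasDerivAt f z t).fun_mul (pW.hasDerivAt f z t)
  have c0 : Poly fun z : S → ℝ => if f = e then V e z * V f z else 0 := by
    by_cases hfe : f = e
    · simp only [hfe, if_true]; exact (hV e).mul (hV e)
    · simp only [hfe, if_false]; exact Poly.const 0
  have c1 := (Poly.coord f).mul hP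
  rw [integral_add c0.eb.integrable b1.eb.integrable]
  have e1 : (fun z => V e z * ((if f = e then 1 else 0) * V f z + z f * W z - pd e (pd f (V f)) z)) =
      fun z => (if f = e then V e z * V f z else 0) + (z f * (V e z * W z) - V e z * pd f W z) := by
    funext z
    rw [hW, pd_comm (hV f) f e]
    split_ifs <;> ring
  rw [e1, integral_add c0.eb.integrable (c1.eb.sub b2.eb).integrable,
    integral_sub c1.eb.integrable b2.eb.integrable, h, integral_add b1.eb.integrable b2.eb.integrable,
    add_sub_cancel_right]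

lemma integral_dvg_sq_le (hV : ∀ e, Poly (V e)) :
    ∫ z, dvg V z ^ 2 ∂gauss S ≤
      ∫ z, (∑ e, V e z ^ 2 + ∑ e, ∑ f, pd f (V e) z ^ 2) ∂gauss S := by
  have c : ∀ e f, Poly fun z : S → ℝ =>
      (if f = e then V e z * V f z else 0) + pd f (V e) z * pd e (V f) z := fun e f => by
    refine Poly.add ?_ (((hV e).pd f).mul ((hV f).pd e))
    by_cases hfe : f = e
    · simp only [hfe, if_true]; exact (hV e).mul (hV e)
    · simp only [hfe, if_false]; exact Poly.const 0
  rw [integral_dvg_sq hV, sum_congr rfl fun e _ => (integral_finsetSum _ fun f _ => (c e f).eb.integrable).symm,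
    ← integral_finsetSum _ fun e _ => (Poly.sum _ fun f _ => c e f).eb.integrable]
  refine integral_mono (Poly.sum _ fun e _ => Poly.sum _ fun f _ => c e f).eb.integrable
    ((EB.sum _ fun e _ => ?_).add (EB.sum _ fun e _ => EB.sum _ fun f _ => ?_)).integrable fun z => ?_
  · simpa only [sq] using (hV e).eb.mul (hV e).eb
  · simpa only [sq] using ((hV e).pd f).eb.mul ((hV e).pd f).eb
  · simp only [sum_add_distrib, sum_ite_eq', mem_univ, if_true, sq]
    refine add_le_add le_rfl ?_
    set x := fun e f => pd f (V e) z with hx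
    show ∑ e, ∑ f, x e f * x f e ≤ ∑ e, ∑ f, x e f * x e f
    have h : ∑ e, ∑ f, x e f * x f e ≤ ∑ e, ∑ f, (x e f * x e f + x f e * x f e) / 2 :=
      sum_le_sum fun e _ => sum_le_sum fun f _ => by nlinarith [sq_nonneg (x e f - x f e)]
    refine h.trans_eq ?_
    simp only [add_div, sum_add_distrib, ← sum_div]
    rw [sum_comm (f := fun e f => x f e * x f e), add_halves]

/-- Cauchy–Schwarz against a centred function -/
lemma sq_integral_le {F D : (S → ℝ) → ℝ} (hF : EB F) (hD : EB D) (h0 : ∫ z, D z ∂gauss S = 0) :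
    (∫ z, F z * D z ∂gauss S) ^ 2 ≤ Var[F; gauss S] * ∫ z, D z ^ 2 ∂gauss S := by
  rw [variance_eq_integral hF.1.aemeasurable]
  set m := ∫ z, F z ∂gauss S
  have hc : EB fun z => F z - m := hF.sub (EB.const m)
  have i1 : Integrable (fun z => D z ^ 2) (gauss S) := by simpa only [sq] using (hD.mul hD).integrable
  have i2 : Integrable (fun z => (F z - m) * D z) (gauss S) := (hc.mul hD).integrable
  have i3 : Integrable (fun z => (F z - m) ^ 2) (gauss S) := by simpa only [sq] using (hc.mul hc).integrable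
  have e : ∫ z, F z * D z ∂gauss S = ∫ z, (F z - m) * D z ∂gauss S := by
    simp only [sub_mul]
    rw [integral_sub (hF.mul hD).integrable (hD.integrable.const_mul m), integral_const_mul, h0]
    simp
  have q : ∀ t : ℝ, 0 ≤ (∫ z, D z ^ 2 ∂gauss S) * (t * t) + 2 * (∫ z, (F z - m) * D z ∂gauss S) * t +
      ∫ z, (F z - m) ^ 2 ∂gauss S := fun t => by
    have h : 0 ≤ ∫ z, (t * D z + (F z - m)) ^ 2 ∂gauss S := integral_nonneg fun z => sq_nonneg _
    have ee : (fun z => (t * D z + (F z - m)) ^ 2) =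
        fun z => t * t * D z ^ 2 + 2 * t * ((F z - m) * D z) + (F z - m) ^ 2 := funext fun z => by ring
    rw [ee, integral_add ((i1.const_mul _).fun_add (i2.const_mul _)) i3,
      integral_add (i1.const_mul _) (i2.const_mul _), integral_const_mul, integral_const_mul] at h
    linarith
  have hd := discrim_le_zero q
  rw [discrim] at hd
  rw [e]
  linarith

end Vale.Agent.P146.Lower.Test
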