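import Vale.Agent.P146.Lower.Basic
import Vale.Agent.P146.Lower.Cheb
import Vale.Agent.P146.Lower.TestCalc

/-! P146 lower bound, test field: traces of Chebyshev products and their limits in `L¹`. -/

open MeasureTheory Finset Real Filter ProbabilityTheory
open Vale.Agent.P150 (gauss)

noncomputable section

namespace Vale.Agent.P146.Lower.Test

variable {n : ℕ}

lemma cpl_symm (g : Edge n → ℝ) (a b : Fin n) : cpl g a b = cpl g b a := by
  unfold cpl
  rcases lt_trichotomy a b with h | rfl | h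
  · simp [h, h.not_gt]
  · rfl
  · simp [h, h.not_gt]

lemma cheb_comm (A : Matrix (Fin n) (Fin n) ℝ) (i p : ℕ) : cheb A i * cheb A p = cheb A p * cheb A i := by
  rw [cheb_mul, cheb_mul, min_comm, add_comm i p]

lemma cheb_symm (g : Edge n → ℝ) : ∀ j, (cheb (Wm g) j).IsSymm
  | 0 => Matrix.isSymm_one
  | 1 => Matrix.IsSymm.ext fun a b => by simp only [cheb, Wm, cpl_symm g a b]
  | j + 2 => by
    have h1 : (Wm g).IsSymm := cheb_symm g 1
    have h2 : (cheb (Wm g) (j + 1)).IsSymm := cheb_symm g (j + 1)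
    refine Matrix.IsSymm.sub ?_ (cheb_symm g j)
    rw [Matrix.IsSymm, Matrix.transpose_mul, h1.eq, h2.eq]
    exact cheb_comm (Wm g) (j + 1) 1

lemma chebSum_symm (a : ℕ → ℝ) (K : ℕ) (g : Edge n → ℝ) (x y : Fin n) :
    chebSum a K (Wm g) x y = chebSum a K (Wm g) y x := by
  simp only [chebSum, Matrix.sum_apply, Matrix.smul_apply]
  exact sum_congr rfl fun j _ => by rw [(cheb_symm g (j + 1)).apply y x]

lemma sum_spin_mul (i j : Fin n) :
    ∑ x : Cfg n, spin (x i) * spin (x j) = if i = j then (2 : ℝ) ^ n else 0 := by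
  have hs : ∀ b : Bool, spin b * spin b = 1 := fun b => by cases b <;> simp [spin]
  split_ifs with h
  · subst h; simp [hs]
  · let F : Cfg n → Cfg n := fun x => Function.update x i (!(x i))
    have hF : Function.Involutive F := fun x => by simp [F]
    have h2 := Equiv.sum_comp (Function.Involutive.toPerm F hF) fun x : Cfg n => spin (x i) * spin (x j)
    have h3 : ∀ x : Cfg n, spin (F x i) * spin (F x j) = -(spin (x i) * spin (x j)) := fun x => by
      simp only [F, Function.update_self, Function.update_of_ne (Ne.symm h)]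
      cases x i <;> cases x j <;> simp [spin]
    simp only [Function.Involutive.coe_toPerm, h3, sum_neg_distrib] at h2
    linarith

lemma sum_bil_self (A : Matrix (Fin n) (Fin n) ℝ) : ∑ x : Cfg n, bil A x x = 2 ^ n * A.trace := by
  simp only [bil]
  rw [sum_comm, Matrix.trace, mul_sum]
  refine sum_congr rfl fun i _ => ?_
  rw [sum_comm]
  simp only [mul_comm (spin _) (A i _), mul_assoc, ← mul_sum, sum_spin_mul]
  simp [mul_comm]

/-- `[i = 0]` -/
def e0 (i : ℕ) : ℝ := if i = 0 then 1 else 0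

/-- normalised trace of `U_i` -/
def tau (i n : ℕ) (g : Edge n → ℝ) : ℝ := (cheb (Wm g) i).trace / n

/-- normalised trace of `U_i U_p` -/
def pt (i p n : ℕ) (g : Edge n → ℝ) : ℝ := (cheb (Wm g) i * cheb (Wm g) p).trace / n

/-- normalised trace of a product of four -/
def qt (i p q r n : ℕ) (g : Edge n → ℝ) : ℝ :=
  ((cheb (Wm g) i * cheb (Wm g) p) * (cheb (Wm g) q * cheb (Wm g) r)).trace / n

lemma pt_eq (i p n : ℕ) (g : Edge n → ℝ) :
    pt i p n g = ∑ m ∈ range (min i p + 1), tau (i + p - 2 * m) n g := by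
  simp only [pt, tau, cheb_mul, Matrix.trace_sum, sum_div]

lemma qt_eq (i p q r n : ℕ) (g : Edge n → ℝ) : qt i p q r n g =
    ∑ m ∈ range (min i p + 1), ∑ l ∈ range (min q r + 1), pt (i + p - 2 * m) (q + r - 2 * l) n g := by
  rw [qt, cheb_mul _ i p, cheb_mul _ q r]
  simp only [pt, sum_mul, mul_sum, Matrix.trace_sum, sum_div]
  exact sum_comm

lemma abs_tau_le (i n : ℕ) (g : Edge n → ℝ) : |tau i n g| ≤ (opn g + 2) ^ i := by
  have h0 : 0 ≤ (opn g + 2) ^ i := by have : 0 ≤ opn g := norm_nonneg _; positivity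
  rcases Nat.eq_zero_or_pos n with rfl | hn
  · simpa [tau] using h0
  have hn' : (0 : ℝ) < n := Nat.cast_pos.2 hn
  have h : (2 : ℝ) ^ n * |(cheb (Wm g) i).trace| ≤ 2 ^ n * (n * (opn g + 2) ^ i) := by
    rw [← abs_of_pos (by positivity : (0 : ℝ) < 2 ^ n), ← abs_mul, ← sum_bil_self,
      abs_of_pos (by positivity : (0 : ℝ) < 2 ^ n)]
    refine (abs_sum_le_sum_abs _ _).trans ((sum_le_sum fun x _ => abs_bil_cheb_le g i x x).trans_eq ?_)
    simp
  rw [tau, abs_div, abs_of_pos hn', div_le_iff₀ hn', mul_comm]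
  exact le_of_mul_le_mul_left h (by positivity)

lemma abs_pt_le (i p n : ℕ) (g : Edge n → ℝ) :
    |pt i p n g| ≤ (min i p + 1 : ℕ) * (opn g + 2) ^ (i + p) := by
  rw [pt_eq]
  refine (abs_sum_le_sum_abs _ _).trans ((sum_le_sum fun m _ => (abs_tau_le _ n g).trans
    (pow_le_pow_right₀ ?_ (Nat.sub_le _ _))).trans_eq (by simp))
  have : 0 ≤ opn g := norm_nonneg _
  linarith

lemma eb_trace_mul {A B : (Edge n → ℝ) → Matrix (Fin n) (Fin n) ℝ} (hA : ∀ a b, EB fun g => A g a b)
    (hB : ∀ a b, EB fun g => B g a b) : EB fun g => (A g * B g).trace := by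
  simp only [Matrix.trace, Matrix.diag_apply, Matrix.mul_apply]
  exact EB.sum _ fun a _ => EB.sum _ fun b _ => (hA a b).mul (hB b a)

lemma eb_tau (i n : ℕ) : EB fun g : Edge n → ℝ => tau i n g := by
  simp only [tau, Matrix.trace, Matrix.diag_apply, div_eq_mul_inv]
  exact (EB.sum _ fun a _ => eb_cheb i a a).mul (EB.const _)

lemma eb_pt (i p n : ℕ) : EB fun g : Edge n → ℝ => pt i p n g := by
  simp only [pt, div_eq_mul_inv]
  exact (eb_trace_mul (fun a b => eb_cheb i a b) fun a b => eb_cheb p a b).mul (EB.const _)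

lemma eb_qt (i p q r n : ℕ) : EB fun g : Edge n → ℝ => qt i p q r n g := by
  simp only [qt_eq]
  exact EB.sum _ fun m _ => EB.sum _ fun l _ => eb_pt _ _ n

/-- convergence in mean to a constant, along `n` -/
structure L1To (X : ∀ n : ℕ, (Edge n → ℝ) → ℝ) (c : ℝ) : Prop where
  eb : ∀ n, EB (X n)
  lim : Tendsto (fun n => ∫ g, |X n g - c| ∂gauss (Edge n)) atTop (nhds 0)

variable {X Y : ∀ n : ℕ, (Edge n → ℝ) → ℝ} {x y : ℝ}

lemma L1To.of_le (hX : ∀ n, EB (X n)) {b : ℕ → ℝ}
    (h : ∀ᶠ n : ℕ in atTop, ∫ g, |X n g - x| ∂gauss (Edge n) ≤ b n) (hb : Tendsto b atTop (nhds 0)) :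
    L1To X x :=
  ⟨hX, squeeze_zero' (Eventually.of_forall fun _ => integral_nonneg fun _ => abs_nonneg _) h hb⟩

lemma L1To.int (h : L1To X x) (n : ℕ) : Integrable (fun g => |X n g - x|) (gauss (Edge n)) :=
  (EB.abs' ((h.eb n).sub (EB.const x))).integrable

lemma L1To.const (c : ℝ) : L1To (fun _ _ => c) c :=
  ⟨fun _ => EB.const c, by simp⟩

lemma L1To.add (hX : L1To X x) (hY : L1To Y y) : L1To (fun n g => X n g + Y n g) (x + y) := by
  refine .of_le (fun n => (hX.eb n).add (hY.eb n)) (Eventually.of_forall fun n => ?_)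
    (by simpa using hX.lim.add hY.lim)
  rw [← integral_add (hX.int n) (hY.int n)]
  exact integral_mono (EB.abs' (((hX.eb n).add (hY.eb n)).sub (EB.const _))).integrable
    ((hX.int n).add (hY.int n)) fun g => by
      show |X n g + Y n g - (x + y)| ≤ |X n g - x| + |Y n g - y|
      rw [add_sub_add_comm]; exact abs_add_le _ _

lemma L1To.smul (hX : L1To X x) (c : ℝ) : L1To (fun n g => c * X n g) (c * x) := by
  refine .of_le (b := fun n => |c| * ∫ g, |X n g - x| ∂gauss (Edge n)) (fun n => (EB.const c).mul (hX.eb n))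
    (Eventually.of_forall fun n => le_of_eq ?_) (by simpa using hX.lim.const_mul |c|)
  simp only [← mul_sub, abs_mul, integral_const_mul]

lemma L1To.smul_seq (hX : L1To X x) {s : ℕ → ℝ} (hs : Tendsto s atTop (nhds 0)) :
    L1To (fun n g => s n * X n g) 0 := by
  refine .of_le (b := fun n => |s n| * ((∫ g, |X n g - x| ∂gauss (Edge n)) + |x|))
    (fun n => (EB.const _).mul (hX.eb n)) (Eventually.of_forall fun n => ?_)
    (by simpa using hs.abs.mul (hX.lim.add_const |x|))
  simp only [sub_zero, abs_mul, integral_const_mul]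
  refine mul_le_mul_of_nonneg_left ?_ (abs_nonneg _)
  refine (integral_mono (EB.abs' (hX.eb n)).integrable ((hX.int n).add (integrable_const |x|)) fun g => ?_).trans_eq
    ((integral_add (hX.int n) (integrable_const |x|)).trans (by simp))
  show |X n g| ≤ |X n g - x| + |x|
  simpa using abs_add_le (X n g - x) x

lemma L1To.sum {α : Type*} (A : Finset α) {Z : α → ∀ n : ℕ, (Edge n → ℝ) → ℝ} {z : α → ℝ}
    (h : ∀ i ∈ A, L1To (Z i) (z i)) : L1To (fun n g => ∑ i ∈ A, Z i n g) (∑ i ∈ A, z i) := by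
  classical
  induction A using Finset.induction with
  | empty => simpa using L1To.const 0
  | insert a A ha ih =>
    simp only [Finset.sum_insert ha]
    exact (h a (mem_insert_self _ _)).add (ih fun i hi => h i (mem_insert_of_mem hi))

lemma L1To.mul_of_bound (hX : L1To X x) (hY : L1To Y y) {A B : ℝ} (hA : 0 ≤ A) (k l : ℕ)
    (bX : ∀ n g, |X n g| ≤ A * (opn g + 2) ^ k) (bY : ∀ n g, |Y n g| ≤ B * (opn g + 2) ^ l) :
    L1To (fun n g => X n g * Y n g) (x * y) := by
  obtain ⟨C, hC, hC'⟩ := opn_mom (k + 2 * l)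
  refine ⟨fun n => (hX.eb n).mul (hY.eb n), tendsto_order.2 ⟨fun b hb => Eventually.of_forall fun n =>
    hb.trans_le (integral_nonneg fun g => abs_nonneg _), fun b hb => ?_⟩⟩
  set M := (A + |x|) * B ^ 2 * C with hM
  have hM0 : 0 ≤ M := by positivity
  set L := 2 * M / b + 1 with hL
  have hL0 : 0 < L := by positivity
  have hML : M / L < b / 2 := by
    rw [div_lt_iff₀ hL0, hL]
    field_simp
    nlinarith
  have t := (hX.lim.const_mul L).add (hY.lim.const_mul |x|)
  simp only [mul_zero, add_zero] at t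
  filter_upwards [(tendsto_order.1 t).2 (b / 2) (half_pos hb), eventually_ge_atTop 1] with n hn h1
  obtain ⟨hi, hC''⟩ := hC' n h1
  have iY := (hY.int n).const_mul |x|
  have iX := (hX.int n).const_mul L
  have iC := hi.const_mul ((A + |x|) * B ^ 2 / L)
  refine lt_of_le_of_lt (integral_mono (EB.abs' (((hX.eb n).mul (hY.eb n)).sub (EB.const _))).integrable
    ((iX.add iY).add iC) fun g => ?_) ?_
  · have ho : (1 : ℝ) ≤ opn g + 2 := by have : 0 ≤ opn g := norm_nonneg _; linarith
    show |X n g * Y n g - x * y| ≤ L * |X n g - x| + |x| * |Y n g - y| +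
      (A + |x|) * B ^ 2 / L * (opn g + 2) ^ (k + 2 * l)
    rw [show X n g * Y n g - x * y = (X n g - x) * Y n g + x * (Y n g - y) by ring]
    refine (abs_add_le _ _).trans ?_
    rw [abs_mul, abs_mul]
    have hD : |X n g - x| ≤ (A + |x|) * (opn g + 2) ^ k := by
      refine (abs_sub _ _).trans ?_
      rw [add_mul]
      exact add_le_add (bX n g) (le_mul_of_one_le_right (abs_nonneg _) (one_le_pow₀ ho))
    have hY2 : |Y n g| ^ 2 ≤ (B * (opn g + 2) ^ l) ^ 2 := pow_le_pow_left₀ (abs_nonneg _) (bY n g) 2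
    have key : |X n g - x| * |Y n g| ≤ L * |X n g - x| + |X n g - x| * |Y n g| ^ 2 / L := by
      have : |Y n g| ≤ L + |Y n g| ^ 2 / L := by
        have : |Y n g| - L ≤ |Y n g| ^ 2 / L := by
          rw [le_div_iff₀ hL0]; nlinarith [sq_nonneg (|Y n g| - L), abs_nonneg (Y n g)]
        linarith
      calc _ ≤ |X n g - x| * (L + |Y n g| ^ 2 / L) := mul_le_mul_of_nonneg_left this (abs_nonneg _)
        _ = _ := by ring
    have h3 : |X n g - x| * |Y n g| ^ 2 / L ≤ (A + |x|) * B ^ 2 / L * (opn g + 2) ^ (k + 2 * l) := by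
      refine (div_le_div_of_nonneg_right (mul_le_mul hD hY2 (sq_nonneg _)
        (le_trans (abs_nonneg _) hD)) hL0.le).trans_eq ?_
      rw [pow_add, mul_comm 2 l, pow_mul]; ring
    linarith
  · simp only [Pi.add_apply]
    rw [integral_add (iX.fun_add iY) iC, integral_add iX iY, integral_const_mul, integral_const_mul,
      integral_const_mul]
    have : (A + |x|) * B ^ 2 / L * ∫ g, (opn g + 2) ^ (k + 2 * l) ∂gauss (Edge n) ≤ M / L := by
      rw [hM, div_mul_eq_mul_div]
      exact div_le_div_of_nonneg_right (mul_le_mul_of_nonneg_left hC'' (by positivity)) hL0.le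
    linarith

lemma L1To.tendsto_integral (hX : L1To X x) :
    Tendsto (fun n => ∫ g, X n g ∂gauss (Edge n)) atTop (nhds x) := by
  rw [tendsto_iff_norm_sub_tendsto_zero]
  refine squeeze_zero (fun n => norm_nonneg _) (fun n => ?_) hX.lim
  have h : ∫ g, X n g ∂gauss (Edge n) - x = ∫ g, (X n g - x) ∂gauss (Edge n) := by
    rw [integral_sub (hX.eb n).integrable (integrable_const x)]; simp
  rw [Real.norm_eq_abs, h]
  exact abs_integral_le_integral_abs

lemma lim_tau (i : ℕ) : L1To (tau i) (e0 i) := by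
  obtain ⟨C, -, hC⟩ := trace_close i
  refine .of_le (b := fun n => C / √(n : ℝ)) (eb_tau i) ?_ ?_
  · filter_upwards [eventually_ge_atTop 1] with n hn using hC n hn
  · exact tendsto_const_nhds.div_atTop (Real.tendsto_sqrt_atTop.comp tendsto_natCast_atTop_atTop)

lemma lim_pt (i p : ℕ) : L1To (pt i p) (if i = p then 1 else 0) := by
  have h := L1To.sum (range (min i p + 1)) fun m _ => lim_tau (i + p - 2 * m)
  rw [show (fun n g => ∑ m ∈ range (min i p + 1), tau (i + p - 2 * m) n g) = pt i p from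
    funext fun n => funext fun g => (pt_eq i p n g).symm] at h
  convert h using 1
  split_ifs with hip
  · subst hip
    simp only [e0]
    rw [sum_eq_single i (fun m hm hne => if_neg (by simp at hm; omega)) (by simp)]
    simp [two_mul]
  · exact (sum_eq_zero fun m hm => if_neg (by simp at hm; omega)).symm

lemma lim_qt (i p q r : ℕ) : ∃ c, L1To (qt i p q r) c := by
  refine ⟨∑ m ∈ range (min i p + 1), ∑ l ∈ range (min q r + 1),
    if i + p - 2 * m = q + r - 2 * l then 1 else 0, ?_⟩
  rw [show qt i p q r = fun n g => ∑ m ∈ range (min i p + 1), ∑ l ∈ range (min q r + 1),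
    pt (i + p - 2 * m) (q + r - 2 * l) n g from funext fun n => funext fun g => qt_eq i p q r n g]
  exact L1To.sum _ fun m _ => L1To.sum _ fun l _ => lim_pt _ _

lemma lim_pt_mul (i p q r : ℕ) :
    L1To (fun n g => pt i p n g * pt q r n g) (if i = p ∧ q = r then 1 else 0) := by
  have h := (lim_pt i p).mul_of_bound (lim_pt q r) (A := (min i p + 1 : ℕ)) (B := (min q r + 1 : ℕ))
    (Nat.cast_nonneg _) (i + p) (q + r) (abs_pt_le i p) (abs_pt_le q r)
  convert h using 1
  split_ifs <;> simp_all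

end Vale.Agent.P146.Lower.Test
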