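import Vale.Agent.P168.MP.Grow

/-! P146 lower bound: a tilt by a factor `Y ≥ 1` of a one-replica expectation costs at most the factor `Y`. -/

open Finset Real

noncomputable section

namespace Vale.Agent.P146.Lower

open Vale.Agent.P168.MP

variable {Ω : Type*} [Fintype Ω] [Nonempty Ω] {R : ℕ} {m : ℕ → ℝ} {w Y : List Ω → ℝ}

/-- the exponent met `k` levels below the top -/
def expo (m : ℕ → ℝ) (pre : List Ω) : ℕ → ℝ
  | 0 => 1
  | _ + 1 => m (pre.length + 1)

lemma Z_le_tilt (h : Ok R m w) (hY : ∀ p, 1 ≤ Y p) : ∀ (k : ℕ) (pre : List Ω), pre.length + k = R →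
    Z m w k pre ≤ Z m (fun p => w p * Y p) k pre
  | 0, pre, _ => le_mul_of_one_le_right (h.wpos pre).le (hY pre)
  | k + 1, pre, hk => by
    have hM : 0 < m (pre.length + 1) := h.pos _ (by omega) (by omega)
    simp only [Z]
    refine rpow_le_rpow (avg_pos fun o => rpow_pos_of_pos (Z_pos h.wpos _ _) _).le
      (avg_le_avg fun o => rpow_le_rpow (Z_pos h.wpos _ _).le
        (Z_le_tilt h hY k (pre ++ [o]) (by simp; omega)) hM.le) (by positivity)

lemma ext_tilt_le (h : Ok R m w) (hY : ∀ p, 1 ≤ Y p) {F : List Ω → ℝ} (hF : ∀ p, 0 ≤ F p) :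
    ∀ (k : ℕ) (pre : List Ω), pre.length + k = R →
      ext m (fun p => w p * Y p) k pre F * (Z m (fun p => w p * Y p) k pre / Z m w k pre) ^ expo m pre k ≤
        ext m w k pre fun p => Y p * F p
  | 0, pre, _ => by
    have := (h.wpos pre).ne'
    simp only [Vale.Agent.P168.MP.ext, Z, expo, rpow_one]
    rw [mul_div_cancel_left₀ _ this, mul_comm]
  | k + 1, pre, hk => by
    have hM : 0 < m (pre.length + 1) := h.pos _ (by omega) (by omega)
    have hw' : ∀ p, 0 < w p * Y p := fun p => mul_pos (h.wpos p) (one_pos.trans_le (hY p))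
    set w' := fun p => w p * Y p
    set M := m (pre.length + 1)
    set A := fun o => Z m w k (pre ++ [o])
    set A' := fun o => Z m w' k (pre ++ [o])
    have hA : ∀ o, 0 < A o := fun o => Z_pos h.wpos _ _
    have hA' : ∀ o, 0 < A' o := fun o => Z_pos hw' _ _
    have hS : 0 < ∑ o, A o ^ M := sum_pos (fun o _ => rpow_pos_of_pos (hA o) _) univ_nonempty
    have hS' : 0 < ∑ o, A' o ^ M := sum_pos (fun o _ => rpow_pos_of_pos (hA' o) _) univ_nonempty
    have hr : (Z m w' (k + 1) pre / Z m w (k + 1) pre) ^ M = (∑ o, A' o ^ M) / ∑ o, A o ^ M := by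
      have hc := card_pos_real (Ω := Ω)
      simp only [Z, avg]
      rw [← div_rpow (by positivity) (by positivity), ← rpow_mul (by positivity), one_div,
        inv_mul_cancel₀ hM.ne', rpow_one, div_div_div_cancel_right₀ hc.ne']
    simp only [expo, Vale.Agent.P168.MP.ext, sum_mul]
    rw [hr]
    refine sum_le_sum fun o _ => ?_
    have hq : (pre ++ [o]).length + k = R := by simp; omega
    have h1 : 1 ≤ A' o / A o := (one_le_div (hA o)).2 (Z_le_tilt h hY k _ hq)
    have he : M ≤ expo m (pre ++ [o]) k := by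
      cases k with
      | zero => simp only [expo, M]; rw [show pre.length + 1 = R by omega, h.top]
      | succ j =>
        simp only [expo, M, List.length_append, List.length_singleton]
        exact h.mono _ (by omega) (by omega)
    have hE : 0 ≤ ext m w' k (pre ++ [o]) F := ext_nonneg (fun p => hw' p) hF
    have ih := (mul_le_mul_of_nonneg_left (rpow_le_rpow_of_exponent_le h1 he) hE).trans
      (ext_tilt_le h hY hF k (pre ++ [o]) hq)
    rw [div_rpow (hA' o).le (hA o).le] at ih
    refine le_trans (le_of_eq ?_) (mul_le_mul_of_nonneg_left ih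
      (show 0 ≤ Vale.Agent.P168.MP.trans m w k pre o from div_nonneg (rpow_pos_of_pos (hA o) _).le hS.le))
    simp only [Vale.Agent.P168.MP.trans]
    change A' o ^ M / (∑ o', A' o' ^ M) * ext m w' k (pre ++ [o]) F * ((∑ o, A' o ^ M) / ∑ o, A o ^ M) =
      A o ^ M / (∑ o', A o' ^ M) * (ext m w' k (pre ++ [o]) F * (A' o ^ M / A o ^ M))
    have := (rpow_pos_of_pos (hA o) M).ne'
    field_simp

/-- **Tilt bound** for one replica -/
theorem ET_tilt_le (h : Ok R m w) (hY : ∀ p, 1 ≤ Y p) {F : List (List Ω) → ℝ} (hF : ∀ ps, 0 ≤ F ps) :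
    ET R m (fun p => w p * Y p) [(0, 0)] F ≤ ET R m w [(0, 0)] fun ps => Y (ps.getD 0 []) * F ps := by
  simp only [ET, Nat.sub_zero, List.getD_nil, List.take_zero, List.nil_append, List.getD_cons_zero]
  have key := ext_tilt_le h hY (F := fun q => F [q]) (fun q => hF _) R [] (by simp)
  have hw' : ∀ p, 0 < w p * Y p := fun p => mul_pos (h.wpos p) (one_pos.trans_le (hY p))
  refine le_trans (le_mul_of_one_le_right (ext_nonneg (fun p => hw' p) fun q => hF _) ?_) key
  refine one_le_rpow ((one_le_div (Z_pos h.wpos _ _)).2 (Z_le_tilt h hY R [] (by simp))) ?_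
  cases R with
  | zero => exact zero_le_one
  | succ j => exact (h.pos _ le_rfl (by omega)).le

end Vale.Agent.P146.Lower
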